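import Vale.Agent.P192Z.Mach.Words

/-!
# P192: the Capelli identity and the direct proof of nilpotency
-/

namespace Vale.Agent.P192Z

theorem capelli {K B Z S : Type} [CommRing K] [Ring B] [Algebra K B] [Fintype Z] [DecidableEq Z]
    (h2 : (2 : K) = 0) {ρ M : ℕ} (e : Fin ρ → B) (he : Submodule.span K (Set.range e) = ⊤)
    (b : Z → B) (μ : (Fin M → Z) → K) (sk : (Fin M → Z) → S)
    (h : ∀ z0, μ z0 ≠ 0 → ∃ J : Finset (Fin M), ρ < J.card ∧ ∀ z, sk z = sk z0 →
      ∀ i ∈ J, ∀ j ∈ J, i ≠ j → sk (z ∘ Equiv.swap i j) = sk z ∧ μ (z ∘ Equiv.swap i j) = μ z ∧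
        (z i = z j → μ z = 0)) :
    ∑ z : Fin M → Z, μ z • (List.ofFn (b ∘ z)).prod = 0 := by
  classical
  have hc : ∀ y : Z, ∃ c : Fin ρ → K, ∑ i, c i • e i = b y := fun y =>
    (Submodule.mem_span_range_iff_exists_fun K).1 (he ▸ Submodule.mem_top)
  choose c hc using hc
  have hBB : ∀ x : B, x + x = 0 := fun x => by rw [← two_smul K x, h2, zero_smul]
  have hexp : ∀ z : Fin M → Z, (List.ofFn (b ∘ z)).prod =
      ∑ idx : Fin M → Fin ρ, (∏ k, c (z k) (idx k)) • (List.ofFn (e ∘ idx)).prod := by
    intro z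
    have h1 : b ∘ z = fun k => ∑ i, c (z k) i • e i := funext fun k => (hc (z k)).symm
    rw [← MultilinearMap.mkPiAlgebraFin_apply (R := K), h1, MultilinearMap.map_sum]
    refine Finset.sum_congr rfl fun idx _ => ?_
    rw [MultilinearMap.map_smul_univ, MultilinearMap.mkPiAlgebraFin_apply]
    rfl
  rw [← Finset.sum_fiberwise_of_maps_to (s := Finset.univ) (t := Finset.univ.image sk) (g := sk)
    (fun z _ => Finset.mem_image_of_mem _ (Finset.mem_univ z))]
  refine Finset.sum_eq_zero fun s _ => ?_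
  by_cases hex : ∃ z0, sk z0 = s ∧ μ z0 ≠ 0
  swap
  · push Not at hex
    refine Finset.sum_eq_zero fun z hz => ?_
    rw [hex z (Finset.mem_filter.1 hz).2, zero_smul]
  obtain ⟨z0, rfl, hz0⟩ := hex
  obtain ⟨J, hJ, hsw⟩ := h z0 hz0
  simp only [hexp, Finset.smul_sum]
  rw [Finset.sum_comm]
  refine Finset.sum_eq_zero fun idx _ => ?_
  obtain ⟨i, hi, j, hj, hij, hidx⟩ := Finset.exists_ne_map_eq_of_card_lt_of_maps_to
    (s := J) (t := Finset.univ) (by simpa using hJ) (f := idx) (fun _ _ => Finset.mem_univ _)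
  refine Finset.sum_involution (fun z _ => z ∘ Equiv.swap i j) (fun z hz => ?_)
    (fun z hz hne heq => hne ?_) (fun z hz => ?_) (fun z _ => ?_)
  · obtain ⟨-, h3, -⟩ := hsw z (Finset.mem_filter.1 hz).2 i hi j hj hij
    have h4 : ∏ k, c ((z ∘ Equiv.swap i j) k) (idx k) = ∏ k, c (z k) (idx k) := by
      rw [← Equiv.prod_comp (Equiv.swap i j)]
      refine Finset.prod_congr rfl fun k _ => ?_
      rw [Function.comp_apply, Equiv.swap_apply_self, Equiv.apply_swap_eq_self hidx k]
    rw [h3, h4, hBB]
  · obtain ⟨-, -, h3⟩ := hsw z (Finset.mem_filter.1 hz).2 i hi j hj hij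
    have h4 : z j = z i := by simpa using congrFun heq i
    rw [h3 h4.symm, zero_smul]
  · have hz' := (Finset.mem_filter.1 hz).2
    exact Finset.mem_filter.2 ⟨Finset.mem_univ _, (hsw z hz' i hi j hj hij).1.trans hz'⟩
  · funext k
    simp

namespace Cap

variable {X V : Type} [Fintype X] [AddCommMonoid V]

/-- the sum of a function over all words of a given length -/
def wsum (N : ℕ) (F : List X → V) : V := ∑ w : Fin N → X, F (List.ofFn w)

theorem wsum_zero (F : List X → V) : wsum 0 F = F [] := by simp [wsum]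

theorem wsum_succ (N : ℕ) (F : List X → V) :
    wsum (N + 1) F = ∑ x : X, wsum N fun w => F (x :: w) := by
  unfold wsum
  rw [← Fintype.sum_prod_type', ← (Fin.consEquiv fun _ : Fin (N + 1) => X).sum_comp]
  refine Finset.sum_congr rfl fun p _ => ?_
  simp [Fin.consEquiv, List.ofFn_succ]

theorem wsum_add (m n : ℕ) (F : List X → V) :
    wsum (m + n) F = wsum m fun u => wsum n fun v => F (u ++ v) := by
  induction m generalizing F with
  | zero => simp [wsum_zero]
  | succ m ih =>
    rw [Nat.add_right_comm, wsum_succ, wsum_succ]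
    exact Finset.sum_congr rfl fun x _ => ih _

theorem wsum_congr {N : ℕ} {F G : List X → V} (h : ∀ w : List X, w.length = N → F w = G w) :
    wsum N F = wsum N G :=
  Finset.sum_congr rfl fun _ _ => h _ (List.length_ofFn)

theorem wsum_eq_zero {N : ℕ} {F : List X → V} (h : ∀ w : List X, w.length = N → F w = 0) :
    wsum N F = 0 :=
  Finset.sum_eq_zero fun _ _ => h _ (List.length_ofFn)

theorem wsum_comm (m n : ℕ) (F : List X → List X → V) :
    (wsum m fun u => wsum n fun v => F u v) = wsum n fun v => wsum m fun u => F u v :=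
  Finset.sum_comm

theorem wsum_sum {ι : Type} (s : Finset ι) (N : ℕ) (F : ι → List X → V) :
    (wsum N fun w => ∑ i ∈ s, F i w) = ∑ i ∈ s, wsum N (F i) :=
  Finset.sum_comm

theorem wsum_flat (q M : ℕ) (F : List X → V) :
    wsum (q * M) F = ∑ z : Fin M → Fin q → X, F (flat z) := by
  induction M generalizing F with
  | zero => simp [wsum_zero, flat]
  | succ M ih =>
    rw [Nat.mul_succ, Nat.add_comm, wsum_add,
      ← (Fin.consEquiv fun _ : Fin (M + 1) => Fin q → X).sum_comp, Fintype.sum_prod_type]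
    refine Finset.sum_congr rfl fun y _ => ?_
    beta_reduce
    rw [ih]
    refine Finset.sum_congr rfl fun z _ => ?_
    simp [Fin.consEquiv, flat, List.ofFn_succ]

omit [Fintype X] in
theorem prod_flat {B : Type} [Monoid B] (a : X → B) {M q : ℕ} (z : Fin M → Fin q → X) :
    ((flat z).map a).prod =
      (List.ofFn ((fun y : Fin q → X => (List.ofFn (a ∘ y)).prod) ∘ z)).prod := by
  rw [flat, List.map_flatten, List.prod_flatten, List.map_map, List.map_ofFn]
  congr 2
  funext k
  simp only [Function.comp_apply, List.map_ofFn]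

omit [Fintype X] in
theorem length_flat {M q : ℕ} (z : Fin M → Fin q → X) : (flat z).length = q * M := by
  simp [flat, List.length_flatten, List.map_ofFn, Function.comp_def, mul_comm]

omit [Fintype X] in
theorem stAt_append_left {St : X → Prop} {u v : List X} {i : ℕ} (hi : i < u.length) :
    StAt St (u ++ v) i ↔ StAt St u i := by
  unfold StAt
  rw [List.getElem?_append_left hi]

omit [Fintype X] in
theorem stAt_append_right {St : X → Prop} (u v : List X) :
    StAt St (u ++ v) u.length ↔ StAt St v 0 := by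
  unfold StAt
  rw [List.getElem?_append_right le_rfl, Nat.sub_self]

end Cap

open Cap in
theorem nilR_direct {X S : Type} [Fintype X] (P : Pres X) (St : X → Prop) (L q M ρ : ℕ)
    (hqM : 0 < q * M)
    (h2 : ∀ w : List X, ¬ IsZero P w → L ≤ w.length → ∃ i < L, StAt St w i)
    (sk : (Fin M → Fin q → X) → S)
    (h4 : ∀ z0 : Fin M → Fin q → X, ¬ IsZero P (flat z0) → StAt St (flat z0) 0 →
      ∃ J : Finset (Fin M), ρ < J.card ∧ ∀ z, sk z = sk z0 → ∀ i ∈ J, ∀ j ∈ J, i ≠ j →
        sk (z ∘ Equiv.swap i j) = sk z ∧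
        (StAt St (flat (z ∘ Equiv.swap i j)) 0 ↔ StAt St (flat z) 0) ∧
        (¬ IsZero P (flat z) → StAt St (flat z) 0 →
          Eqv P (flat z) (flat (z ∘ Equiv.swap i j)) ∧ z i ≠ z j)) :
    NilR P ρ := by
  classical
  intro B _ _ e he a
  have hK : (2 : Polynomial F2) = 0 := by
    have : ((2 : ℕ) : Polynomial F2) = 0 := (CharP.cast_eq_zero_iff _ 2 2).2 dvd_rfl
    exact_mod_cast this
  have step1 : ∀ lam : List X → Polynomial F2, P.Inv lam →
      ∑ z : Fin M → Fin q → X,
        (if StAt St (flat z) 0 then lam (flat z) else 0) • ((flat z).map a).prod = 0 := by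
    intro lam hlam
    simp only [prod_flat]
    refine capelli hK e he _ (fun z => if StAt St (flat z) 0 then lam (flat z) else 0) sk ?_
    intro z0 hz0
    have hst0 : StAt St (flat z0) 0 := by
      by_contra hn
      exact hz0 (if_neg hn)
    have hnz0 : ¬ IsZero P (flat z0) := fun hz => hz0 (by rw [if_pos hst0, hlam.isZero hz])
    obtain ⟨J, hJ, hsw⟩ := h4 z0 hnz0 hst0
    refine ⟨J, hJ, fun z hz i hi j hj hij => ?_⟩
    obtain ⟨a1, a2, a3⟩ := hsw z hz i hi j hj hij
    refine ⟨a1, ?_, fun hzz => ?_⟩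
    · by_cases hst : StAt St (flat z) 0
      · rw [if_pos hst, if_pos (a2.2 hst)]
        by_cases hz1 : IsZero P (flat z)
        · by_cases hz2 : IsZero P (flat (z ∘ Equiv.swap i j))
          · rw [hlam.isZero hz1, hlam.isZero hz2]
          · obtain ⟨-, -, b3⟩ := hsw (z ∘ Equiv.swap i j) (a1.trans hz) i hi j hj hij
            exact absurd (IsZero.of_eqv (b3 hz2 (a2.2 hst)).1 (by
              have : (z ∘ Equiv.swap i j) ∘ Equiv.swap i j = z := by
                funext k
                simp
              rwa [this])) hz2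
        · exact (hlam.eqv (a3 hz1 hst).1).symm
      · rw [if_neg hst, if_neg (fun h => hst (a2.1 h))]
    · by_cases hst : StAt St (flat z) 0
      · rw [if_pos hst]
        by_contra hne
        exact (a3 (fun hz1 => hne (hlam.isZero hz1)) hst).2 hzz
      · rw [if_neg hst]
  refine ⟨L + q * M, fun lam hlam => ?_⟩
  have h5 : ∑ w : Fin (L + q * M) → X, lam (List.ofFn w) • (List.ofFn (a ∘ w)).prod =
      wsum (L + q * M) fun w => ∑ o ∈ Finset.range L,
        if StAt St w o ∧ ∀ i < o, ¬ StAt St w i then lam w • (w.map a).prod else 0 := by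
    refine Finset.sum_congr rfl fun w _ => ?_
    beta_reduce
    rw [List.map_ofFn]
    by_cases hz : IsZero P (List.ofFn w)
    · simp [hlam.isZero hz]
    have hex := h2 _ hz (by simp)
    have hex' : ∃ i, StAt St (List.ofFn w) i := hex.imp fun i h => h.2
    rw [Finset.sum_eq_single (Nat.find hex')]
    · rw [if_pos ⟨Nat.find_spec hex', fun i hi => Nat.find_min hex' hi⟩]
    · intro o _ ho
      rw [if_neg]
      rintro ⟨h6, h7⟩
      exact ho ((Nat.find_eq_iff hex').2 ⟨h6, h7⟩).symm
    · intro hn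
      obtain ⟨i, hi, hi'⟩ := hex
      exact absurd (Finset.mem_range.2 ((Nat.find_min' hex' hi').trans_lt hi)) hn
  rw [h5, wsum_sum]
  refine Finset.sum_eq_zero fun o ho => ?_
  have ho' := Finset.mem_range.1 ho
  rw [show L + q * M = o + (q * M + (L - o)) by omega, wsum_add]
  refine wsum_eq_zero fun u hu => ?_
  rw [wsum_add, wsum_comm]
  refine wsum_eq_zero fun v _ => ?_
  rw [wsum_flat]
  by_cases hu' : ∀ i < o, ¬ StAt St u i
  · have h6 := step1 (fun w => lam (u ++ w ++ v)) (hlam.shift u v)
    have h7 : ∀ z : Fin M → Fin q → X,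
        (if StAt St (u ++ (flat z ++ v)) o ∧ ∀ i < o, ¬ StAt St (u ++ (flat z ++ v)) i then
          lam (u ++ (flat z ++ v)) • ((u ++ (flat z ++ v)).map a).prod else 0) =
        (u.map a).prod * ((if StAt St (flat z) 0 then lam (u ++ flat z ++ v) else 0) •
          ((flat z).map a).prod) * (v.map a).prod := by
      intro z
      have e1 : StAt St (u ++ (flat z ++ v)) o ↔ StAt St (flat z) 0 := by
        rw [← hu, stAt_append_right, stAt_append_left (by rwa [length_flat])]
      have e2 : ∀ i < o, ¬ StAt St (u ++ (flat z ++ v)) i := fun i hi => by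
        rw [stAt_append_left (by rwa [hu])]
        exact hu' i hi
      by_cases hst : StAt St (flat z) 0
      · rw [if_pos ⟨e1.2 hst, e2⟩, if_pos hst]
        simp [List.append_assoc, mul_assoc]
      · rw [if_neg (fun h => hst (e1.1 h.1)), if_neg hst]
        simp
    simp only [h7]
    rw [← Finset.sum_mul, ← Finset.mul_sum, h6, mul_zero, zero_mul]
  · refine Finset.sum_eq_zero fun z _ => if_neg ?_
    rintro ⟨-, h8⟩
    refine hu' fun i hi h9 => h8 i hi ?_
    rwa [stAt_append_left (by rwa [hu])]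

end Vale.Agent.P192Z
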