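import Vale.Agent.P192Z.Mach.Defs

/-!
# P192: binary successor and carries
-/

namespace Vale.Agent.P192Z.Mach

theorem carry_zero (n : ℕ) : carry n 0 = true := by simp [carry]

theorem carry_true {n j : ℕ} : carry n j = true ↔ ∀ l < j, n.testBit l = true := by simp [carry]

theorem carry_succ (n l : ℕ) : carry n (l + 1) = (n.testBit l && carry n l) := by
  rw [Bool.eq_iff_iff, Bool.and_eq_true, carry_true, carry_true]
  constructor
  · exact fun h => ⟨h l (Nat.lt_succ_self l), fun i hi => h i (Nat.lt_succ_of_lt hi)⟩
  · rintro ⟨h1, h2⟩ i hi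
    rcases Nat.lt_succ_iff_lt_or_eq.1 hi with h | rfl
    · exact h2 i h
    · exact h1

theorem carry_succ' (n l : ℕ) : carry n (l + 1) = (n.testBit 0 && carry (n / 2) l) := by
  rw [Bool.eq_iff_iff, Bool.and_eq_true, carry_true, carry_true]
  constructor
  · intro h
    refine ⟨h 0 (Nat.succ_pos l), fun i hi => ?_⟩
    rw [← Nat.testBit_succ]
    exact h (i + 1) (by omega)
  · rintro ⟨h1, h2⟩ i hi
    cases i with
    | zero => exact h1
    | succ i => rw [Nat.testBit_succ]; exact h2 i (by omega)

theorem succ_testBit (n l : ℕ) : (n + 1).testBit l = (n.testBit l ^^ carry n l) := by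
  induction l generalizing n with
  | zero =>
    rw [carry_zero, Nat.testBit_zero, Nat.testBit_zero]
    rcases Nat.mod_two_eq_zero_or_one n with h | h
    · have : (n + 1) % 2 = 1 := by omega
      simp [h, this]
    · have : (n + 1) % 2 = 0 := by omega
      simp [h, this]
  | succ l ih =>
    rw [Nat.testBit_succ, Nat.testBit_succ, carry_succ', Nat.testBit_zero]
    rcases Nat.mod_two_eq_zero_or_one n with h | h
    · have : (n + 1) / 2 = n / 2 := by omega
      simp [h, this]
    · have : (n + 1) / 2 = n / 2 + 1 := by omega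
      simp [h, this, ih]

theorem carry_top {n b : ℕ} (h : n < 2 ^ b) : carry n b = true ↔ n + 1 = 2 ^ b := by
  induction b generalizing n with
  | zero => simp [carry_zero] at h ⊢; exact h
  | succ b ih =>
    have h1 : n / 2 < 2 ^ b := by rw [pow_succ] at h; omega
    rw [carry_succ', Bool.and_eq_true, ih h1, Nat.testBit_zero, pow_succ]
    simp only [decide_eq_true_eq]
    omega

/-- Two numbers below `2 ^ b` that differ have different bits at some place below `b`. -/
theorem exists_bit_ne {m n b : ℕ} (hm : m < 2 ^ b) (hn : n < 2 ^ b) (h : m ≠ n) :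
    ∃ l < b, m.testBit l ≠ n.testBit l := by
  by_contra hc
  push Not at hc
  refine h (Nat.eq_of_testBit_eq fun l => ?_)
  by_cases hl : l < b
  · exact hc l hl
  · have h2 : 2 ^ b ≤ 2 ^ l := Nat.pow_le_pow_right (by norm_num) (by omega)
    rw [Nat.testBit_eq_false_of_lt (by omega), Nat.testBit_eq_false_of_lt (by omega)]

/-- The bits of the successor modulo a power of two. -/
theorem succ_mod_testBit (n : ℕ) {l b : ℕ} (hl : l < b) :
    ((n + 1) % 2 ^ b).testBit l = (n.testBit l ^^ carry n l) := by
  rw [Nat.testBit_mod_two_pow, succ_testBit]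
  simp [hl]

end Vale.Agent.P192Z.Mach
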