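import Vale.Agent.P192Z.Mach.Words

/-!
# P192: the self-simulating rewriting systems

`sys q` is a system of binomial and monomial relations on the alphabet `Let q`. A block of `2 q`
letters (zone `A`, then zone `I`) encodes one letter of `sys (up q)`, `up q = 2 ^ (q - 3)`.
Every block carries one head. A head which is not at rest has one home-ward action `act`.
-/

namespace Vale.Agent.P192Z.Mach

open Vale.Agent.P192Z

/-- zones -/
inductive Zn | A | I
  deriving DecidableEq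

instance : Fintype Zn := ⟨{.A, .I}, by intro x; cases x <;> simp⟩

/-- place of a cell in its zone -/
inductive Fl | p0 | p1 | p2 | p3 | mid | last
  deriving DecidableEq

instance : Fintype Fl := ⟨{.p0, .p1, .p2, .p3, .mid, .last}, by intro x; cases x <;> simp⟩

/-- names of the tables acting on the pair (main symbol, transit symbol) -/
inductive Kd | sw | id | eq | rw | t | out | car | mv | addr
  deriving DecidableEq

instance : Fintype Kd := ⟨{.sw, .id, .eq, .rw, .t, .out, .car, .mv, .addr}, by intro x; cases x <;> simp⟩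

/-- the three synchronous scans -/
inductive Sc | swap | eq | addr
  deriving DecidableEq

instance : Fintype Sc := ⟨{.swap, .eq, .addr}, by intro x; cases x <;> simp⟩

/-- sources of a symbol carried to the first cell -/
inductive Src | m | t | out
  deriving DecidableEq

instance : Fintype Src := ⟨{.m, .t, .out}, by intro x; cases x <;> simp⟩

/-- states of a head -/
inductive St
  | W | OC (s : Src) | O6a | O6b | O3a (k : Kd) | O3b (k : Kd) | O3c (k : Kd) | O3d (k : Kd)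
  | LK1 | LK2 | W2 | O4a | O4b | O4c | O4d | O4e
  | S1 (s : Sc) | S2 (s : Sc) | Q0 (s : Sc) | Q1 (s : Sc) | Q2 (s : Sc) | Q3 (s : Sc)
  | Q4 (s : Sc) | Q5
  deriving DecidableEq, Fintype

/-- classes of states -/
inductive Cls | solo | lk1 | lk2 | main
  deriving DecidableEq

/-- role of a marked cell: single block, first block, second block -/
inductive Role | S | F | T
  deriving DecidableEq

instance : Fintype Role := ⟨{.S, .F, .T}, by intro x; cases x <;> simp⟩

/-- a cell is left of the head, right of the head, or carries the head -/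
inductive Dyn | L (r : Role) | R (r : Role) | H (s : St) (sd : Bool)
  deriving DecidableEq, Fintype

/-- control symbols -/
structure Ctl where
  zn : Zn
  fl : Fl
  ptr : Bool
  dyn : Dyn
  deriving DecidableEq, Fintype

/-- symbols of the main and of the transit track -/
inductive Sym | c (c : Ctl) | d (b z : Bool)
  deriving DecidableEq, Fintype

/-- letters -/
structure Let (q : ℕ) where
  c : Ctl
  m : Sym
  t : Sym
  a : Fin q
  it : Fin q
  deriving DecidableEq, Fintype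

/-- the blank symbol -/
def blank : Sym := .d false false

def St.cls : St → Cls
  | .W | .OC _ | .O6a | .O6b | .O3a _ | .O3b _ | .O3c _ | .O3d _ => .solo
  | .LK1 => .lk1
  | .LK2 => .lk2
  | _ => .main

/-- the configuration covers two blocks -/
def Cls.two : Cls → Bool
  | .solo | .lk1 => false
  | .lk2 | .main => true

/-- role of the cells left of the head, on side `sd` -/
def roleL : Cls → Bool → Role
  | .solo, _ => .S
  | .lk1, _ => .F
  | _, false => .F
  | _, true => .T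

/-- role of the cells right of the head, on side `sd` -/
def roleR : Cls → Bool → Role
  | .main, false => .F
  | .main, true => .T
  | _, _ => .S

def Fl.data : Fl → Bool
  | .p3 | .mid | .last => true
  | _ => false

def Sc.zn : Sc → Zn
  | .swap | .eq => .I
  | .addr => .A

def Sc.kd : Sc → Kd
  | .swap => .sw
  | .eq => .eq
  | .addr => .id

def Src.fl : Src → Fl
  | .m => .p1
  | .t => .p2
  | .out => .last

def Src.kd : Src → Kd
  | .m => .rw
  | .t => .t
  | .out => .out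

/-- home-ward actions -/
inductive Act
  | rest | left (s : St) | lshift (s : St) | right | cross | rw
  | app (k : Kd) (s : St) (π : Bool) | dead
  deriving DecidableEq

def goL (zn : Zn) (fl : Fl) (sd : Bool) (s : St) : Act :=
  if sd = false ∧ zn = .A ∧ fl = .p0 then .dead else .left s

def goR (zn : Zn) (fl : Fl) (sd : Bool) (s : St) : Act :=
  if zn = .I ∧ fl = .last ∧ (sd = true ∨ s.cls.two = false) then .dead else .right

def act0 (zn : Zn) (fl : Fl) (π : Bool) (sd : Bool) : St → Act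
  | .W => if zn = .A ∧ fl = .p0 then .rest else .left .W
  | .OC s => if zn = .A ∧ fl = s.fl then .app .sw .W π else goR zn fl sd (.OC s)
  | .O6a => if zn = .A ∧ (fl = .p3 ∨ fl = .mid) then .app .sw .W π else .dead
  | .O6b => goL zn fl sd .O6a
  | .O3a k => if zn = .A ∧ fl = .p0 then .rw else .left (.O3a k)
  | .O3b k => if zn = .A ∧ fl = .p2 then .app .sw (.O3a k) π else goR zn fl sd (.O3b k)
  | .O3c k => if zn = .A ∧ fl = .p2 then .app .sw (.O3d k) π else goR zn fl sd (.O3c k)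
  | .O3d k => if zn = .A ∧ fl = .p0 then .rw else .left (.O3d k)
  | .LK1 => if zn = .A ∧ fl = .p0 then .app .id .W π else .left .LK1
  | .LK2 => if zn = .A ∧ fl = .p0 then .cross else .left .LK2
  | .W2 => if sd = true ∧ zn = .I ∧ fl = .last then .app .id .LK2 π else .right
  | .O4a => if sd = true ∧ zn = .A ∧ fl = .p0 then .app .sw .W2 π else goR zn fl sd .O4a
  | .O4b => if sd = true ∧ zn = .A ∧ fl = .p0 then .app .sw .O4c π else goR zn fl sd .O4b
  | .O4c => if sd = true ∧ zn = .A ∧ fl = .p2 then .app .sw .O4d π else goR zn fl sd .O4c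
  | .O4d => if sd = false ∧ zn = .A ∧ fl = .p2 then .app .sw .O4e π else goL zn fl sd .O4d
  | .O4e => if sd = true ∧ zn = .A ∧ fl = .p2 then .app .sw .W2 π else goR zn fl sd .O4e
  | .S1 s => if sd = false ∧ zn = .A ∧ fl = .p0 then .rw else .left (.S1 s)
  | .S2 s => if sd = true ∧ zn = s.zn ∧ fl = .p2 then
      (if π = true then .app .id (.S1 s) false else .dead) else goR zn fl sd (.S2 s)
  | .Q0 s => if sd = false ∧ π = true ∧ zn = s.zn then
      (if fl = .p2 then .app .id (.S2 s) false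
        else if fl.data = true then .app .sw (.Q4 s) true else .dead) else .dead
  | .Q1 s => if sd = false ∧ π = true ∧ zn = s.zn ∧ fl.data = true then .lshift (.Q0 s) else .dead
  | .Q2 s => if sd = false ∧ π = true then
      (if zn = s.zn ∧ fl.data = true then .app .sw (.Q1 s) true else .dead) else goL zn fl sd (.Q2 s)
  | .Q3 s => if sd = true ∧ π = true ∧ zn = s.zn ∧ fl.data = true then .lshift (.Q2 s) else .dead
  | .Q4 s => if sd = true ∧ π = true then
      (if zn = s.zn ∧ fl.data = true then .app s.kd (.Q3 s) true else .dead) else goR zn fl sd (.Q4 s)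
  | .Q5 => if sd = true ∧ zn = .I ∧ fl = .last then
      (if π = true then .app .id (.S1 .swap) false else .dead) else .right

/-- the home-ward action of a head in state `s` on side `sd` at a cell with the given data -/
def act (zn : Zn) (fl : Fl) (π : Bool) (s : St) (sd : Bool) : Act :=
  if s.cls.two = false ∧ sd = true then .dead
  else if s = .LK2 ∧ sd = false then .dead
  else act0 zn fl π sd s

/-- tables used at test and commit points -/
def tkind (zn : Zn) (fl : Fl) (sd : Bool) : St → Option Kd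
  | .OC s => if zn = .A ∧ fl = .p0 then some s.kd else none
  | .O6b => some .car
  | .O3b k => if zn = .A ∧ fl = .p1 then some k else none
  | .O4a => if sd = false ∧ zn = .A ∧ fl = .p0 then some .mv else none
  | .Q3 .addr => some .addr
  | _ => none

def tnext : St → St
  | .O3b k => .O3c k
  | .O4a => .O4b
  | s => s

/-- the table attached to a control symbol -/
def kind (c : Ctl) : Option Kd :=
  match c.dyn with
  | .H s sd =>
    match act c.zn c.fl c.ptr s sd with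
    | .app k _ _ => some k
    | _ => tkind c.zn c.fl sd s
  | _ => none

/-- the control symbol after the table is applied -/
def next (c : Ctl) : Ctl :=
  match c.dyn with
  | .H s sd =>
    match act c.zn c.fl c.ptr s sd with
    | .app _ s' π => ⟨c.zn, c.fl, π, .H s' sd⟩
    | _ => ⟨c.zn, c.fl, c.ptr, .H (tnext s) sd⟩
  | _ => c

/-- items may be exchanged with the right neighbour -/
def perm (c : Ctl) : Prop := c.dyn = .H .W false ∧ c.fl ≠ .last

instance (c : Ctl) : Decidable (perm c) := by unfold perm; infer_instance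

def kindS : Sym → Option Kd
  | .c c => kind c
  | .d _ _ => none

def nextS : Sym → Sym
  | .c c => .c (next c)
  | s => s

def permS : Sym → Prop
  | .c c => perm c
  | .d _ _ => False

instance (m : Sym) : Decidable (permS m) := by cases m <;> unfold permS <;> infer_instance

def permOK (s : Sc) (m : Sym) : Prop := s = .addr ∨ permS m

instance (s : Sc) (m : Sym) : Decidable (permOK s m) := by unfold permOK; infer_instance

/-- home-ward read and write steps -/
def rwF : St → Sym → Option (St × Sym)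
  | .O3a k, m => if kindS m = some k then some (.W, m) else none
  | .O3d k, m => if kindS m = some k then some (.W, nextS m) else none
  | .S1 s, m => if permOK s m then some (.W2, m) else none
  | _, _ => none

/-- home-ward tables -/
def appF : Kd → Sym → Sym → Option (Sym × Sym)
  | .sw, m, t => some (t, m)
  | .id, m, t => some (m, t)
  | .eq, m, t => if m = t then some (m, t) else none
  | _, _, _ => none

/-- read and write relations -/
inductive RW : Ctl → Sym → Ctl → Sym → Prop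
  | home (zn fl π s sd m s' m') : act zn fl π s sd = .rw → rwF s m = some (s', m') →
      RW ⟨zn, fl, π, .H s sd⟩ m ⟨zn, fl, π, .H s' sd⟩ m'
  | commit (m) : RW ⟨.I, .last, true, .H (.Q0 .swap) false⟩ m ⟨.I, .last, false, .H .Q5 false⟩ m

/-- side of the left neighbour -/
def sdL (zn : Zn) (fl : Fl) (sd : Bool) : Bool := if zn = .A ∧ fl = .p0 then false else sd

/-- side of the right neighbour -/
def sdR (zn : Zn) (fl : Fl) (sd : Bool) : Bool := if zn = .I ∧ fl = .last then true else sd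

/-- moves of the head -/
inductive Mv : Ctl → Ctl → Ctl → Ctl → Prop
  | right (zn fl π zn' fl' π' s sd) : act zn fl π s sd = .right →
      Mv ⟨zn, fl, π, .H s sd⟩ ⟨zn', fl', π', .R (roleR s.cls (sdR zn fl sd))⟩
        ⟨zn, fl, π, .L (roleL s.cls sd)⟩ ⟨zn', fl', π', .H s (sdR zn fl sd)⟩
  | left (zn fl π zn' fl' π' s sd s') : act zn' fl' π' s sd = .left s' →
      Mv ⟨zn, fl, π, .L (roleL s.cls (sdL zn' fl' sd))⟩ ⟨zn', fl', π', .H s sd⟩
        ⟨zn, fl, π, .H s' (sdL zn' fl' sd)⟩ ⟨zn', fl', π', .R (roleR s.cls sd)⟩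
  | lshift (zn fl zn' fl' π' s sd s') : act zn' fl' π' s sd = .lshift s' →
      Mv ⟨zn, fl, false, .L (roleL s.cls (sdL zn' fl' sd))⟩ ⟨zn', fl', π', .H s sd⟩
        ⟨zn, fl, true, .H s' (sdL zn' fl' sd)⟩ ⟨zn', fl', false, .R (roleR s.cls sd)⟩
  | cross (zn fl π zn' fl' π' s sd) : act zn' fl' π' s sd = .cross →
      Mv ⟨zn, fl, π, .L .F⟩ ⟨zn', fl', π', .H s sd⟩
        ⟨zn, fl, π, .H .LK1 false⟩ ⟨zn', fl', π', .H .W false⟩

/-- succession of the static parts -/
def succ (zn : Zn) (fl : Fl) (zn' : Zn) (fl' : Fl) : Prop :=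
  match fl with
  | .p0 => zn' = zn ∧ fl' = .p1
  | .p1 => zn' = zn ∧ fl' = .p2
  | .p2 => zn' = zn ∧ fl' = .p3
  | .p3 | .mid => zn' = zn ∧ (fl' = .mid ∨ fl' = .last)
  | .last => zn' ≠ zn ∧ fl' = .p0

/-- neighbours in one piece; `sd`, `sd'` tell how the side changes -/
inductive DynIn (zn : Zn) (fl : Fl) (zn' : Zn) (fl' : Fl) : Dyn → Dyn → Prop
  | LL (r) : ¬ (zn = .I ∧ fl = .last) → DynIn zn fl zn' fl' (.L r) (.L r)
  | RR (r) : ¬ (zn = .I ∧ fl = .last) → DynIn zn fl zn' fl' (.R r) (.R r)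
  | LH (s sd) : ¬ (zn = .I ∧ fl = .last) → DynIn zn fl zn' fl' (.L (roleL s.cls sd)) (.H s sd)
  | HR (s sd) : ¬ (zn = .I ∧ fl = .last) → DynIn zn fl zn' fl' (.H s sd) (.R (roleR s.cls sd))
  | LLk : zn = .I → fl = .last → DynIn zn fl zn' fl' (.L .F) (.L .T)
  | RRk : zn = .I → fl = .last → DynIn zn fl zn' fl' (.R .F) (.R .T)
  | LHk (s) : zn = .I → fl = .last → s.cls.two = true → DynIn zn fl zn' fl' (.L .F) (.H s true)
  | HRk (s) : zn = .I → fl = .last → s.cls = .main → DynIn zn fl zn' fl' (.H s false) (.R .T)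

/-- may be the last cell of a piece -/
def endD : Dyn → Prop
  | .L _ => False
  | .R r => r ≠ .F
  | .H s sd => ¬ (s.cls = .main ∧ sd = false)

/-- may be the first cell of a piece -/
def begD : Dyn → Prop
  | .L r => r ≠ .T
  | .R _ => False
  | .H _ sd => sd = false

def isLshift (c : Ctl) : Prop :=
  ∃ s sd s', c.dyn = .H s sd ∧ act c.zn c.fl c.ptr s sd = .lshift s'

/-- admissible pairs of neighbouring control symbols -/
def okPair (c c' : Ctl) : Prop :=
  succ c.zn c.fl c'.zn c'.fl ∧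
    (DynIn c.zn c.fl c'.zn c'.fl c.dyn c'.dyn ∨
      (c.zn = .I ∧ c.fl = .last ∧ endD c.dyn ∧ begD c'.dyn)) ∧
    (isLshift c' → c.ptr = false)

/-- violations seen by the head in state `W` -/
def Wviol (zn : Zn) (fl : Fl) (π : Bool) (m : Sym) : Prop :=
  π = true ∨ (zn = .A ∧ fl = .p0 ∧ ∀ c, m ≠ .c c) ∨
    (zn = .A ∧ fl.data = true ∧ ∀ b z, m ≠ .d b z) ∨
    (zn = .A ∧ fl = .p3 ∧ ∃ b, m = .d b false) ∨
    (zn = .I ∧ fl.data = false ∧ m ≠ blank) ∨
    (zn = .I ∧ fl.data = true ∧ ∀ b, m ≠ .d b false)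

/-- zero rules on (control, main) -/
inductive ZRW : Ctl → Sym → Prop
  | dead (zn fl π s sd m) : act zn fl π s sd = .dead → ZRW ⟨zn, fl, π, .H s sd⟩ m
  | stuck (zn fl π s sd m) : act zn fl π s sd = .rw → rwF s m = none → ZRW ⟨zn, fl, π, .H s sd⟩ m
  | viol (zn fl π m) : Wviol zn fl π m → ZRW ⟨zn, fl, π, .H .W false⟩ m
  | eq (m) : ZRW ⟨.I, .last, true, .H (.Q0 .eq) false⟩ m

/-- zero rules on (control, transit) -/
def ZT (c : Ctl) (t : Sym) : Prop :=
  t ≠ blank ∧ ((∃ r, c.dyn = .L r) ∨ (∃ r, c.dyn = .R r) ∨ c.dyn = .H .W false)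

/-- the tables on (main, transit) -/
def Tab : Kd → Sym → Sym → Sym → Sym → Prop
  | .rw, m, t, m', t' => ∃ c c', m = .c c ∧ m' = .c c' ∧ RW c t c' t'
  | .mv, m, t, m', t' => ∃ c c' d d', m = .c c ∧ t = .c c' ∧ m' = .c d ∧ t' = .c d' ∧ Mv c c' d d'
  | k, m, t, m', t' => appF k m t = some (m', t')

/-- the zero tables on (main, transit) -/
def ZTab : Kd → Sym → Sym → Prop
  | .eq, m, t => m ≠ t
  | .rw, m, t => ∃ c, m = .c c ∧ ZRW c t
  | .t, m, t => ∃ c, m = .c c ∧ ZT c t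
  | .out, m, t => ∃ c b z, m = .c c ∧ t = .d b z ∧ ¬ (c.fl = .last ↔ (b && z) = true)
  | .car, m, t => ∃ b z b' z', t = .d b z ∧ m = .d b' z' ∧ z' ≠ (b && z)
  | .mv, m, t => ∃ c c', m = .c c ∧ t = .c c' ∧ ¬ okPair c c'
  | .addr, m, t => ∃ b z b' z', t = .d b z ∧ m = .d b' z' ∧ b' ≠ (b ^^ z)
  | .sw, _, _ => False
  | .id, _, _ => False

variable {q : ℕ}

/-- binomial relations -/
inductive Rel : List (Let q) → List (Let q) → Prop
  | rw (c m c' m' t a i) : RW c m c' m' → Rel [⟨c, m, t, a, i⟩] [⟨c', m', t, a, i⟩]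
  | ap (c k m t m' t' a i) : kind c = some k → Tab k m t m' t' →
      Rel [⟨c, m, t, a, i⟩] [⟨next c, m', t', a, i⟩]
  | mv (c c' d d' m t a i m' t' a' i') : Mv c c' d d' →
      Rel [⟨c, m, t, a, i⟩, ⟨c', m', t', a', i'⟩] [⟨d, m, t', a, i⟩, ⟨d', m', t, a', i'⟩]
  | sw (c m t a i c' m' t' a' i') : perm c →
      Rel [⟨c, m, t, a, i⟩, ⟨c', m', t', a', i'⟩] [⟨c, m, t, a, i'⟩, ⟨c', m', t', a', i⟩]

/-- monomial relations -/
inductive Zer : List (Let q) → Prop
  | rw (x : Let q) : ZRW x.c x.m → Zer [x]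
  | t (x : Let q) : ZT x.c x.t → Zer [x]
  | tab (x : Let q) (k) : kind x.c = some k → ZTab k x.m x.t → Zer [x]
  | last (x : Let q) : ¬ (x.c.fl = .last ↔ x.a.val + 1 = q) → Zer [x]
  | pair (x y : Let q) : ¬ okPair x.c y.c → Zer [x, y]
  | adr (x y : Let q) : y.a.val ≠ (x.a.val + 1) % q → Zer [x, y]
  | item (x y : Let q) : perm x.c → x.it = y.it → Zer [x, y]

/-- the system with zones of length `q` -/
def sys (q : ℕ) : Pres (Let q) := ⟨{p | Rel p.1 p.2}, {z | Zer z}⟩

/-- first letter of a piece -/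
def Start (x : Let q) : Prop := x.c.zn = .A ∧ x.c.fl = .p0 ∧ x.a.val = 0 ∧ begD x.c.dyn

/-! ### configurations of one head on one or two blocks -/

/-- a head on a tape -/
structure Cfg where
  st : St
  pos : ℕ
  tr : Sym
  ptr : ℕ → Bool
  mn : ℕ → Sym

/-- change one value -/
def put {α : Type} (f : ℕ → α) (a : ℕ) (x : α) : ℕ → α := fun i => if i = a then x else f i

def off (q i : ℕ) : ℕ :=
  if i < q then i else if i < 2 * q then i - q else if i < 3 * q then i - 2 * q else i - 3 * q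

def znAt (q i : ℕ) : Zn := if i < q ∨ (2 * q ≤ i ∧ i < 3 * q) then .A else .I

def flAt (q i : ℕ) : Fl :=
  if off q i = 0 then .p0 else if off q i = 1 then .p1 else if off q i = 2 then .p2
  else if off q i = 3 then .p3 else if off q i + 1 = q then .last else .mid

def side (q i : ℕ) : Bool := decide (2 * q ≤ i)

def len (q : ℕ) (κ : Cfg) : ℕ := if κ.st.cls.two then 4 * q else 2 * q

def dynAt (q : ℕ) (κ : Cfg) (i : ℕ) : Dyn :=
  if i = κ.pos then .H κ.st (side q i)
  else if i < κ.pos then .L (roleL κ.st.cls (side q i)) else .R (roleR κ.st.cls (side q i))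

def ctlAt (q : ℕ) (κ : Cfg) (i : ℕ) : Ctl := ⟨znAt q i, flAt q i, κ.ptr i, dynAt q κ i⟩

/-- the action at the head -/
def actAt (q : ℕ) (κ : Cfg) : Act :=
  act (znAt q κ.pos) (flAt q κ.pos) (κ.ptr κ.pos) κ.st (side q κ.pos)

/-- the home-ward step inside a piece -/
def hw (q : ℕ) (κ : Cfg) : Option Cfg :=
  match actAt q κ with
  | .left s => some ⟨s, κ.pos - 1, κ.tr, κ.ptr, κ.mn⟩
  | .lshift s => if κ.ptr (κ.pos - 1) = true then none else
      some ⟨s, κ.pos - 1, κ.tr, put (put κ.ptr (κ.pos - 1) true) κ.pos false, κ.mn⟩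
  | .right => some ⟨κ.st, κ.pos + 1, κ.tr, κ.ptr, κ.mn⟩
  | .app k s π =>
    match appF k (κ.mn κ.pos) κ.tr with
    | some p => some ⟨s, κ.pos, p.2, put κ.ptr κ.pos π, put κ.mn κ.pos p.1⟩
    | none => none
  | .rw =>
    match rwF κ.st (κ.mn κ.pos) with
    | some p => some ⟨p.1, κ.pos, κ.tr, κ.ptr, put κ.mn κ.pos p.2⟩
    | none => none
  | _ => none

/-- the head is on the tape -/
def Valid (q : ℕ) (κ : Cfg) : Prop := κ.pos < len q κ ∧ (κ.st = .LK2 → 2 * q ≤ κ.pos)

/-- offset of the zone of a scan -/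
def zo (q : ℕ) : Sc → ℕ
  | .swap | .eq => q
  | .addr => 0

/-- undo the first `j` steps of a scan -/
def undo (q : ℕ) (s : Sc) (j : ℕ) (f : ℕ → Sym) : ℕ → Sym := fun i =>
  if s = .swap ∧ q + 3 ≤ i ∧ i ≤ q + 2 + j then f (i + 2 * q)
  else if s = .swap ∧ 3 * q + 3 ≤ i ∧ i ≤ 3 * q + 2 + j then f (i - 2 * q) else f i

/-- the condition checked by the first `j` steps of a scan -/
def cond (q : ℕ) (s : Sc) (j : ℕ) (f : ℕ → Sym) : Prop :=
  s = .eq → ∀ i, q + 3 ≤ i → i ≤ q + 2 + j → f i = f (i + 2 * q)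

def NoP (n : ℕ) (κ : Cfg) : Prop := ∀ i < n, κ.ptr i = false

def P1 (n : ℕ) (κ : Cfg) (a : ℕ) : Prop := ∀ i < n, (κ.ptr i = true ↔ i = a)

def P2 (n : ℕ) (κ : Cfg) (a b : ℕ) : Prop := ∀ i < n, (κ.ptr i = true ↔ (i = a ∨ i = b))

def EqT (n : ℕ) (T f : ℕ → Sym) : Prop := ∀ i < n, T i = f i

def srcPos (q : ℕ) : Src → ℕ
  | .m => 1
  | .t => 2
  | .out => q - 1

/-- `κ` is a legitimate configuration over the tape `T` at rest -/
def Good (q : ℕ) (κ : Cfg) (T : ℕ → Sym) : Prop :=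
  match κ.st with
  | .W => κ.pos < 2 * q ∧ NoP (2 * q) κ ∧ κ.tr = blank ∧ EqT (2 * q) T κ.mn
  | .OC s => κ.pos ≤ srcPos q s ∧ NoP (2 * q) κ ∧ κ.mn (srcPos q s) = blank ∧
      EqT (2 * q) T (put κ.mn (srcPos q s) κ.tr)
  | .O6a => 3 ≤ κ.pos ∧ κ.pos + 1 < q ∧ NoP (2 * q) κ ∧ κ.mn κ.pos = blank ∧
      EqT (2 * q) T (put κ.mn κ.pos κ.tr)
  | .O6b => 4 ≤ κ.pos ∧ κ.pos < q ∧ NoP (2 * q) κ ∧ κ.mn (κ.pos - 1) = blank ∧
      EqT (2 * q) T (put κ.mn (κ.pos - 1) κ.tr)
  | .O3a k => κ.pos < 2 * q ∧ NoP (2 * q) κ ∧ κ.tr = blank ∧ kindS (κ.mn 0) = some k ∧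
      EqT (2 * q) T κ.mn
  | .O3b k => κ.pos ≤ 2 ∧ NoP (2 * q) κ ∧ κ.mn 2 = blank ∧ kindS (κ.mn 0) = some k ∧
      EqT (2 * q) T (put κ.mn 2 κ.tr)
  | .O3c k => κ.pos ≤ 2 ∧ NoP (2 * q) κ ∧ κ.mn 2 = blank ∧ kindS (κ.mn 0) = some k ∧
      EqT (2 * q) T (put (put κ.mn 2 κ.tr) 0 (nextS (κ.mn 0)))
  | .O3d k => κ.pos < 2 * q ∧ NoP (2 * q) κ ∧ κ.tr = blank ∧ kindS (κ.mn 0) = some k ∧
      EqT (2 * q) T (put κ.mn 0 (nextS (κ.mn 0)))
  | .LK1 => κ.pos < 2 * q ∧ NoP (2 * q) κ ∧ κ.tr = blank ∧ EqT (2 * q) T κ.mn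
  | .LK2 => 2 * q ≤ κ.pos ∧ κ.pos < 4 * q ∧ NoP (4 * q) κ ∧ κ.tr = blank ∧ EqT (4 * q) T κ.mn
  | .W2 => κ.pos < 4 * q ∧ NoP (4 * q) κ ∧ κ.tr = blank ∧ EqT (4 * q) T κ.mn
  | .O4a => κ.pos ≤ 2 * q ∧ NoP (4 * q) κ ∧ κ.mn (2 * q) = blank ∧
      EqT (4 * q) T (put κ.mn (2 * q) κ.tr)
  | .O4b => κ.pos ≤ 2 * q ∧ NoP (4 * q) κ ∧ κ.mn (2 * q) = blank ∧
      EqT (4 * q) T (put (put (put κ.mn (2 * q) κ.tr) 2 (κ.mn (2 * q + 2))) (2 * q + 2) (κ.mn 2))
  | .O4c => κ.pos ≤ 2 * q + 2 ∧ NoP (4 * q) κ ∧ κ.tr = blank ∧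
      EqT (4 * q) T (put (put κ.mn 2 (κ.mn (2 * q + 2))) (2 * q + 2) (κ.mn 2))
  | .O4d => 2 ≤ κ.pos ∧ κ.pos < 4 * q ∧ NoP (4 * q) κ ∧ κ.mn (2 * q + 2) = blank ∧
      EqT (4 * q) T (put (put κ.mn 2 κ.tr) (2 * q + 2) (κ.mn 2))
  | .O4e => κ.pos ≤ 2 * q + 2 ∧ NoP (4 * q) κ ∧ κ.mn (2 * q + 2) = blank ∧
      EqT (4 * q) T (put κ.mn (2 * q + 2) κ.tr)
  | .S1 s => κ.pos < 4 * q ∧ NoP (4 * q) κ ∧ κ.tr = blank ∧ permOK s (κ.mn 0) ∧
      EqT (4 * q) T κ.mn
  | .S2 s => κ.pos ≤ 2 * q + zo q s + 2 ∧ P1 (4 * q) κ (2 * q + zo q s + 2) ∧ κ.tr = blank ∧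
      permOK s (κ.mn 0) ∧ EqT (4 * q) T κ.mn
  | .Q0 s => ∃ j, j + 3 ≤ q ∧ κ.pos = zo q s + 2 + j ∧
      P2 (4 * q) κ (zo q s + 2 + j) (2 * q + zo q s + 2 + j) ∧ κ.tr = blank ∧
      permOK s (κ.mn 0) ∧ cond q s j κ.mn ∧ EqT (4 * q) T (undo q s j κ.mn)
  | .Q1 s => ∃ j, j + 4 ≤ q ∧ κ.pos = zo q s + 3 + j ∧
      P2 (4 * q) κ (zo q s + 3 + j) (2 * q + zo q s + 2 + j) ∧ κ.tr = blank ∧
      permOK s (κ.mn 0) ∧ cond q s j κ.mn ∧ EqT (4 * q) T (undo q s j κ.mn)
  | .Q2 s => ∃ j, j + 4 ≤ q ∧ zo q s + 3 + j ≤ κ.pos ∧ κ.pos < 4 * q ∧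
      P2 (4 * q) κ (zo q s + 3 + j) (2 * q + zo q s + 2 + j) ∧ κ.mn (zo q s + 3 + j) = blank ∧
      permOK s (κ.mn 0) ∧ cond q s j (put κ.mn (zo q s + 3 + j) κ.tr) ∧
      EqT (4 * q) T (undo q s j (put κ.mn (zo q s + 3 + j) κ.tr))
  | .Q3 s => ∃ j, j + 4 ≤ q ∧ κ.pos = 2 * q + zo q s + 3 + j ∧
      P2 (4 * q) κ (zo q s + 3 + j) (2 * q + zo q s + 3 + j) ∧ κ.mn (zo q s + 3 + j) = blank ∧
      permOK s (κ.mn 0) ∧ cond q s j (put κ.mn (zo q s + 3 + j) κ.tr) ∧
      EqT (4 * q) T (undo q s j (put κ.mn (zo q s + 3 + j) κ.tr))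
  | .Q4 s => ∃ j, j + 4 ≤ q ∧ κ.pos ≤ 2 * q + zo q s + 3 + j ∧
      P2 (4 * q) κ (zo q s + 3 + j) (2 * q + zo q s + 3 + j) ∧ κ.mn (zo q s + 3 + j) = blank ∧
      permOK s (κ.mn 0) ∧ cond q s (j + 1) (put κ.mn (zo q s + 3 + j) κ.tr) ∧
      EqT (4 * q) T (undo q s (j + 1) (put κ.mn (zo q s + 3 + j) κ.tr))
  | .Q5 => κ.pos < 4 * q ∧ P1 (4 * q) κ (4 * q - 1) ∧ κ.tr = blank ∧ permOK .swap (κ.mn 0) ∧
      EqT (4 * q) T κ.mn

/-- length of the zones one level up -/
def up (q : ℕ) : ℕ := 2 ^ (q - 3)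

/-- all bits below `j` are one -/
def carry (n j : ℕ) : Bool := decide (∀ l < j, n.testBit l = true)

/-- the main track of the block that encodes `y` -/
def encM (q : ℕ) (y : Let (up q)) : ℕ → Sym := fun i =>
  if i = 0 then .c y.c else if i = 1 then y.m else if i = 2 then y.t
  else if i < q then .d (y.a.val.testBit (i - 3)) (carry y.a.val (i - 3))
  else if i < q + 3 then blank else .d (y.it.val.testBit (i - (q + 3))) false

/-- the main track of two blocks -/
def encT (q : ℕ) (y y' : Let (up q)) : ℕ → Sym := fun i =>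
  if i < 2 * q then encM q y i else encM q y' (i - 2 * q)

/-- the items are distinct in each of the two zones of a block -/
def ItOK (q : ℕ) (it : ℕ → Fin q) : Prop :=
  (∀ i j, i < q → j < q → it i = it j → i = j) ∧
    ∀ i j, q ≤ i → i < 2 * q → q ≤ j → j < 2 * q → it i = it j → i = j

/-- shift by one block -/
def sh {α : Type} (q : ℕ) (f : ℕ → α) : ℕ → α := fun i => f (i + 2 * q)

def restCfg (T : ℕ → Sym) : Cfg := ⟨.W, 0, blank, fun _ => false, T⟩

variable [hq : Fact (6 ≤ q)]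

theorem six_le : 6 ≤ q := hq.out

instance upFact : Fact (6 ≤ up q) := ⟨by
  have h := six_le (q := q)
  have : 2 ^ 3 ≤ 2 ^ (q - 3) := Nat.pow_le_pow_right (by norm_num) (by omega)
  unfold up; omega⟩

/-- the address of place `i` -/
def adr (q : ℕ) [hq : Fact (6 ≤ q)] (i : ℕ) : Fin q :=
  ⟨off q i % q, Nat.mod_lt _ (by have := hq.out; omega)⟩

def letter (κ : Cfg) (it : ℕ → Fin q) (i : ℕ) : Let q :=
  ⟨ctlAt q κ i, κ.mn i, if i = κ.pos then κ.tr else blank, adr q i, it i⟩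

/-- the word of a configuration with items `it` -/
def word (κ : Cfg) (it : ℕ → Fin q) : List (Let q) := (List.range (len q κ)).map (letter κ it)

/-- the block at rest -/
def restW (T : ℕ → Sym) (it : ℕ → Fin q) : List (Let q) := word (restCfg T) it

/-- the encoding of a letter of the next level -/
def enc (y : Let (up q)) : List (Let q) := restW (encM q y) (adr q)

/-- `Parse w Y r`: `w` consists of legitimate pieces that encode `Y`, followed by `r` -/
inductive Parse : List (Let q) → List (Let (up q)) → List (Let q) → Prop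
  | done (w) : Parse w [] w
  | one (κ it y w Y r) : κ.st.cls.two = false → Good q κ (encM q y) → ItOK q it → Parse w Y r →
      Parse (word κ it ++ w) (y :: Y) r
  | two (κ it y y' w Y r) : κ.st.cls.two = true → Good q κ (encT q y y') → ItOK q it →
      ItOK q (sh q it) → Parse w Y r → Parse (word κ it ++ w) (y :: y' :: Y) r

/-! ### static facts -/

omit hq in
theorem off_spec (q i : ℕ) : (i < q ∧ off q i = i) ∨ (q ≤ i ∧ i < 2 * q ∧ off q i + q = i) ∨
    (2 * q ≤ i ∧ i < 3 * q ∧ off q i + 2 * q = i) ∨ (3 * q ≤ i ∧ off q i + 3 * q = i) := by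
  unfold off; split_ifs <;> omega

omit hq in
theorem znAt_A (i : ℕ) : znAt q i = .A ↔ (i < q ∨ (2 * q ≤ i ∧ i < 3 * q)) := by
  unfold znAt; split_ifs with h <;> simp [h]

omit hq in
theorem znAt_I (i : ℕ) : znAt q i = .I ↔ ((q ≤ i ∧ i < 2 * q) ∨ 3 * q ≤ i) := by
  unfold znAt; split_ifs with h <;> simp <;> omega

theorem flAt_p0 (i : ℕ) : flAt q i = .p0 ↔ (i = 0 ∨ i = q ∨ i = 2 * q ∨ i = 3 * q) := by
  have := off_spec q i; have := six_le (q := q)
  unfold flAt; split_ifs <;> simp <;> omega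

theorem flAt_p1 (i : ℕ) :
    flAt q i = .p1 ↔ (i = 1 ∨ i = q + 1 ∨ i = 2 * q + 1 ∨ i = 3 * q + 1) := by
  have := off_spec q i; have := six_le (q := q)
  unfold flAt; split_ifs <;> simp <;> omega

theorem flAt_p2 (i : ℕ) :
    flAt q i = .p2 ↔ (i = 2 ∨ i = q + 2 ∨ i = 2 * q + 2 ∨ i = 3 * q + 2) := by
  have := off_spec q i; have := six_le (q := q)
  unfold flAt; split_ifs <;> simp <;> omega

theorem flAt_p3 (i : ℕ) :
    flAt q i = .p3 ↔ (i = 3 ∨ i = q + 3 ∨ i = 2 * q + 3 ∨ i = 3 * q + 3) := by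
  have := off_spec q i; have := six_le (q := q)
  unfold flAt; split_ifs <;> simp <;> omega

theorem flAt_last (i : ℕ) :
    flAt q i = .last ↔ (i + 1 = q ∨ i + 1 = 2 * q ∨ i + 1 = 3 * q ∨ i + 1 = 4 * q) := by
  have := off_spec q i; have := six_le (q := q)
  unfold flAt; split_ifs <;> simp <;> omega

theorem flAt_mid (i : ℕ) : flAt q i = .mid ↔ (4 ≤ off q i ∧ off q i + 1 ≠ q) := by
  have := six_le (q := q)
  unfold flAt; split_ifs <;> simp <;> omega

theorem flAt_data (i : ℕ) : (flAt q i).data = true ↔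
    ((3 ≤ i ∧ i < q) ∨ (q + 3 ≤ i ∧ i < 2 * q) ∨ (2 * q + 3 ≤ i ∧ i < 3 * q) ∨ 3 * q + 3 ≤ i) := by
  have := off_spec q i; have := six_le (q := q)
  unfold flAt; split_ifs <;> simp [Fl.data] <;> omega

omit hq in
theorem side_true (i : ℕ) : side q i = true ↔ 2 * q ≤ i := by simp [side]

omit hq in
theorem side_false (i : ℕ) : side q i = false ↔ i < 2 * q := by simp [side]

theorem length_word (κ : Cfg) (it : ℕ → Fin q) : (word κ it).length = len q κ := by simp [word]

theorem length_enc (y : Let (up q)) : (enc y).length = 2 * q := by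
  simp [enc, restW, length_word, len, restCfg, St.cls, Cls.two]

end Vale.Agent.P192Z.Mach
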