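import Vale.Agent.P192Z.Mach.Words

/-!
# P192: nilpotency of pencils descends along a block encoding
-/

namespace Vale.Agent.P192Z

namespace Desc

variable {X : Type} [Fintype X] {M : Type*} [AddCommMonoid M]

/-- The sum of `f` over all words of length `N`. -/
def WS (N : ℕ) (f : List X → M) : M := ∑ w : Fin N → X, f (List.ofFn w)

theorem WS_zero (f : List X → M) : WS 0 f = f [] := by simp [WS]

theorem WS_succ (N : ℕ) (f : List X → M) :
    WS (N + 1) f = ∑ x, WS N fun w => f (x :: w) := by
  unfold WS
  rw [← (Fin.consEquiv fun _ : Fin (N + 1) => X).sum_comp, Fintype.sum_prod_type]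
  refine Finset.sum_congr rfl fun x _ => Finset.sum_congr rfl fun w _ => ?_
  simp [Fin.consEquiv, List.ofFn_succ]

theorem WS_congr {N : ℕ} {f g : List X → M} (h : ∀ w, w.length = N → f w = g w) :
    WS N f = WS N g :=
  Finset.sum_congr rfl fun w _ => h _ (by simp)

theorem WS_eq_zero {N : ℕ} {f : List X → M} (h : ∀ w, w.length = N → f w = 0) : WS N f = 0 :=
  Finset.sum_eq_zero fun w _ => h _ (by simp)

theorem WS_add_len (m n : ℕ) (f : List X → M) :
    WS (m + n) f = WS m fun u => WS n fun v => f (u ++ v) := by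
  induction m generalizing f with
  | zero => simp [WS_zero]
  | succ m ih =>
    rw [Nat.succ_add, WS_succ, WS_succ]
    exact Finset.sum_congr rfl fun x _ => ih _

theorem WS_add (N : ℕ) (f g : List X → M) : WS N (fun w => f w + g w) = WS N f + WS N g :=
  Finset.sum_add_distrib

theorem WS_sum {ι : Type*} [Fintype ι] (N : ℕ) (f : ι → List X → M) :
    WS N (fun w => ∑ i, f i w) = ∑ i, WS N (f i) :=
  Finset.sum_comm

theorem WS_comm {Y : Type} [Fintype Y] (N N' : ℕ) (f : List X → List Y → M) :
    WS N (fun w => WS N' (f w)) = WS N' fun y => WS N fun w => f w y :=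
  Finset.sum_comm

theorem WS_mul {B : Type*} [Ring B] (N : ℕ) (f : List X → B) (b : B) :
    WS N f * b = WS N fun w => f w * b := Finset.sum_mul _ _ _

theorem mul_WS {B : Type*} [Ring B] (N : ℕ) (f : List X → B) (b : B) :
    b * WS N f = WS N fun w => b * f w := Finset.mul_sum _ _ _

theorem WS_mul_WS {B : Type*} [Ring B] (N N' : ℕ) (f g : List X → B) :
    WS N f * WS N' g = WS N fun u => WS N' fun v => f u * g v := by
  rw [WS_mul]
  exact WS_congr fun u _ => mul_WS _ _ _

omit [Fintype X] in
theorem stAt_append_left (St : X → Prop) {u : List X} (v : List X) {i : ℕ} (h : i < u.length) :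
    StAt St (u ++ v) i ↔ StAt St u i := by
  unfold StAt
  rw [List.getElem?_append_left h]

omit [Fintype X] in
theorem stAt_append_right (St : X → Prop) (u v : List X) {i : ℕ} (h : i = u.length) :
    StAt St (u ++ v) i ↔ StAt St v 0 := by
  unfold StAt
  rw [List.getElem?_append_right h.ge, h, Nat.sub_self]

section Main

open Classical

variable {X' : Type} [Fintype X'] (P : Pres X) (St : X → Prop) (Q : ℕ) (enc : X' → List X)
  {B : Type} [Ring B] [Algebra (Polynomial F2) B] (a : X → B)

/-- The sum over the words that start with a marked letter. -/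
noncomputable def G (lam : List X → Polynomial F2) (N : ℕ) : B :=
  WS N fun w => if StAt St w 0 then lam w • (w.map a).prod else 0

/-- The letter encoded by a single block. -/
noncomputable def d1 (p : List X) : Option X' :=
  if h : StAt St p 0 ∧ ∃ y, Eqv P p (enc y) then some h.2.choose else none

/-- The two letters encoded by a double block. -/
noncomputable def d2 (p : List X) : Option (X' × X') :=
  if h : StAt St p 0 ∧ ¬ StAt St p Q ∧ ∃ y : X' × X', Eqv P p (enc y.1 ++ enc y.2) then
    some h.2.2.choose else none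

omit [Fintype X] in
theorem d1_spec {p : List X} {y : X'} (h : d1 P St enc p = some y) :
    StAt St p 0 ∧ Eqv P p (enc y) := by
  unfold d1 at h
  split_ifs at h with hc
  obtain rfl := Option.some.inj h
  exact ⟨hc.1, hc.2.choose_spec⟩

omit [Fintype X] in
theorem d2_spec {p : List X} {y : X' × X'} (h : d2 P St Q enc p = some y) :
    StAt St p 0 ∧ ¬ StAt St p Q ∧ Eqv P p (enc y.1 ++ enc y.2) := by
  unfold d2 at h
  split_ifs at h with hc
  obtain rfl := Option.some.inj h
  exact ⟨hc.1, hc.2.1, hc.2.2.choose_spec⟩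

/-- The weight of single blocks. -/
noncomputable def s1 (y : X') : B :=
  WS Q fun p => if d1 P St enc p = some y then (p.map a).prod else 0

/-- The weight of double blocks. -/
noncomputable def s2 (y : X' × X') : B :=
  WS (Q + Q) fun p => if d2 P St Q enc p = some y then (p.map a).prod else 0

variable {P St Q enc}

theorem G_rec (hQ : 0 < Q)
    (h3 : ∀ w : List X, ¬ IsZero P w → 2 * Q + 1 ≤ w.length → StAt St w 0 →
      (StAt St w Q ∧ ∃ y, Eqv P (w.take Q) (enc y)) ∨
      (¬ StAt St w Q ∧ StAt St w (2 * Q) ∧ ∃ y y', Eqv P (w.take (2 * Q)) (enc y ++ enc y')))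
    {lam : List X → Polynomial F2} (hl : P.Inv lam) {n : ℕ} (hn : 1 ≤ n) :
    G St a lam (n + Q + Q) =
      ∑ y, s1 P St Q enc a y * G St a (fun v => lam (enc y ++ v)) (n + Q) +
      ∑ y : X' × X', s2 P St Q enc a y * G St a (fun v => lam (enc y.1 ++ (enc y.2 ++ v))) n := by
  have e1 : ∑ y, s1 P St Q enc a y * G St a (fun v => lam (enc y ++ v)) (n + Q) =
      WS (n + Q + Q) fun w => if (d1 P St enc (w.take Q)).isSome ∧ StAt St w Q then
        lam w • (w.map a).prod else 0 := by
    rw [show n + Q + Q = Q + (n + Q) by ring, WS_add_len Q (n + Q)]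
    simp only [s1, G, WS_mul_WS]
    rw [← WS_sum]
    refine WS_congr fun p hp => ?_
    rw [← WS_sum]
    refine WS_congr fun v _ => ?_
    rw [List.take_left' hp, stAt_append_right St p v hp.symm]
    cases hd : d1 P St enc p with
    | none => simp
    | some y0 =>
      have h4 : lam (enc y0 ++ v) = lam (p ++ v) :=
        (hl.eqv ((d1_spec P St enc hd).2.append (Eqv.refl v))).symm
      rw [Finset.sum_eq_single y0]
      · by_cases hv : StAt St v 0
        · simp [hv, h4]
        · simp [hv]
      · intro y _ hy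
        rw [if_neg (fun e => hy (Option.some.inj e).symm), zero_mul]
      · simp
  have e2 : ∑ y : X' × X',
      s2 P St Q enc a y * G St a (fun v => lam (enc y.1 ++ (enc y.2 ++ v))) n =
      WS (n + Q + Q) fun w => if (d2 P St Q enc (w.take (Q + Q))).isSome ∧ StAt St w (Q + Q) then
        lam w • (w.map a).prod else 0 := by
    rw [show n + Q + Q = (Q + Q) + n by ring, WS_add_len (Q + Q) n]
    simp only [s2, G, WS_mul_WS]
    rw [← WS_sum]
    refine WS_congr fun p hp => ?_
    rw [← WS_sum]
    refine WS_congr fun v _ => ?_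
    rw [List.take_left' hp, stAt_append_right St p v hp.symm]
    cases hd : d2 P St Q enc p with
    | none => simp
    | some y0 =>
      have h4 : lam (enc y0.1 ++ (enc y0.2 ++ v)) = lam (p ++ v) := by
        rw [← List.append_assoc]
        exact (hl.eqv ((d2_spec P St Q enc hd).2.2.append (Eqv.refl v))).symm
      rw [Finset.sum_eq_single y0]
      · by_cases hv : StAt St v 0
        · simp [hv, h4]
        · simp [hv]
      · intro y _ hy
        rw [if_neg (fun e => hy (Option.some.inj e).symm), zero_mul]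
      · simp
  rw [e1, e2, ← WS_add]
  refine WS_congr fun w hw => ?_
  by_cases hz : IsZero P w
  · simp [hl.isZero hz]
  have t1 : StAt St (w.take Q) 0 ↔ StAt St w 0 := by
    conv_rhs => rw [← List.take_append_drop Q w]
    exact (stAt_append_left St _ (by rw [List.length_take]; omega)).symm
  have t2 : StAt St (w.take (Q + Q)) 0 ↔ StAt St w 0 := by
    conv_rhs => rw [← List.take_append_drop (Q + Q) w]
    exact (stAt_append_left St _ (by rw [List.length_take]; omega)).symm
  have t3 : StAt St (w.take (Q + Q)) Q ↔ StAt St w Q := by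
    conv_rhs => rw [← List.take_append_drop (Q + Q) w]
    exact (stAt_append_left St _ (by rw [List.length_take]; omega)).symm
  have n1 : (d1 P St enc (w.take Q)).isSome ↔ StAt St w 0 ∧ ∃ y, Eqv P (w.take Q) (enc y) := by
    rw [← t1]
    unfold d1
    split_ifs with h
    · simpa using h
    · simpa using h
  have n2 : (d2 P St Q enc (w.take (Q + Q))).isSome ↔ StAt St w 0 ∧ ¬ StAt St w Q ∧
      ∃ y : X' × X', Eqv P (w.take (Q + Q)) (enc y.1 ++ enc y.2) := by
    rw [← t2, ← t3]
    unfold d2
    split_ifs with h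
    · simpa using h
    · simpa using h
  by_cases h0 : StAt St w 0
  · rcases h3 w hz (by omega) h0 with ⟨h4, h5⟩ | ⟨h4, h5, y, y', h6⟩
    · rw [if_pos h0, if_pos ⟨n1.2 ⟨h0, h5⟩, h4⟩, if_neg (fun h => (n2.1 h.1).2.1 h4), add_zero]
    · rw [two_mul] at h5 h6
      rw [if_pos h0, if_neg (fun h => h4 h.2), if_pos ⟨n2.2 ⟨h0, h4, (y, y'), h6⟩, h5⟩, zero_add]
  · rw [if_neg h0, if_neg (fun h => h0 (n1.1 h.1).1), if_neg (fun h => h0 (n2.1 h.1).1), add_zero]

variable (P St Q enc)

/-- The matrices of the upper pencil. -/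
noncomputable def up (y : X') : Matrix (Option X') (Option X') B
  | none, none => s1 P St Q enc a y
  | none, some y' => s2 P St Q enc a (y, y')
  | some y', none => if y = y' then 1 else 0
  | some _, some _ => 0

/-- The state vector. -/
noncomputable def V (lam : List X → Polynomial F2) (n : ℕ) : Option X' → B
  | none => G St a lam (n + Q)
  | some y' => G St a (fun v => lam (enc y' ++ v)) n

variable {P St Q enc}

omit [Fintype X] in
theorem inv_left {lam : List X → Polynomial F2} (hl : P.Inv lam) (u : List X) :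
    P.Inv fun v => lam (u ++ v) := by
  simpa using hl.shift u []

theorem V_rec (hQ : 0 < Q)
    (h3 : ∀ w : List X, ¬ IsZero P w → 2 * Q + 1 ≤ w.length → StAt St w 0 →
      (StAt St w Q ∧ ∃ y, Eqv P (w.take Q) (enc y)) ∨
      (¬ StAt St w Q ∧ StAt St w (2 * Q) ∧ ∃ y y', Eqv P (w.take (2 * Q)) (enc y ++ enc y')))
    {lam : List X → Polynomial F2} (hl : P.Inv lam) {n : ℕ} (hn : 1 ≤ n) (s : Option X') :
    V St Q enc a lam (n + Q) s =
      ∑ y, ∑ t, up P St Q enc a y s t * V St Q enc a (fun v => lam (enc y ++ v)) n t := by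
  cases s with
  | none =>
    simp only [Fintype.sum_option, up, V, Finset.sum_add_distrib]
    rw [G_rec a hQ h3 hl hn, Fintype.sum_prod_type]
  | some y' =>
    simp [Fintype.sum_option, up, V]

theorem V_iter (hQ : 0 < Q)
    (h3 : ∀ w : List X, ¬ IsZero P w → 2 * Q + 1 ≤ w.length → StAt St w 0 →
      (StAt St w Q ∧ ∃ y, Eqv P (w.take Q) (enc y)) ∨
      (¬ StAt St w Q ∧ StAt St w (2 * Q) ∧ ∃ y y', Eqv P (w.take (2 * Q)) (enc y ++ enc y')))
    {n : ℕ} (hn : 1 ≤ n) (m : ℕ) : ∀ {lam : List X → Polynomial F2} (_ : P.Inv lam)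
    (s : Option X'), V St Q enc a lam (n + m * Q) s =
      WS m fun Y : List X' => ∑ t, (Y.map (up P St Q enc a)).prod s t *
        V St Q enc a (fun v => lam (Y.flatMap enc ++ v)) n t := by
  induction m with
  | zero =>
    intro lam _ s
    simp only [WS_zero, List.map_nil, List.prod_nil, Matrix.one_apply, ite_mul, one_mul, zero_mul,
      Finset.sum_ite_eq, Finset.mem_univ, if_true, List.flatMap_nil, List.nil_append, add_zero]
  | succ m ih =>
    intro lam hl s
    rw [show n + (m + 1) * Q = n + m * Q + Q by ring, V_rec a hQ h3 hl (by omega), WS_succ]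
    refine Finset.sum_congr rfl fun y _ => ?_
    simp only [ih (inv_left hl (enc y)), mul_WS]
    rw [← WS_sum]
    refine WS_congr fun Y _ => ?_
    simp only [List.map_cons, List.prod_cons, Matrix.mul_apply, List.flatMap_cons,
      List.append_assoc, Finset.mul_sum, Finset.sum_mul, mul_assoc]
    exact Finset.sum_comm

theorem G_eq_zero (hQ : 0 < Q)
    (h3 : ∀ w : List X, ¬ IsZero P w → 2 * Q + 1 ≤ w.length → StAt St w 0 →
      (StAt St w Q ∧ ∃ y, Eqv P (w.take Q) (enc y)) ∨
      (¬ StAt St w Q ∧ StAt St w (2 * Q) ∧ ∃ y y', Eqv P (w.take (2 * Q)) (enc y ++ enc y')))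
    {m : ℕ} (hm : ∀ lam : List X → Polynomial F2, P.Inv lam → ∀ c : List X,
      (WS m fun Y : List X' => lam (Y.flatMap enc ++ c) • (Y.map (up P St Q enc a)).prod) = 0)
    {lam : List X → Polynomial F2} (hl : P.Inv lam) {N : ℕ} (hN : m * Q + Q + 1 ≤ N) :
    G St a lam N = 0 := by
  obtain ⟨n, hn, rfl⟩ : ∃ n, 1 ≤ n ∧ N = n + m * Q + Q := ⟨N - (m * Q + Q), by omega, by omega⟩
  have h := V_iter a hQ h3 hn m hl none
  rw [show G St a lam (n + m * Q + Q) = V St Q enc a lam (n + m * Q) none from rfl, h, WS_sum]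
  refine Finset.sum_eq_zero fun t _ => ?_
  have key : ∀ (c : List X) (k : ℕ), (WS m fun Y : List X' =>
      (Y.map (up P St Q enc a)).prod none t *
        G St a (fun v => lam (Y.flatMap enc ++ (c ++ v))) k) = 0 := by
    intro c k
    simp only [G, mul_WS]
    rw [WS_comm]
    refine WS_eq_zero fun v _ => ?_
    by_cases hv : StAt St v 0
    · simp only [if_pos hv]
      have h1 := congrFun (congrFun (hm lam hl (c ++ v)) none) t
      have h2 : (WS m fun Y : List X' => lam (Y.flatMap enc ++ (c ++ v)) •
          (Y.map (up P St Q enc a)).prod) none t = WS m fun Y : List X' =>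
          lam (Y.flatMap enc ++ (c ++ v)) • (Y.map (up P St Q enc a)).prod none t := by
        simp [WS, Matrix.sum_apply]
      rw [h2] at h1
      have h4 : (WS m fun Y : List X' => (Y.map (up P St Q enc a)).prod none t *
          (lam (Y.flatMap enc ++ (c ++ v)) • (v.map a).prod)) =
          (WS m fun Y : List X' => lam (Y.flatMap enc ++ (c ++ v)) •
            (Y.map (up P St Q enc a)).prod none t) * (v.map a).prod := by
        rw [WS_mul]
        refine WS_congr fun Y _ => ?_
        rw [mul_smul_comm, smul_mul_assoc]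
      rw [h4, h1]
      simp
    · simp only [if_neg hv, mul_zero]
      exact WS_eq_zero fun _ _ => rfl
  cases t with
  | none => exact key [] (n + Q)
  | some y' => exact key (enc y') n

theorem H_eq_zero {N0 : ℕ}
    (hG : ∀ lam : List X → Polynomial F2, P.Inv lam → ∀ N, N0 ≤ N → G St a lam N = 0) (k : ℕ) :
    ∀ lam : List X → Polynomial F2, P.Inv lam → ∀ N, N0 + k ≤ N →
      (WS N fun w => if ∃ i < k, StAt St w i then lam w • (w.map a).prod else 0) = 0 := by
  induction k with
  | zero => intro lam _ N _; exact WS_eq_zero fun w _ => by simp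
  | succ k ih =>
    intro lam hl N hN
    obtain ⟨N, rfl⟩ : ∃ N', N = N' + 1 := ⟨N - 1, by omega⟩
    have h1 := hG lam hl (N + 1) (by omega)
    unfold G at h1
    rw [WS_succ] at h1 ⊢
    have h2 : ∀ x : X, (WS N fun w => if ∃ i < k + 1, StAt St (x :: w) i then
          lam (x :: w) • ((x :: w).map a).prod else 0) =
        (WS N fun w => if StAt St (x :: w) 0 then lam (x :: w) • ((x :: w).map a).prod else 0) +
        if St x then 0 else a x * WS N fun w => if ∃ i < k, StAt St w i then
          lam (x :: w) • (w.map a).prod else 0 := by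
      intro x
      have h0 : ∀ w, StAt St (x :: w) 0 ↔ St x := fun w => by simp [StAt]
      by_cases hx : St x
      · rw [if_pos hx, add_zero]
        refine WS_congr fun w _ => ?_
        rw [if_pos ((h0 w).2 hx), if_pos ⟨0, Nat.succ_pos k, (h0 w).2 hx⟩]
      · rw [if_neg hx, mul_WS, ← WS_add]
        refine WS_congr fun w _ => ?_
        rw [if_neg (fun h => hx ((h0 w).1 h)), zero_add]
        have h5 : (∃ i < k + 1, StAt St (x :: w) i) ↔ ∃ i < k, StAt St w i := by
          constructor
          · rintro ⟨i, hi, h⟩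
            cases i with
            | zero => exact absurd ((h0 w).1 h) hx
            | succ i => exact ⟨i, by omega, by simpa [StAt] using h⟩
          · rintro ⟨i, hi, h⟩
            exact ⟨i + 1, by omega, by simpa [StAt] using h⟩
        by_cases h6 : ∃ i < k, StAt St w i
        · rw [if_pos (h5.2 h6), if_pos h6, List.map_cons, List.prod_cons, mul_smul_comm]
        · rw [if_neg (fun h => h6 (h5.1 h)), if_neg h6, mul_zero]
    simp only [h2, Finset.sum_add_distrib]
    rw [h1, zero_add]
    refine Finset.sum_eq_zero fun x _ => ?_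
    have h7 := ih (fun w => lam (x :: w)) (inv_left hl [x]) N (by omega)
    rw [h7, mul_zero, ite_self]

end Main

theorem span_matrix {K B ι : Type} [CommRing K] [Ring B] [Algebra K B] [Fintype ι]
    [DecidableEq ι] {ρ : ℕ} (e : Fin ρ → B) (he : Submodule.span K (Set.range e) = ⊤) :
    ∃ e' : Fin (ρ * Fintype.card ι ^ 2) → Matrix ι ι B,
      Submodule.span K (Set.range e') = ⊤ := by
  let f : Fin ρ × ι × ι → Matrix ι ι B := fun t => Matrix.single t.2.1 t.2.2 (e t.1)
  let q : Fin ρ × ι × ι ≃ Fin (ρ * Fintype.card ι ^ 2) :=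
    Fintype.equivFinOfCardEq (by simp [sq])
  refine ⟨f ∘ q.symm, ?_⟩
  rw [q.symm.surjective.range_comp, eq_top_iff]
  intro M _
  rw [Matrix.matrix_eq_sum_single M]
  refine Submodule.sum_mem _ fun i _ => Submodule.sum_mem _ fun j _ => ?_
  have hb : M i j ∈ Submodule.span K (Set.range e) := he ▸ Submodule.mem_top
  generalize M i j = b at hb
  induction hb using Submodule.span_induction with
  | mem x hx =>
    obtain ⟨k, rfl⟩ := hx
    exact Submodule.subset_span ⟨(k, i, j), rfl⟩
  | zero => simp
  | add x y _ _ hx hy => rw [Matrix.single_add]; exact Submodule.add_mem _ hx hy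
  | smul c x _ hx => rw [← Matrix.smul_single]; exact Submodule.smul_mem _ _ hx

end Desc

open Desc in
theorem nilR_descent {X X' : Type} [Fintype X] [Fintype X'] (P : Pres X) (P' : Pres X')
    (St : X → Prop) (Q : ℕ) (hQ : 0 < Q) (enc : X' → List X) (henc : ∀ y, (enc y).length = Q)
    (h1 : ∀ lam : List X → Polynomial F2, P.Inv lam → P'.Inv fun Y => lam (Y.flatMap enc))
    (h2 : ∀ w : List X, ¬ IsZero P w → 2 * Q ≤ w.length → ∃ i < 2 * Q, StAt St w i)
    (h3 : ∀ w : List X, ¬ IsZero P w → 2 * Q + 1 ≤ w.length → StAt St w 0 →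
      (StAt St w Q ∧ ∃ y, Eqv P (w.take Q) (enc y)) ∨
      (¬ StAt St w Q ∧ StAt St w (2 * Q) ∧ ∃ y y', Eqv P (w.take (2 * Q)) (enc y ++ enc y')))
    (ρ : ℕ) (hup : NilR P' (ρ * (Fintype.card X' + 1) ^ 2)) : NilR P ρ := by
  classical
  have _ := henc
  intro B _ _ e he a
  obtain ⟨e', he'⟩ := span_matrix (ι := Option X') e he
  rw [← Fintype.card_option] at hup
  obtain ⟨m, hm⟩ := hup (Matrix (Option X') (Option X') B) e' he' (up P St Q enc a)
  have hm' : ∀ lam : List X → Polynomial F2, P.Inv lam → ∀ c : List X,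
      (WS m fun Y : List X' => lam (Y.flatMap enc ++ c) • (Y.map (up P St Q enc a)).prod) = 0 := by
    intro lam hl c
    have h4 : P.Inv fun w => lam (w ++ c) := by simpa using hl.shift [] c
    have h5 := hm _ (h1 _ h4)
    simpa only [WS, List.map_ofFn] using h5
  refine ⟨m * Q + Q + 1 + 2 * Q, fun lam hl => ?_⟩
  have h6 := H_eq_zero a (fun lam hl N hN => G_eq_zero a hQ h3 hm' hl hN) (2 * Q) lam hl _ le_rfl
  have h7 : (WS (m * Q + Q + 1 + 2 * Q) fun w => lam w • (w.map a).prod) = 0 := by
    rw [← h6]
    refine WS_congr fun w hw => ?_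
    by_cases hz : IsZero P w
    · simp [hl.isZero hz]
    · rw [if_pos (h2 w hz (by omega))]
  simpa only [WS, List.map_ofFn] using h7

end Vale.Agent.P192Z
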