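import Vale.Agent.P192Z.Mach.Defs

/-!
# P192: home-ward steps preserve legitimacy, make progress and terminate
-/

set_option linter.unusedSimpArgs false
set_option linter.unusedVariables false
set_option linter.unnecessarySeqFocus false
set_option linter.unusedSectionVars false

namespace Vale.Agent.P192Z.Mach

def goesL (q : ℕ) (s : St) (pos : ℕ) (π : Bool) : Prop :=
  0 < pos ∧ match s with
  | .W | .O3a _ | .O3d _ | .LK1 => pos < 2 * q
  | .LK2 => 2 * q < pos ∧ pos < 4 * q
  | .O4d => pos ≠ 2 ∧ pos < 4 * q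
  | .S1 _ => pos < 4 * q
  | .Q2 _ => ¬ (pos < 2 * q ∧ π = true) ∧ pos < 4 * q
  | _ => False

def goesR (q : ℕ) (s : St) (pos : ℕ) (π : Bool) : Prop :=
  match s with
  | .OC s => pos ≠ srcPos q s ∧ pos + 1 < 2 * q
  | .O3b _ | .O3c _ => pos ≠ 2 ∧ pos + 1 < 2 * q
  | .W2 | .Q5 => pos + 1 < 4 * q
  | .O4a | .O4b => pos ≠ 2 * q ∧ pos + 1 < 4 * q
  | .O4c | .O4e => pos ≠ 2 * q + 2 ∧ pos + 1 < 4 * q
  | .S2 s => pos ≠ 2 * q + zo q s + 2 ∧ pos + 1 < 4 * q
  | .Q4 _ => ¬ (2 * q ≤ pos ∧ π = true) ∧ pos + 1 < 4 * q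
  | _ => False

/-- table steps: state, place, pointer flag, table, new state, new pointer flag -/
inductive AppC (q : ℕ) : St → ℕ → Bool → Kd → St → Bool → Prop
  | oc (s π) : AppC q (.OC s) (srcPos q s) π .sw .W π
  | o6 (p π) : 3 ≤ p → p + 1 < q → AppC q .O6a p π .sw .W π
  | o3b (k π) : AppC q (.O3b k) 2 π .sw (.O3a k) π
  | o3c (k π) : AppC q (.O3c k) 2 π .sw (.O3d k) π
  | lk1 (π) : AppC q .LK1 0 π .id .W π
  | w2 (π) : AppC q .W2 (4 * q - 1) π .id .LK2 π
  | o4a (π) : AppC q .O4a (2 * q) π .sw .W2 π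
  | o4b (π) : AppC q .O4b (2 * q) π .sw .O4c π
  | o4c (π) : AppC q .O4c (2 * q + 2) π .sw .O4d π
  | o4d (π) : AppC q .O4d 2 π .sw .O4e π
  | o4e (π) : AppC q .O4e (2 * q + 2) π .sw .W2 π
  | s2 (s) : AppC q (.S2 s) (2 * q + zo q s + 2) true .id (.S1 s) false
  | q0a (s) : AppC q (.Q0 s) (zo q s + 2) true .id (.S2 s) false
  | q0b (s j) : j + 4 ≤ q → AppC q (.Q0 s) (zo q s + 3 + j) true .sw (.Q4 s) true
  | q2 (s j) : j + 4 ≤ q → AppC q (.Q2 s) (zo q s + 3 + j) true .sw (.Q1 s) true
  | q4 (s j) : j + 4 ≤ q → AppC q (.Q4 s) (2 * q + zo q s + 3 + j) true s.kd (.Q3 s) true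
  | q5 : AppC q .Q5 (4 * q - 1) true .id (.S1 .swap) false

/-- pointer shifts -/
inductive ShC (q : ℕ) : St → ℕ → St → Prop
  | q1 (s j) : j + 4 ≤ q → ShC q (.Q1 s) (zo q s + 3 + j) (.Q0 s)
  | q3 (s j) : j + 4 ≤ q → ShC q (.Q3 s) (2 * q + zo q s + 3 + j) (.Q2 s)

variable {q : ℕ} [hq : Fact (6 ≤ q)]

omit hq in
theorem actAt_eq {κ : Cfg} (hv : Valid q κ) :
    actAt q κ = act0 (znAt q κ.pos) (flAt q κ.pos) (κ.ptr κ.pos) (side q κ.pos) κ.st := by
  obtain ⟨hv1, hv2⟩ := hv
  unfold actAt act
  rw [if_neg, if_neg]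
  · rintro ⟨h1, h2⟩
    rw [side_false] at h2
    have := hv2 h1
    omega
  · rintro ⟨h1, h2⟩
    rw [side_true] at h2
    simp only [len, h1, Bool.false_eq_true, if_false] at hv1
    omega

theorem left_cases {κ : Cfg} (hv : Valid q κ) {s : St} (h : actAt q κ = .left s) :
    (s = κ.st ∧ goesL q κ.st κ.pos (κ.ptr κ.pos)) ∨
      (κ.st = .O6b ∧ s = .O6a ∧ 0 < κ.pos ∧ κ.pos < 2 * q) := by
  have h6 := six_le (q := q)
  rw [actAt_eq hv] at h
  obtain ⟨st, pos, tr, ptr, mn⟩ := κ
  obtain ⟨hv1, hv2⟩ := hv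
  cases st <;>
    simp only [act0, goL, goR, St.cls, Cls.two, len, goesL] at h hv1 hv2 ⊢ <;>
    split_ifs at h <;>
    simp_all [znAt_A, znAt_I, flAt_p0, flAt_p2, flAt_last, side_true, side_false] <;>
    omega

omit hq in
theorem zo_spec (s : Sc) : zo q s = 0 ∨ zo q s = q := by cases s <;> simp [zo]

theorem znAt_sc (s : Sc) (i : ℕ) : znAt q i = s.zn ↔
    ((zo q s ≤ i ∧ i < zo q s + q) ∨ (2 * q + zo q s ≤ i ∧ (q ≤ zo q s ∨ i < 3 * q))) := by
  have h6 := six_le (q := q)
  cases s <;> simp only [Sc.zn, zo, znAt_A, znAt_I] <;> omega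

theorem flAt_src (s : Src) (i : ℕ) : flAt q i = s.fl ↔
    (i = srcPos q s ∨ i = q + srcPos q s ∨ i = 2 * q + srcPos q s ∨ i = 3 * q + srcPos q s) := by
  have h6 := six_le (q := q)
  cases s <;> simp only [Src.fl, srcPos, flAt_p1, flAt_p2, flAt_last] <;> omega

theorem srcPos_spec (s : Src) : 1 ≤ srcPos q s ∧ srcPos q s < q := by
  have h6 := six_le (q := q)
  cases s <;> simp only [srcPos] <;> omega

theorem right_cases {κ : Cfg} (hv : Valid q κ) (h : actAt q κ = .right) :
    goesR q κ.st κ.pos (κ.ptr κ.pos) := by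
  have h6 := six_le (q := q)
  rw [actAt_eq hv] at h
  obtain ⟨st, pos, tr, ptr, mn⟩ := κ
  obtain ⟨hv1, hv2⟩ := hv
  cases st
  case OC s =>
    have := srcPos_spec (q := q) s
    simp only [act0, goR] at h
    split_ifs at h with h1 h2
    simp only [znAt_A, znAt_I, flAt_src, flAt_last, len, St.cls, Cls.two, goesR, or_true, and_true,
      Bool.false_eq_true, if_false] at h1 h2 hv1 ⊢
    omega
  case S2 s =>
    have := zo_spec (q := q) s
    simp only [act0, goR] at h
    split_ifs at h with h1 h2 h3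
    simp only [znAt_sc, znAt_I, flAt_p2, flAt_last, len, St.cls, Cls.two, goesR, or_false,
      Bool.true_eq_false, if_true, side_true] at h1 h3 hv1 ⊢
    omega
  case Q4 s =>
    simp only [act0, goR] at h
    split_ifs at h with h1 h2 h3
    simp only [znAt_sc, znAt_I, flAt_p2, flAt_last, len, St.cls, Cls.two, goesR, or_false,
      Bool.true_eq_false, if_true, side_true] at h1 h3 hv1 ⊢
    exact ⟨h1, by omega⟩
  all_goals
    simp only [act0, goL, goR] at h
    split_ifs at h <;>
    simp only [znAt_A, znAt_I, flAt_p0, flAt_p1, flAt_p2, flAt_last, side_true, side_false,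
      len, St.cls, Cls.two, goesR,
      Bool.false_eq_true, if_true, if_false, Bool.true_eq_false, or_false, or_true, and_true] at * <;>
    omega

theorem lshift_cases {κ : Cfg} (hv : Valid q κ) {s : St} (h : actAt q κ = .lshift s) :
    κ.ptr κ.pos = true ∧ ShC q κ.st κ.pos s := by
  have h6 := six_le (q := q)
  rw [actAt_eq hv] at h
  obtain ⟨st, pos, tr, ptr, mn⟩ := κ
  obtain ⟨hv1, hv2⟩ := hv
  cases st
  case Q1 s =>
    simp only [act0] at h
    split_ifs at h with hc
    obtain ⟨h1, h2, h3, h4⟩ := hc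
    obtain rfl : St.Q0 s = _ := Act.lshift.inj h
    rw [side_false] at h1; rw [flAt_data] at h4
    refine ⟨h2, ?_⟩
    have : pos = zo q s + 3 + (pos - (zo q s + 3)) ∧ pos - (zo q s + 3) + 4 ≤ q := by
      cases s <;> simp only [Sc.zn, znAt_A, znAt_I, zo] at h3 ⊢ <;> omega
    show ShC q _ pos _
    rw [this.1]; exact ShC.q1 s _ this.2
  case Q3 s =>
    simp only [act0] at h
    split_ifs at h with hc
    obtain ⟨h1, h2, h3, h4⟩ := hc
    obtain rfl : St.Q2 s = _ := Act.lshift.inj h
    rw [side_true] at h1; rw [flAt_data] at h4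
    refine ⟨h2, ?_⟩
    simp only [len, St.cls, Cls.two, if_true] at hv1
    have : pos = 2 * q + zo q s + 3 + (pos - (2 * q + zo q s + 3)) ∧
        pos - (2 * q + zo q s + 3) + 4 ≤ q := by
      cases s <;> simp only [Sc.zn, znAt_A, znAt_I, zo] at h3 ⊢ <;> omega
    show ShC q _ pos _
    rw [this.1]; exact ShC.q3 s _ this.2
  all_goals
    simp only [act0, goL, goR] at h
    split_ifs at h

theorem rw_cases {κ : Cfg} (hv : Valid q κ) (h : actAt q κ = .rw) :
    κ.pos = 0 ∧ ((∃ k, κ.st = .O3a k) ∨ (∃ k, κ.st = .O3d k) ∨ ∃ s, κ.st = .S1 s) := by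
  have h6 := six_le (q := q)
  rw [actAt_eq hv] at h
  obtain ⟨st, pos, tr, ptr, mn⟩ := κ
  obtain ⟨hv1, hv2⟩ := hv
  cases st <;>
    simp only [act0, goL, goR, St.cls, Cls.two, len] at h hv1 hv2 ⊢ <;>
    split_ifs at h <;>
    simp_all [znAt_A, znAt_I, flAt_p0, flAt_p1, flAt_p2, flAt_last, side_true, side_false] <;>
    omega

omit hq in
theorem AppC.cast {s : St} {p p' : ℕ} {π π0 : Bool} {k : Kd} {s' : St} {π' : Bool}
    (h : AppC q s p π k s' π') (e : p' = p) (e' : π0 = π) : AppC q s p' π0 k s' π' := by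
  subst e e'; exact h

theorem app_cases {κ : Cfg} (hv : Valid q κ) {k : Kd} {s : St} {π : Bool}
    (h : actAt q κ = .app k s π) : AppC q κ.st κ.pos (κ.ptr κ.pos) k s π := by
  have h6 := six_le (q := q)
  rw [actAt_eq hv] at h
  obtain ⟨st, pos, tr, ptr, mn⟩ := κ
  obtain ⟨hv1, hv2⟩ := hv
  have ho := off_spec q pos
  cases st
  case OC s =>
    have := srcPos_spec (q := q) s
    simp only [act0, goR] at h
    split_ifs at h with h1 h2
    obtain ⟨rfl, rfl, rfl⟩ := Act.app.inj h
    simp only [znAt_A, flAt_src, len, St.cls, Cls.two, Bool.false_eq_true, if_false] at h1 hv1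
    exact (AppC.oc _ _).cast (by simp only; omega) rfl
  case S2 s =>
    have := zo_spec (q := q) s
    simp only [act0, goR] at h
    split_ifs at h with h1 h2 h3
    obtain ⟨rfl, rfl, rfl⟩ := Act.app.inj h
    simp only [znAt_sc, flAt_p2, len, St.cls, Cls.two, if_true, side_true] at h1 hv1
    exact (AppC.s2 _).cast (by simp only; omega) h2
  case Q0 s =>
    have := zo_spec (q := q) s
    simp only [act0] at h
    split_ifs at h with h1 h2 h3
    · obtain ⟨rfl, rfl, rfl⟩ := Act.app.inj h
      obtain ⟨h11, h12, h13⟩ := h1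
      simp only [znAt_sc, flAt_p2, side_false] at h11 h13 h2
      exact (AppC.q0a _).cast (by simp only; omega) h12
    · obtain ⟨rfl, rfl, rfl⟩ := Act.app.inj h
      obtain ⟨h11, h12, h13⟩ := h1
      simp only [znAt_sc, flAt_data, side_false] at h11 h13 h3
      exact (AppC.q0b _ (pos - (zo q s + 3)) (by omega)).cast (by simp only; omega) h12
  case Q2 s =>
    have := zo_spec (q := q) s
    simp only [act0, goL] at h
    split_ifs at h with h1 h2 h3
    obtain ⟨rfl, rfl, rfl⟩ := Act.app.inj h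
    obtain ⟨h11, h12⟩ := h1
    simp only [znAt_sc, flAt_data, side_false] at h11 h2
    exact (AppC.q2 _ (pos - (zo q s + 3)) (by omega)).cast (by simp only; omega) h12
  case Q4 s =>
    have := zo_spec (q := q) s
    simp only [act0, goR] at h
    split_ifs at h with h1 h2 h3
    obtain ⟨rfl, rfl, rfl⟩ := Act.app.inj h
    obtain ⟨h11, h12⟩ := h1
    simp only [znAt_sc, flAt_data, side_true, len, St.cls, Cls.two, if_true] at h11 h2 hv1
    exact (AppC.q4 _ (pos - (2 * q + zo q s + 3)) (by omega)).cast (by simp only; omega) h12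
  case Q5 =>
    simp only [act0] at h
    split_ifs at h with h1 h2
    obtain ⟨rfl, rfl, rfl⟩ := Act.app.inj h
    simp only [znAt_I, flAt_last, side_true] at h1
    exact AppC.q5.cast (by simp only; omega) h2
  all_goals
    simp only [act0, goL, goR] at h
    split_ifs at h <;> obtain ⟨rfl, rfl, rfl⟩ := Act.app.inj h <;>
    simp only [znAt_A, znAt_I, flAt_p0, flAt_p1, flAt_p2, flAt_p3, flAt_mid, flAt_last, side_true,
      side_false, flAt_data, Bool.false_eq_true, if_true, if_false, len, St.cls, Cls.two] at * <;>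
    first
      | exact AppC.o6 _ _ (by omega) (by omega)
      | exact (AppC.o3b _ _).cast (by omega) rfl
      | exact (AppC.o3c _ _).cast (by omega) rfl
      | exact (AppC.lk1 _).cast (by omega) rfl
      | exact (AppC.w2 _).cast (by omega) rfl
      | exact (AppC.o4a _).cast (by omega) rfl
      | exact (AppC.o4b _).cast (by omega) rfl
      | exact (AppC.o4c _).cast (by omega) rfl
      | exact (AppC.o4d _).cast (by omega) rfl
      | exact (AppC.o4e _).cast (by omega) rfl

/-- normal form of the home-ward steps -/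
inductive HwC (q : ℕ) : Cfg → Cfg → Prop
  | left (st pos tr ptr mn) : goesL q st pos (ptr pos) →
      HwC q ⟨st, pos, tr, ptr, mn⟩ ⟨st, pos - 1, tr, ptr, mn⟩
  | o6b (pos tr ptr mn) : 0 < pos → pos < 2 * q →
      HwC q ⟨.O6b, pos, tr, ptr, mn⟩ ⟨.O6a, pos - 1, tr, ptr, mn⟩
  | right (st pos tr ptr mn) : goesR q st pos (ptr pos) →
      HwC q ⟨st, pos, tr, ptr, mn⟩ ⟨st, pos + 1, tr, ptr, mn⟩
  | shift (st pos st' tr ptr mn) : ShC q st pos st' → ptr pos = true → ptr (pos - 1) = false →
      HwC q ⟨st, pos, tr, ptr, mn⟩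
        ⟨st', pos - 1, tr, put (put ptr (pos - 1) true) pos false, mn⟩
  | app (st pos k st' π tr ptr mn m' t') : AppC q st pos (ptr pos) k st' π →
      appF k (mn pos) tr = some (m', t') →
      HwC q ⟨st, pos, tr, ptr, mn⟩ ⟨st', pos, t', put ptr pos π, put mn pos m'⟩
  | rw (st st' tr ptr mn m') : rwF st (mn 0) = some (st', m') →
      HwC q ⟨st, 0, tr, ptr, mn⟩ ⟨st', 0, tr, ptr, put mn 0 m'⟩

theorem hw_cases {κ κ' : Cfg} (hv : Valid q κ) (h : hw q κ = some κ') : HwC q κ κ' := by
  unfold hw at h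
  split at h
  · rename_i s hs
    obtain rfl := Option.some.inj h
    rcases left_cases hv hs with ⟨rfl, h1⟩ | ⟨h1, rfl, h2, h3⟩
    · exact HwC.left _ _ _ _ _ h1
    · obtain ⟨st, pos, tr, ptr, mn⟩ := κ
      obtain rfl : st = .O6b := h1
      exact HwC.o6b _ _ _ _ h2 h3
  · rename_i s hs
    split_ifs at h with h1
    obtain rfl := Option.some.inj h
    obtain ⟨h2, h3⟩ := lshift_cases hv hs
    exact HwC.shift _ _ _ _ _ _ h3 h2 (by simpa using h1)
  · rename_i hs
    obtain rfl := Option.some.inj h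
    exact HwC.right _ _ _ _ _ (right_cases hv hs)
  · rename_i k s π hs
    split at h
    · rename_i p hp
      obtain rfl := Option.some.inj h
      exact HwC.app _ _ _ _ _ _ _ _ _ _ (app_cases hv hs) hp
    · exact absurd h (by simp)
  · rename_i hs
    split at h
    · rename_i p hp
      obtain rfl := Option.some.inj h
      obtain ⟨h0, -⟩ := rw_cases hv hs
      obtain ⟨st, pos, tr, ptr, mn⟩ := κ
      obtain rfl : pos = 0 := h0
      exact HwC.rw _ _ _ _ _ _ hp
    · exact absurd h (by simp)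
  · exact absurd h (by simp)

section put
variable {α : Type}

@[simp] theorem put_same (f : ℕ → α) (a : ℕ) (x : α) : put f a x a = x := by simp [put]

theorem put_ne (f : ℕ → α) {a i : ℕ} (x : α) (h : i ≠ a) : put f a x i = f i := by simp [put, h]

theorem put_self (f : ℕ → α) (a : ℕ) : put f a (f a) = f := by
  funext i; unfold put; split_ifs with h
  · rw [h]
  · rfl

theorem put_eq_self (f : ℕ → α) {a : ℕ} {x : α} (h : f a = x) : put f a x = f := by
  rw [← h, put_self]

theorem put_put (f : ℕ → α) (a : ℕ) (x y : α) : put (put f a x) a y = put f a y := by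
  funext i; unfold put; split_ifs <;> rfl

end put

omit hq in
theorem undo_zero (s : Sc) (f : ℕ → Sym) : undo q s 0 f = f := by
  funext i; unfold undo; rw [if_neg (by omega), if_neg (by omega)]

omit hq in
theorem cond_zero (s : Sc) (f : ℕ → Sym) : cond q s 0 f := by
  intro _ i h1 h2; omega

omit hq in
theorem good_left {st : St} {pos : ℕ} {tr : Sym} {ptr : ℕ → Bool} {mn : ℕ → Sym}
    (h : goesL q st pos (ptr pos)) (T : ℕ → Sym) :
    Good q ⟨st, pos, tr, ptr, mn⟩ T ↔ Good q ⟨st, pos - 1, tr, ptr, mn⟩ T := by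
  obtain ⟨h0, h⟩ := h
  cases st
  case Q2 s =>
    have := zo_spec (q := q) s
    simp only [Good, P2] at h ⊢
    refine exists_congr fun j => and_congr_right fun hj => ⟨?_, ?_⟩
    · rintro ⟨a, b, c, d⟩
      refine ⟨?_, by omega, c, d⟩
      have h1 : pos ≠ zo q s + 3 + j := fun e =>
        h.1 ⟨by omega, (c pos b).2 (Or.inl e)⟩
      omega
    · rintro ⟨a, b, c, d⟩
      exact ⟨by omega, h.2, c, d⟩
  all_goals
    simp only [Good, NoP] at h ⊢
  all_goals
    first
      | exact and_congr_left fun _ => by omega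
      | exact and_congr (by omega) (and_congr_left fun _ => by omega)

omit hq in
theorem good_right {st : St} {pos : ℕ} {tr : Sym} {ptr : ℕ → Bool} {mn : ℕ → Sym}
    (h : goesR q st pos (ptr pos)) (T : ℕ → Sym) :
    Good q ⟨st, pos, tr, ptr, mn⟩ T ↔ Good q ⟨st, pos + 1, tr, ptr, mn⟩ T := by
  cases st
  case Q4 s =>
    have := zo_spec (q := q) s
    simp only [Good, P2, goesR] at h ⊢
    refine exists_congr fun j => and_congr_right fun hj => ⟨?_, ?_⟩
    · rintro ⟨a, c, d⟩
      refine ⟨?_, c, d⟩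
      have h1 : pos ≠ 2 * q + zo q s + 3 + j := fun e =>
        h.1 ⟨by omega, (c pos (by omega)).2 (Or.inr e)⟩
      omega
    · rintro ⟨a, c, d⟩
      exact ⟨by omega, c, d⟩
  all_goals
    simp only [Good, NoP, P1, goesR] at h ⊢
  all_goals
    exact and_congr_left fun _ => by omega

omit hq in
theorem shift_iff {ptr : ℕ → Bool} {p a b n : ℕ} (h1 : ptr p = true) (h2 : ptr a = false)
    (hb : b ≠ p) (hb' : b ≠ a) :
    (∀ i < n, ptr i = true ↔ i = p ∨ i = b) ↔
      ∀ i < n, put (put ptr a true) p false i = true ↔ i = a ∨ i = b := by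
  have hap : a ≠ p := fun e => by rw [e, h1] at h2; exact absurd h2 (by simp)
  refine forall_congr' fun i => forall_congr' fun hi => ?_
  by_cases e1 : i = p
  · subst e1
    rw [put_same]
    simp [h1, hap.symm, hb.symm]
  · rw [put_ne _ _ e1]
    by_cases e2 : i = a
    · subst e2
      rw [put_same]
      simp [h2, e1, hb'.symm]
    · rw [put_ne _ _ e2]
      simp [e1, e2]

omit hq in
theorem clear1_iff {ptr : ℕ → Bool} {p n : ℕ} (h1 : ptr p = true) :
    (∀ i < n, ptr i = true ↔ i = p) ↔ ∀ i < n, put ptr p false i = false := by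
  refine forall_congr' fun i => forall_congr' fun hi => ?_
  by_cases e1 : i = p
  · subst e1
    simp [h1]
  · rw [put_ne _ _ e1]
    simp [e1]

omit hq in
theorem clear2_iff {ptr : ℕ → Bool} {p b n : ℕ} (h1 : ptr p = true) (hb : b ≠ p) :
    (∀ i < n, ptr i = true ↔ i = p ∨ i = b) ↔
      ∀ i < n, put ptr p false i = true ↔ i = b := by
  refine forall_congr' fun i => forall_congr' fun hi => ?_
  by_cases e1 : i = p
  · subst e1
    simp [h1, hb.symm]
  · rw [put_ne _ _ e1]
    simp [e1]

theorem good_shift {st st' : St} {pos : ℕ} {tr : Sym} {ptr : ℕ → Bool} {mn : ℕ → Sym}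
    (h : ShC q st pos st') (h1 : ptr pos = true) (h2 : ptr (pos - 1) = false) (T : ℕ → Sym) :
    Good q ⟨st, pos, tr, ptr, mn⟩ T ↔
      Good q ⟨st', pos - 1, tr, put (put ptr (pos - 1) true) pos false, mn⟩ T := by
  have h6 := six_le (q := q)
  cases h with
  | q1 s j hj =>
    have := zo_spec (q := q) s
    have e : zo q s + 3 + j - 1 = zo q s + 2 + j := by omega
    rw [e] at h2 ⊢
    have key := shift_iff (b := 2 * q + zo q s + 2 + j) (n := 4 * q) h1 h2 (by omega) (by omega)
    simp only [Good, P2]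
    constructor
    · rintro ⟨j', a, b, c, d⟩
      obtain rfl : j = j' := by omega
      exact ⟨j, by omega, rfl, key.1 c, d⟩
    · rintro ⟨j', a, b, c, d⟩
      obtain rfl : j = j' := by omega
      exact ⟨j, hj, rfl, key.2 c, d⟩
  | q3 s j hj =>
    have := zo_spec (q := q) s
    have e : 2 * q + zo q s + 3 + j - 1 = 2 * q + zo q s + 2 + j := by omega
    rw [e] at h2 ⊢
    have key := shift_iff (b := zo q s + 3 + j) (n := 4 * q) h1 h2 (by omega) (by omega)
    simp only [Good, P2]
    constructor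
    · rintro ⟨j', a, b, c, d⟩
      obtain rfl : j = j' := by omega
      refine ⟨j, hj, by omega, by omega, fun i hi => ?_, d⟩
      rw [or_comm]
      exact key.1 (fun i hi => by rw [or_comm]; exact c i hi) i hi
    · rintro ⟨j', a, b, b', c, d⟩
      have hc := (c _ b').1 (by rw [put_ne _ _ (by omega), put_same])
      obtain rfl : j = j' := by omega
      refine ⟨j, hj, rfl, fun i hi => ?_, d⟩
      rw [or_comm]
      exact key.2 (fun i hi => by rw [or_comm]; exact c i hi) i hi

omit hq in
theorem rwF_cases {s s' : St} {m m' : Sym} (h : rwF s m = some (s', m')) :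
    (∃ k, s = .O3a k ∧ kindS m = some k ∧ s' = .W ∧ m' = m) ∨
      (∃ k, s = .O3d k ∧ kindS m = some k ∧ s' = .W ∧ m' = nextS m) ∨
      (∃ c, s = .S1 c ∧ permOK c m ∧ s' = .W2 ∧ m' = m) := by
  cases s <;> simp only [rwF, reduceCtorEq] at h
  all_goals
    split_ifs at h with h1
    obtain ⟨rfl, rfl⟩ := Prod.mk.inj (Option.some.inj h)
    simp [h1]

omit hq in
theorem good_rw {st st' : St} {tr m' : Sym} {ptr : ℕ → Bool} {mn : ℕ → Sym}
    (h : rwF st (mn 0) = some (st', m')) (T : ℕ → Sym) :
    Good q ⟨st, 0, tr, ptr, mn⟩ T ↔ Good q ⟨st', 0, tr, ptr, put mn 0 m'⟩ T := by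
  rcases rwF_cases h with ⟨k, rfl, h1, rfl, rfl⟩ | ⟨k, rfl, h1, rfl, rfl⟩ | ⟨k, rfl, h1, rfl, rfl⟩
  · simp only [Good, NoP, h1, put_self, true_and]
  · simp only [Good, NoP, h1, true_and]
  · simp only [Good, NoP, h1, put_self, true_and]

omit hq in
theorem undo_step (j : ℕ) (hj : j + 4 ≤ q) (mn : ℕ → Sym) (tr : Sym) :
    undo q .swap (j + 1) (put mn (q + 3 + j) tr) =
      undo q .swap j (put (put mn (2 * q + q + 3 + j) tr) (q + 3 + j) (mn (2 * q + q + 3 + j))) := by
  funext i
  simp only [undo, put, true_and]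
  split_ifs <;> first | rfl | omega | (congr 1; omega)

omit hq in
theorem undo_eq (j : ℕ) (f : ℕ → Sym) : undo q .eq j f = f := by
  funext i; simp [undo]

omit hq in
theorem undo_addr (j : ℕ) (f : ℕ → Sym) : undo q .addr j f = f := by
  funext i; simp [undo]

theorem good_app {st st' : St} {pos : ℕ} {k : Kd} {π : Bool} {tr m' t' : Sym} {ptr : ℕ → Bool}
    {mn : ℕ → Sym} {π0 : Bool} (h : AppC q st pos π0 k st' π) (h0 : ptr pos = π0)
    (hf : appF k (mn pos) tr = some (m', t')) (T : ℕ → Sym) :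
    Good q ⟨st, pos, tr, ptr, mn⟩ T ↔
      Good q ⟨st', pos, t', put ptr pos π, put mn pos m'⟩ T := by
  have h6 := six_le (q := q)
  cases h with
  | oc s π =>
    have := srcPos_spec (q := q) s
    obtain ⟨rfl, rfl⟩ := Prod.mk.inj (Option.some.inj hf)
    simp only [Good, NoP, put_eq_self ptr h0]
    exact and_congr_left fun _ => by omega
  | o6 p π a b =>
    obtain ⟨rfl, rfl⟩ := Prod.mk.inj (Option.some.inj hf)
    simp only [Good, NoP, put_eq_self ptr h0, a, b, true_and]
    exact (and_iff_right (by omega)).symm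
  | o3b k π =>
    obtain ⟨rfl, rfl⟩ := Prod.mk.inj (Option.some.inj hf)
    simp only [Good, NoP, put_eq_self ptr h0, put_ne mn tr (show 0 ≠ 2 by omega)]
    exact and_congr_left fun _ => by omega
  | o3c k π =>
    obtain ⟨rfl, rfl⟩ := Prod.mk.inj (Option.some.inj hf)
    simp only [Good, NoP, put_eq_self ptr h0, put_ne mn tr (show 0 ≠ 2 by omega)]
    exact and_congr_left fun _ => by omega
  | lk1 π =>
    obtain ⟨rfl, rfl⟩ := Prod.mk.inj (Option.some.inj hf)
    simp only [Good, NoP, put_eq_self ptr h0, put_self]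
  | w2 π =>
    obtain ⟨rfl, rfl⟩ := Prod.mk.inj (Option.some.inj hf)
    simp only [Good, NoP, put_eq_self ptr h0, put_self]
    exact (and_iff_right (by omega)).symm
  | o4a π =>
    obtain ⟨rfl, rfl⟩ := Prod.mk.inj (Option.some.inj hf)
    simp only [Good, NoP, put_eq_self ptr h0]
    exact and_congr_left fun _ => by omega
  | o4b π =>
    obtain ⟨rfl, rfl⟩ := Prod.mk.inj (Option.some.inj hf)
    simp only [Good, NoP, put_eq_self ptr h0, put_ne mn tr (show 2 ≠ 2 * q by omega),
      put_ne mn tr (show 2 * q + 2 ≠ 2 * q by omega)]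
    exact and_congr_left fun _ => by omega
  | o4c π =>
    obtain ⟨rfl, rfl⟩ := Prod.mk.inj (Option.some.inj hf)
    have e : put (put (put mn (2 * q + 2) tr) 2 (mn (2 * q + 2))) (2 * q + 2) (mn 2) =
        put (put mn 2 (mn (2 * q + 2))) (2 * q + 2) (mn 2) := by
      funext i; unfold put; split_ifs <;> rfl
    simp only [Good, NoP, put_eq_self ptr h0, put_ne mn tr (show 2 ≠ 2 * q + 2 by omega),
      put_same, e]
    rw [← and_assoc (a := 2 ≤ 2 * q + 2)]
    exact and_congr_left fun _ => by omega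
  | o4d π =>
    obtain ⟨rfl, rfl⟩ := Prod.mk.inj (Option.some.inj hf)
    simp only [Good, NoP, put_eq_self ptr h0, put_ne mn tr (show 2 * q + 2 ≠ 2 by omega)]
    rw [← and_assoc]
    exact and_congr_left fun _ => by omega
  | o4e π =>
    obtain ⟨rfl, rfl⟩ := Prod.mk.inj (Option.some.inj hf)
    simp only [Good, NoP, put_eq_self ptr h0]
    exact and_congr_left fun _ => by omega
  | s2 s =>
    have := zo_spec (q := q) s
    obtain ⟨rfl, rfl⟩ := Prod.mk.inj (Option.some.inj hf)
    simp only [Good, NoP, P1, put_self, clear1_iff h0]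
    exact and_congr_left fun _ => by omega
  | q0a s =>
    have := zo_spec (q := q) s
    obtain ⟨rfl, rfl⟩ := Prod.mk.inj (Option.some.inj hf)
    have key := clear2_iff (b := 2 * q + zo q s + 2) (n := 4 * q) h0 (by omega)
    simp only [Good, P1, P2, put_self]
    constructor
    · rintro ⟨j, a, b, c, d, e, f, g⟩
      obtain rfl : j = 0 := by omega
      rw [undo_zero] at g
      exact ⟨by omega, key.1 c, d, e, g⟩
    · rintro ⟨a, c, d, e, g⟩
      exact ⟨0, by omega, rfl, key.2 c, d, e, cond_zero _ _, by rw [undo_zero]; exact g⟩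
  | q0b s j hj =>
    have := zo_spec (q := q) s
    obtain ⟨rfl, rfl⟩ := Prod.mk.inj (Option.some.inj hf)
    have e : zo q s + 2 + (j + 1) = zo q s + 3 + j := by omega
    have e' : 2 * q + zo q s + 2 + (j + 1) = 2 * q + zo q s + 3 + j := by omega
    simp only [Good, P2, put_eq_self ptr h0, put_ne mn tr (show 0 ≠ zo q s + 3 + j by omega)]
    constructor
    · rintro ⟨j', a, b, c, d, f, g⟩
      obtain rfl : j' = j + 1 := by omega
      rw [e, e'] at c
      refine ⟨j, hj, by omega, c, by rw [put_same, d], f, ?_⟩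
      rw [put_put, put_self]; exact g
    · rintro ⟨j', a, b, c, d, f, g⟩
      have hc := (c _ (by omega)).1 h0
      obtain rfl : j = j' := by omega
      rw [put_put, put_self] at g
      rw [put_same] at d
      refine ⟨j + 1, by omega, e.symm, by rw [e, e']; exact c, d, f, g⟩
  | q2 s j hj =>
    have := zo_spec (q := q) s
    obtain ⟨rfl, rfl⟩ := Prod.mk.inj (Option.some.inj hf)
    simp only [Good, P2, put_eq_self ptr h0, put_ne mn tr (show 0 ≠ zo q s + 3 + j by omega)]
    constructor
    · rintro ⟨j', a, b, b', c, d⟩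
      have hc := (c _ (by omega)).1 h0
      obtain rfl : j = j' := by omega
      exact ⟨j, hj, rfl, c, d⟩
    · rintro ⟨j', a, b, c, d⟩
      obtain rfl : j = j' := by omega
      exact ⟨j, hj, le_rfl, by omega, c, d⟩
  | q4 s j hj =>
    have := zo_spec (q := q) s
    have key : ∀ f : ℕ → Sym, put mn (2 * q + zo q s + 3 + j) m' 0 = mn 0 ∧
        put mn (2 * q + zo q s + 3 + j) m' (zo q s + 3 + j) = mn (zo q s + 3 + j) := fun _ =>
      ⟨put_ne _ _ (by omega), put_ne _ _ (by omega)⟩
    have key2 : (cond q s (j + 1) (put mn (zo q s + 3 + j) tr) ↔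
          cond q s j (put (put mn (2 * q + zo q s + 3 + j) m') (zo q s + 3 + j) t')) ∧
        undo q s (j + 1) (put mn (zo q s + 3 + j) tr) =
          undo q s j (put (put mn (2 * q + zo q s + 3 + j) m') (zo q s + 3 + j) t') := by
      cases s
      · obtain ⟨rfl, rfl⟩ := Prod.mk.inj (Option.some.inj hf)
        exact ⟨by simp [cond], undo_step j hj mn tr⟩
      · simp only [Sc.kd, appF] at hf
        split_ifs at hf with he
        obtain ⟨rfl, rfl⟩ := Prod.mk.inj (Option.some.inj hf)
        rw [put_self, undo_eq, undo_eq]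
        refine ⟨⟨fun h _ i a b => h rfl i a (by omega), fun h _ i a b => ?_⟩, rfl⟩
        by_cases e : i = q + 3 + j
        · subst e
          simp only [zo] at he ⊢
          rw [put_same, put_ne _ _ (by omega), ← he]
          congr 1; omega
        · exact h rfl i a (by omega)
      · obtain ⟨rfl, rfl⟩ := Prod.mk.inj (Option.some.inj hf)
        rw [put_self, undo_addr, undo_addr]
        exact ⟨by simp [cond], rfl⟩
    simp only [Good, P2, put_eq_self ptr h0, (key mn).1]
    constructor
    · rintro ⟨j', a, b, c, d, f, g, g'⟩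
      have hc := (c _ (by omega)).1 h0
      obtain rfl : j = j' := by omega
      exact ⟨j, hj, rfl, c, (key mn).2.trans d, f, key2.1.1 g, key2.2 ▸ g'⟩
    · rintro ⟨j', a, b, c, d, f, g, g'⟩
      obtain rfl : j = j' := by omega
      exact ⟨j, hj, le_rfl, c, (key mn).2.symm.trans d, f, key2.1.2 g, key2.2 ▸ g'⟩
  | q5 =>
    obtain ⟨rfl, rfl⟩ := Prod.mk.inj (Option.some.inj hf)
    simp only [Good, NoP, P1, put_self, clear1_iff h0]

theorem good_hw {κ κ' : Cfg} (hv : Valid q κ) (h : hw q κ = some κ') (T : ℕ → Sym) :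
    Good q κ T ↔ Good q κ' T := by
  cases hw_cases hv h with
  | left st pos tr ptr mn h' => exact good_left h' T
  | o6b pos tr ptr mn h1 h2 =>
    simp only [Good, NoP]
    rw [← and_assoc, ← and_assoc (a := 3 ≤ pos - 1)]
    exact and_congr_left fun _ => by omega
  | right st pos tr ptr mn h' => exact good_right h' T
  | shift st pos st' tr ptr mn h' h1 h2 => exact good_shift h' h1 h2 T
  | app st pos k st' π tr ptr mn m' t' h' hf => exact good_app h' rfl hf T
  | rw st st' tr ptr mn m' h' => exact good_rw h' T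

theorem Good.valid {κ : Cfg} {T : ℕ → Sym} (h : Good q κ T) : Valid q κ := by
  have h6 := six_le (q := q)
  obtain ⟨st, pos, tr, ptr, mn⟩ := κ
  cases st
  case OC s =>
    have := srcPos_spec (q := q) s
    have := h.1
    simp only [Valid, len, St.cls, Cls.two, Bool.false_eq_true, if_false, reduceCtorEq,
      false_imp_iff, and_true] at this ⊢
    omega
  case S2 s =>
    have := zo_spec (q := q) s
    have := h.1
    simp only [Valid, len, St.cls, Cls.two, if_true, reduceCtorEq,
      false_imp_iff, and_true] at this ⊢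
    omega
  case LK2 =>
    obtain ⟨a, b, -⟩ := h
    exact ⟨b, fun _ => a⟩
  case Q0 s | Q1 s | Q2 s | Q3 s | Q4 s =>
    have := zo_spec (q := q) s
    obtain ⟨j, a, b, c, -⟩ := h
    simp only [Valid, len, St.cls, Cls.two, if_true, reduceCtorEq,
      false_imp_iff, and_true] at a b c ⊢
    omega
  all_goals
    obtain ⟨a, b, -⟩ := h
    simp only [Valid, len, St.cls, Cls.two, if_true, reduceCtorEq, Bool.false_eq_true, if_false,
      false_imp_iff, and_true] at a b ⊢
    omega

omit hq in
theorem EqT.trans' {n : ℕ} {T T' f : ℕ → Sym} (e : EqT n T' T) (h : EqT n T f) : EqT n T' f :=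
  fun i hi => (e i hi).trans (h i hi)

omit hq in
theorem Good.congr {κ : Cfg} {T T' : ℕ → Sym} (h : Good q κ T) (e : EqT (len q κ) T' T) :
    Good q κ T' := by
  obtain ⟨st, pos, tr, ptr, mn⟩ := κ
  cases st
  all_goals
    simp only [len, St.cls, Cls.two, if_true, Bool.false_eq_true, if_false] at e
    simp only [Good] at h ⊢
  all_goals
    first
      | exact ⟨h.1, h.2.1, h.2.2.1, e.trans' h.2.2.2⟩
      | exact ⟨h.1, h.2.1, h.2.2.1, h.2.2.2.1, e.trans' h.2.2.2.2⟩
      | (obtain ⟨j, a, b, c, d, f, g, k⟩ := h; exact ⟨j, a, b, c, d, f, g, e.trans' k⟩)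
      | (obtain ⟨j, a, b, b', c, d, f, g, k⟩ := h; exact ⟨j, a, b, b', c, d, f, g, e.trans' k⟩)

theorem rest_iff {κ : Cfg} (hv : Valid q κ) : actAt q κ = .rest ↔ κ.st = .W ∧ κ.pos = 0 := by
  have h6 := six_le (q := q)
  rw [actAt_eq hv]
  obtain ⟨st, pos, tr, ptr, mn⟩ := κ
  obtain ⟨hv1, hv2⟩ := hv
  cases st
  case W =>
    simp only [act0, len, St.cls, Cls.two, Bool.false_eq_true, if_false, true_and] at hv1 ⊢
    split_ifs with h
    · simp only [znAt_A, flAt_p0] at h
      simp only [true_iff]; omega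
    · simp only [znAt_A, flAt_p0] at h
      simp only [reduceCtorEq, false_iff]; omega
  all_goals
    simp only [act0, goL, goR, reduceCtorEq, false_and, iff_false]
    split_ifs <;> simp

theorem cross_iff {κ : Cfg} (hv : Valid q κ) :
    actAt q κ = .cross ↔ κ.st = .LK2 ∧ κ.pos = 2 * q := by
  have h6 := six_le (q := q)
  rw [actAt_eq hv]
  obtain ⟨st, pos, tr, ptr, mn⟩ := κ
  obtain ⟨hv1, hv2⟩ := hv
  cases st
  case LK2 =>
    have := hv2 rfl
    simp only [act0, len, St.cls, Cls.two, if_true, true_and] at hv1 this ⊢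
    split_ifs with h
    · simp only [znAt_A, flAt_p0] at h
      simp only [true_iff]; omega
    · simp only [znAt_A, flAt_p0] at h
      simp only [reduceCtorEq, false_iff]; omega
  all_goals
    simp only [act0, goL, goR, reduceCtorEq, false_and, iff_false]
    split_ifs <;> simp

/-- a left move keeps the class and does not leave the piece -/
theorem act_left {κ : Cfg} (hv : Valid q κ) {s : St}
    (h : actAt q κ = .left s ∨ actAt q κ = .lshift s) :
    s.cls = κ.st.cls ∧ 0 < κ.pos ∧ (κ.st = .LK2 → 2 * q < κ.pos) ∧ (s = .LK2 → κ.st = .LK2) := by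
  rcases h with h | h
  · rcases left_cases hv h with ⟨rfl, h1, h2⟩ | ⟨h1, rfl, h2, h3⟩
    · refine ⟨rfl, h1, fun e => ?_, id⟩
      rw [e] at h2
      exact h2.1
    · rw [h1]
      exact ⟨rfl, h2, by simp, by simp⟩
  · obtain ⟨-, h2⟩ := lshift_cases hv h
    obtain ⟨st, pos, tr, ptr, mn⟩ := κ
    simp only at h2 ⊢
    cases h2 with
    | q1 s j hj => exact ⟨rfl, by omega, by simp, by simp⟩
    | q3 s j hj => exact ⟨rfl, by omega, by simp, by simp⟩

omit hq in
theorem act_lshift_ptr {κ : Cfg} {s : St} (h : actAt q κ = .lshift s) : κ.ptr κ.pos = true := by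
  unfold actAt act at h
  obtain ⟨st, pos, tr, ptr, mn⟩ := κ
  split_ifs at h
  cases st
  case Q1 s =>
    simp only [act0] at h
    split_ifs at h with hc
    exact hc.2.1
  case Q3 s =>
    simp only [act0] at h
    split_ifs at h with hc
    exact hc.2.1
  all_goals
    simp only [act0, goL, goR] at h
    split_ifs at h

theorem act_right {κ : Cfg} (hv : Valid q κ) (h : actAt q κ = .right) :
    κ.pos + 1 < len q κ ∧ κ.st ≠ .LK2 ∧ κ.st ≠ .LK1 := by
  have h1 := right_cases hv h
  obtain ⟨st, pos, tr, ptr, mn⟩ := κ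
  cases st
  all_goals
    simp only [goesR] at h1
  all_goals
    refine ⟨?_, by simp, by simp⟩
    simp only [len, St.cls, Cls.two, if_true, Bool.false_eq_true, if_false]
    omega

/-- a table step keeps the class, except at the two ends of the locking sweeps -/
theorem act_app {κ : Cfg} (hv : Valid q κ) {k : Kd} {s : St} {π : Bool}
    (h : actAt q κ = .app k s π) :
    s.cls = κ.st.cls ∨ (κ.st = .LK1 ∧ s = .W ∧ κ.pos = 0) ∨
      (κ.st = .W2 ∧ s = .LK2 ∧ κ.pos + 1 = 4 * q) := by
  have h6 := six_le (q := q)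
  have h1 := app_cases hv h
  obtain ⟨st, pos, tr, ptr, mn⟩ := κ
  simp only at h1 ⊢
  generalize ptr pos = π0 at h1
  cases h1
  case lk1 => exact Or.inr (Or.inl ⟨rfl, rfl, rfl⟩)
  case w2 => exact Or.inr (Or.inr ⟨rfl, rfl, by omega⟩)
  all_goals exact Or.inl rfl

omit hq in
theorem rwF_cls {s s' : St} {m m' : Sym} (h : rwF s m = some (s', m')) : s'.cls = s.cls := by
  rcases rwF_cases h with ⟨k, rfl, -, rfl, -⟩ | ⟨k, rfl, -, rfl, -⟩ | ⟨k, rfl, -, rfl, -⟩ <;> rfl

theorem hw_valid {κ κ' : Cfg} (hv : Valid q κ) (h : hw q κ = some κ') :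
    Valid q κ' ∧ κ'.st.cls.two = κ.st.cls.two := by
  have h6 := six_le (q := q)
  have hv1 := hv.1
  cases hw_cases hv h with
  | left st pos tr ptr mn h' =>
    refine ⟨⟨lt_of_le_of_lt (Nat.sub_le _ _) hv1, fun e => ?_⟩, rfl⟩
    obtain rfl : st = .LK2 := e
    have := h'.2.1
    simp only; omega
  | o6b pos tr ptr mn h1 h2 =>
    exact ⟨⟨lt_of_le_of_lt (Nat.sub_le _ _) hv1, by simp⟩, rfl⟩
  | right st pos tr ptr mn h' =>
    refine ⟨⟨?_, fun e => le_trans (hv.2 e) (Nat.le_succ _)⟩, rfl⟩
    cases st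
    all_goals
      simp only [goesR] at h'
    all_goals
      simp only [len, St.cls, Cls.two, if_true, Bool.false_eq_true, if_false]
      omega
  | shift st pos st' tr ptr mn h' h1 h2 =>
    cases h' <;> exact ⟨⟨lt_of_le_of_lt (Nat.sub_le _ _) hv1, by simp⟩, rfl⟩
  | app st pos k st' π tr ptr mn m' t' h' hf =>
    generalize ptr pos = π0 at h'
    cases h'
    case w2 => exact ⟨⟨hv1, fun _ => by simp only; omega⟩, rfl⟩
    all_goals exact ⟨⟨hv1, by simp⟩, rfl⟩
  | rw st st' tr ptr mn m' h' =>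
    rcases rwF_cases h' with ⟨k, rfl, -, rfl, -⟩ | ⟨k, rfl, -, rfl, -⟩ | ⟨k, rfl, -, rfl, -⟩ <;>
      exact ⟨⟨hv1, by simp⟩, rfl⟩

theorem good_not_dead {κ : Cfg} {T : ℕ → Sym} (h : Good q κ T) : actAt q κ ≠ .dead := by
  have h6 := six_le (q := q)
  have hv := h.valid
  rw [actAt_eq hv]
  intro hd
  obtain ⟨st, pos, tr, ptr, mn⟩ := κ
  have hv1 := hv.1
  have ho := off_spec q pos
  cases st
  case OC s =>
    have := srcPos_spec (q := q) s
    have a := h.1
    simp only [act0, goR] at hd
    split_ifs at hd with h1 h2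
    simp only [znAt_A, znAt_I, flAt_src, flAt_last] at h1 h2 a
    omega
  case S2 s =>
    have := zo_spec (q := q) s
    obtain ⟨a, b, -⟩ := h
    simp only [act0, goR] at hd
    split_ifs at hd with h1 h2 h3
    · simp only [znAt_sc, flAt_p2, side_true] at h1 a
      exact h2 ((b pos (by omega)).2 (by omega))
    · simp only [znAt_I, flAt_last, side_true, St.cls, Cls.two, Bool.true_eq_false,
        or_false] at h3 a
      omega
  case Q0 s =>
    have := zo_spec (q := q) s
    obtain ⟨j, a, b, c, -⟩ := h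
    simp only at b
    simp only [act0] at hd
    split_ifs at hd with h1 h2 h3
    · simp only [flAt_p2, flAt_data] at h2 h3
      omega
    · refine h1 ⟨?_, (c pos (by omega)).2 (Or.inl b), ?_⟩
      · rw [side_false]; omega
      · rw [znAt_sc]; omega
  case Q1 s =>
    have := zo_spec (q := q) s
    obtain ⟨j, a, b, c, -⟩ := h
    simp only at b
    simp only [act0] at hd
    split_ifs at hd with h1
    refine h1 ⟨?_, (c pos (by omega)).2 (Or.inl b), ?_, ?_⟩
    · rw [side_false]; omega
    · rw [znAt_sc]; omega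
    · rw [flAt_data]; omega
  case Q2 s =>
    have := zo_spec (q := q) s
    obtain ⟨j, a, b, b', c, -⟩ := h
    simp only at b b'
    simp only [act0, goL] at hd
    split_ifs at hd with h1 h2 h3
    · have := (c pos b').1 h1.2
      have h11 := h1.1
      rw [side_false] at h11
      refine h2 ⟨?_, ?_⟩
      · rw [znAt_sc]; omega
      · rw [flAt_data]; omega
    · simp only [side_false, znAt_A, flAt_p0] at h3
      omega
  case Q3 s =>
    have := zo_spec (q := q) s
    obtain ⟨j, a, b, c, -⟩ := h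
    simp only at b
    simp only [act0] at hd
    split_ifs at hd with h1
    refine h1 ⟨?_, (c pos (by omega)).2 (Or.inr b), ?_, ?_⟩
    · rw [side_true]; omega
    · rw [znAt_sc]; omega
    · rw [flAt_data]; omega
  case Q4 s =>
    have := zo_spec (q := q) s
    obtain ⟨j, a, b, c, -⟩ := h
    have b' : pos ≤ 2 * q + zo q s + 3 + j := b
    simp only [act0, goR] at hd
    split_ifs at hd with h1 h2 h3
    · have := (c pos (by omega)).1 h1.2
      have h11 := h1.1
      rw [side_true] at h11
      refine h2 ⟨?_, ?_⟩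
      · rw [znAt_sc]; omega
      · rw [flAt_data]; omega
    · simp only [znAt_I, flAt_last, side_true, St.cls, Cls.two, Bool.true_eq_false,
        or_false] at h3
      refine h1 ⟨?_, (c pos (by omega)).2 (Or.inr (by omega))⟩
      rw [side_true]; omega
  case Q5 =>
    obtain ⟨a, b, -⟩ := h
    simp only [act0] at hd
    split_ifs at hd with h1 h2
    simp only [znAt_I, flAt_last, side_true] at h1 a
    exact h2 ((b pos a).2 (by omega))
  all_goals
    obtain ⟨a, b, -⟩ := h
    simp only [act0, goL, goR] at hd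
    split_ifs at hd <;>
    simp only [znAt_A, znAt_I, flAt_p0, flAt_p1, flAt_p2, flAt_p3, flAt_mid, flAt_last, side_true,
      side_false, flAt_data, Bool.false_eq_true, if_true, if_false, len, St.cls, Cls.two,
      Bool.true_eq_false, or_false, or_true, and_true] at * <;>
    omega

theorem good_prog {κ : Cfg} {T : ℕ → Sym} (h : Good q κ T) :
    actAt q κ = .rest ∨ actAt q κ = .cross ∨ ∃ κ', hw q κ = some κ' := by
  have h6 := six_le (q := q)
  have hv := h.valid
  cases ha : actAt q κ with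
  | rest => exact Or.inl rfl
  | cross => exact Or.inr (Or.inl rfl)
  | dead => exact absurd ha (good_not_dead h)
  | left s => exact Or.inr (Or.inr ⟨_, by unfold hw; rw [ha]⟩)
  | right => exact Or.inr (Or.inr ⟨_, by unfold hw; rw [ha]⟩)
  | lshift s =>
    refine Or.inr (Or.inr ?_)
    obtain ⟨h1, h2⟩ := lshift_cases hv ha
    have : ¬ κ.ptr (κ.pos - 1) = true := by
      obtain ⟨st, pos, tr, ptr, mn⟩ := κ
      simp only at h2
      cases h2 with
      | q1 s j hj =>
        have := zo_spec (q := q) s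
        obtain ⟨j', a, b, c, -⟩ := h
        intro e
        have := (c _ (by simp only; omega)).1 e
        simp only at this b
        omega
      | q3 s j hj =>
        have := zo_spec (q := q) s
        obtain ⟨j', a, b, c, -⟩ := h
        intro e
        have := (c _ (by simp only; omega)).1 e
        simp only at this b
        omega
    exact ⟨_, by unfold hw; rw [ha]; exact if_neg this⟩
  | rw =>
    refine Or.inr (Or.inr ?_)
    obtain ⟨h0, h1⟩ := rw_cases hv ha
    have : ∃ p, rwF κ.st (κ.mn κ.pos) = some p := by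
      obtain ⟨st, pos, tr, ptr, mn⟩ := κ
      obtain rfl : pos = 0 := h0
      rcases h1 with ⟨k, e⟩ | ⟨k, e⟩ | ⟨k, e⟩
      all_goals
        simp only at e
        subst e
        exact ⟨_, if_pos h.2.2.2.1⟩
    obtain ⟨p, hp⟩ := this
    exact ⟨_, by unfold hw; rw [ha]; simp only [hp]; rfl⟩
  | app k s π =>
    refine Or.inr (Or.inr ?_)
    have h1 := app_cases hv ha
    have : ∃ p, appF k (κ.mn κ.pos) κ.tr = some p := by
      obtain ⟨st, pos, tr, ptr, mn⟩ := κ
      simp only at h1 ⊢
      generalize hπ : ptr pos = π0 at h1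
      cases h1
      case q4 s j hj =>
        cases s
        · exact ⟨_, rfl⟩
        · obtain ⟨j', a, b, c, d, e, f, -⟩ := h
          have hc := (c _ (by simp only [zo]; omega)).1 hπ
          simp only [zo] at hc f hπ ⊢
          obtain rfl : j = j' := by omega
          have := f rfl (q + 3 + j) (by omega) (by omega)
          rw [put_same, put_ne _ _ (by omega)] at this
          refine ⟨_, if_pos ?_⟩
          rw [this]; congr 1; omega
        · exact ⟨_, rfl⟩
      all_goals exact ⟨_, rfl⟩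
    obtain ⟨p, hp⟩ := this
    exact ⟨_, by unfold hw; rw [ha]; simp only [hp]; rfl⟩

/-! ### termination -/

def ptrSum (n : ℕ) (f : ℕ → Bool) : ℕ := ∑ i ∈ Finset.range n, if f i = true then i + 1 else 0

omit hq in
theorem ptrSum_put {n p : ℕ} (hp : p < n) (f : ℕ → Bool) (b : Bool) :
    ptrSum n (put f p b) + (if f p = true then p + 1 else 0) =
      ptrSum n f + (if b = true then p + 1 else 0) := by
  unfold ptrSum
  have hm : p ∈ Finset.range n := Finset.mem_range.2 hp
  rw [← Finset.add_sum_erase _ _ hm, ← Finset.add_sum_erase _ (fun i => if f i = true then i + 1 else 0) hm, put_same]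
  have : ∑ i ∈ (Finset.range n).erase p, (if put f p b i = true then i + 1 else 0) =
      ∑ i ∈ (Finset.range n).erase p, (if f i = true then i + 1 else 0) :=
    Finset.sum_congr rfl fun i hi => by rw [put_ne _ _ (Finset.ne_of_mem_erase hi)]
  rw [this]; omega

def rank : St → ℕ
  | .W => 0
  | .OC _ | .O6a | .O3a _ | .O3d _ | .LK1 | .Q1 _ | .Q3 _ => 1
  | .O6b | .O3b _ | .O3c _ | .LK2 | .Q2 _ | .Q4 _ => 2
  | .W2 | .Q0 _ => 3
  | .O4a | .O4e | .S1 _ => 4
  | .O4d | .S2 _ | .Q5 => 5
  | .O4c => 6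
  | .O4b => 7

def dist (q : ℕ) (s : St) (pos : ℕ) : ℕ :=
  match s with
  | .W | .O3a _ | .O3d _ | .LK1 | .LK2 | .O4d | .S1 _ | .Q2 _ => pos
  | _ => 4 * q - pos

theorem hw_dec {κ κ' : Cfg} (hv : Valid q κ) (h : hw q κ = some κ') :
    ptrSum (4 * q) κ'.ptr < ptrSum (4 * q) κ.ptr ∨
      (κ'.ptr = κ.ptr ∧ (rank κ'.st < rank κ.st ∨
        (κ'.st = κ.st ∧ dist q κ'.st κ'.pos < dist q κ.st κ.pos))) := by
  have h6 := six_le (q := q)
  have hv1 : κ.pos < 4 * q := by
    have := hv.1
    unfold len at this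
    split_ifs at this <;> omega
  cases hw_cases hv h with
  | left st pos tr ptr mn h' =>
    refine Or.inr ⟨rfl, Or.inr ⟨rfl, ?_⟩⟩
    obtain ⟨h0, h'⟩ := h'
    cases st
    all_goals
      simp only at h'
    all_goals
      simp only [dist]; omega
  | o6b pos tr ptr mn h1 h2 => exact Or.inr ⟨rfl, Or.inl (by simp [rank])⟩
  | right st pos tr ptr mn h' =>
    refine Or.inr ⟨rfl, Or.inr ⟨rfl, ?_⟩⟩
    cases st
    all_goals
      simp only [goesR] at h'
    all_goals
      simp only [dist]; omega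
  | shift st pos st' tr ptr mn h' h1 h2 =>
    left
    have h0 : 0 < pos := by cases h' <;> omega
    simp only at hv1 ⊢
    have e1 := ptrSum_put (show pos - 1 < 4 * q by omega) ptr true
    have e2 := ptrSum_put hv1 (put ptr (pos - 1) true) false
    rw [put_ne _ _ (by omega), h1] at e2
    rw [h2] at e1
    simp only [if_true, Bool.false_eq_true, if_false] at e1 e2
    omega
  | app st pos k st' π tr ptr mn m' t' h' hf =>
    simp only at hv1 ⊢
    have e1 := ptrSum_put hv1 ptr false
    generalize hπ : ptr pos = π0 at h' e1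
    cases h'
    case s2 | q0a | q5 =>
      left
      simp only [if_true, Bool.false_eq_true, if_false] at e1
      omega
    all_goals exact Or.inr ⟨put_eq_self _ hπ, Or.inl (by simp [rank])⟩
  | rw st st' tr ptr mn m' h' =>
    rcases rwF_cases h' with ⟨k, rfl, -, rfl, -⟩ | ⟨k, rfl, -, rfl, -⟩ | ⟨k, rfl, -, rfl, -⟩ <;>
      exact Or.inr ⟨rfl, Or.inl (by simp [rank])⟩

/-- induction along home-ward steps -/
theorem hw_induction {p : Cfg → Prop}
    (h : ∀ κ, Valid q κ → (∀ κ', hw q κ = some κ' → p κ') → p κ) (κ : Cfg) (hv : Valid q κ) :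
    p κ := by
  have key : ∀ a b c : ℕ, ∀ κ : Cfg, Valid q κ → ptrSum (4 * q) κ.ptr = a → rank κ.st = b →
      dist q κ.st κ.pos = c → p κ := by
    intro a
    induction a using Nat.strong_induction_on with
    | _ a iha =>
      intro b
      induction b using Nat.strong_induction_on with
      | _ b ihb =>
        intro c
        induction c using Nat.strong_induction_on with
        | _ c ihc =>
          intro κ hv ha hb hc
          refine h κ hv fun κ' h' => ?_
          have hv' := (hw_valid hv h').1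
          rcases hw_dec hv h' with h1 | ⟨h1, h2 | ⟨h2, h3⟩⟩
          · exact iha _ (ha ▸ h1) _ _ κ' hv' rfl rfl rfl
          · exact ihb _ (hb ▸ h2) _ κ' hv' (by rw [h1, ha]) rfl rfl
          · exact ihc _ (hc ▸ h3) κ' hv' (by rw [h1, ha]) (by rw [h2, hb]) rfl
  exact key _ _ _ κ hv rfl rfl rfl

end Vale.Agent.P192Z.Mach
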