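import Vale.Agent.P192Z.Mach.Words

/-!
# P192: the growth argument, and from bounded rank nilpotency to nilpotency of matrix pencils
-/

namespace Vale.Agent.P192Z

/-- an exponential is eventually larger than a monomial -/
theorem exists_pow_lt_two_pow (C k : ℕ) : ∃ Q : ℕ, ∀ q, Q ≤ q → C * q ^ k < 2 ^ q := by
  have h := tendsto_pow_const_div_const_pow_of_one_lt k (r := 2) (by norm_num)
  have h1 : (0 : ℝ) < 1 / ((C : ℝ) + 1) := by positivity
  have h2 := (h.eventually (gt_mem_nhds h1))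
  obtain ⟨Q, hQ⟩ := Filter.eventually_atTop.mp h2
  refine ⟨Q, fun q hq => ?_⟩
  have h3 := hQ q hq
  have h4 : (0 : ℝ) < 2 ^ q := by positivity
  rw [div_lt_div_iff₀ h4 (by positivity)] at h3
  have h5 : (0 : ℝ) ≤ (q : ℝ) ^ k := by positivity
  have h6 : ((C * q ^ k : ℕ) : ℝ) < ((2 ^ q : ℕ) : ℝ) := by
    push_cast
    nlinarith
  exact_mod_cast h6

theorem growth (c d : ℕ) (N : ℕ → ℕ → Prop)
    (hdir : ∀ q ρ, 6 ≤ q → ρ * (d * (q + 2)) + 3 < 2 ^ (q - 3) → N q ρ)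
    (hdesc : ∀ q ρ, 6 ≤ q → N (2 ^ (q - 3)) (ρ * (c * (2 ^ (q - 3)) ^ 2 + 1) ^ 2) → N q ρ)
    (hmono : ∀ q ρ ρ', ρ ≤ ρ' → N q ρ' → N q ρ) :
    ∃ q, 6 ≤ q ∧ ∀ ρ, N q ρ := by
  obtain ⟨Q, hQ⟩ := exists_pow_lt_two_pow (8 * (3 * d + 3)) 7
  have hA : ∀ q, max (max Q 6) ((c + 1) ^ 2) ≤ q → (3 * d + 3) * q ^ 7 < 2 ^ (q - 3) := by
    intro q hq
    have h1 := hQ q (le_trans (le_trans (le_max_left _ _) (le_max_left _ _)) hq)
    have h6 : 6 ≤ q := le_trans (le_trans (le_max_right _ _) (le_max_left _ _)) hq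
    have h2 : 2 ^ q = 8 * 2 ^ (q - 3) := by
      obtain ⟨r, rfl⟩ : ∃ r, q = r + 3 := ⟨q - 3, by omega⟩
      rw [Nat.add_sub_cancel, pow_add]; ring
    rw [h2, mul_assoc] at h1
    omega
  have key : ∀ s q, max (max Q 6) ((c + 1) ^ 2) ≤ q → N q (2 ^ s * q ^ 6) := by
    intro s
    induction s with
    | zero =>
      intro q hq
      have h6 : 6 ≤ q := le_trans (le_trans (le_max_right _ _) (le_max_left _ _)) hq
      refine hdir q _ h6 (lt_of_le_of_lt ?_ (hA q hq))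
      have h1 : q ^ 6 * (d * (q + 2)) ≤ q ^ 6 * (d * (3 * q)) :=
        Nat.mul_le_mul_left _ (Nat.mul_le_mul_left _ (by omega))
      have h2 : q ^ 6 * (d * (3 * q)) = 3 * d * q ^ 7 := by ring
      have h3 : 1 ≤ q ^ 7 := Nat.one_le_pow _ _ (by omega)
      have h4 : (3 * d + 3) * q ^ 7 = 3 * d * q ^ 7 + 3 * q ^ 7 := by ring
      rw [pow_zero, one_mul]
      omega
    | succ s ih =>
      intro q hq
      have h6 : 6 ≤ q := le_trans (le_trans (le_max_right _ _) (le_max_left _ _)) hq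
      have hq7 := hA q hq
      have h67 : q ^ 6 ≤ q ^ 7 := Nat.pow_le_pow_right (by omega) (by omega)
      have h17 : q ≤ q ^ 7 := by
        calc q = q ^ 1 := (pow_one q).symm
          _ ≤ q ^ 7 := Nat.pow_le_pow_right (by omega) (by omega)
      have h37 : 3 * q ^ 7 ≤ (3 * d + 3) * q ^ 7 := Nat.mul_le_mul_right _ (by omega)
      refine hdesc q _ h6 ?_
      generalize 2 ^ (q - 3) = q' at hq7 ⊢
      have hq' : max (max Q 6) ((c + 1) ^ 2) ≤ q' := by omega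
      refine hmono q' _ _ ?_ (ih q' hq')
      have hc : (c + 1) ^ 2 ≤ q' := le_trans (le_max_right _ _) hq'
      have h1 : 1 ≤ q' ^ 2 := Nat.one_le_pow _ _ (by omega)
      have h2 : c * q' ^ 2 + 1 ≤ (c + 1) * q' ^ 2 := by
        have : (c + 1) * q' ^ 2 = c * q' ^ 2 + q' ^ 2 := by ring
        omega
      have h3 : (c * q' ^ 2 + 1) ^ 2 ≤ q' ^ 5 := by
        calc (c * q' ^ 2 + 1) ^ 2 ≤ ((c + 1) * q' ^ 2) ^ 2 := Nat.pow_le_pow_left h2 2
          _ = (c + 1) ^ 2 * q' ^ 4 := by ring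
          _ ≤ q' * q' ^ 4 := Nat.mul_le_mul_right _ hc
          _ = q' ^ 5 := by ring
      have h4 : 2 ^ (s + 1) * q ^ 6 ≤ 2 ^ s * q' := by
        rw [pow_succ, mul_assoc]
        exact Nat.mul_le_mul_left _ (by omega)
      calc 2 ^ (s + 1) * q ^ 6 * (c * q' ^ 2 + 1) ^ 2 ≤ 2 ^ s * q' * q' ^ 5 :=
            Nat.mul_le_mul h4 h3
        _ = 2 ^ s * q' ^ 6 := by ring
  refine ⟨max (max Q 6) ((c + 1) ^ 2), le_trans (le_max_right _ _) (le_max_left _ _), fun ρ => ?_⟩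
  refine hmono _ _ _ ?_ (key ρ _ le_rfl)
  have h1 : 1 ≤ (max (max Q 6) ((c + 1) ^ 2)) ^ 6 :=
    Nat.one_le_pow _ _ (lt_of_lt_of_le (by norm_num)
      (le_trans (le_max_right Q 6) (le_max_left _ _)))
  calc ρ ≤ 2 ^ ρ := Nat.lt_two_pow_self.le
    _ = 2 ^ ρ * 1 := (mul_one _).symm
    _ ≤ _ := Nat.mul_le_mul_left _ h1

theorem nil_of_nilR {X : Type} [Fintype X] (P : Pres X) (h : ∀ ρ, NilR P ρ) : P.NIL := by
  intro ι _ _ ρ
  let b := Matrix.stdBasis (Polynomial F2) ι ι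
  let eq := (Fintype.equivFin (ι × ι)).symm
  have hspan : Submodule.span (Polynomial F2) (Set.range (fun i => b (eq i))) = ⊤ := by
    have : Set.range (fun i => b (eq i)) = Set.range b := eq.surjective.range_comp b
    rw [this, b.span_eq]
  obtain ⟨N, hN⟩ := h (Fintype.card (ι × ι)) (Matrix ι ι (Polynomial F2)) _ hspan ρ
  refine ⟨N, fun lam hlam => ?_⟩
  have h1 := hN (fun w => algebraMap F2 (Polynomial F2) (lam w))
    (hlam.comp (algebraMap F2 (Polynomial F2)) (map_zero _))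
  simpa only [algebraMap_smul] using h1

theorem NilR.mono {X : Type} [Fintype X] {P : Pres X} {ρ ρ' : ℕ} (h : ρ ≤ ρ') (hN : NilR P ρ') :
    NilR P ρ := by
  intro B _ _ e he a
  refine hN B (fun i => if hi : (i : ℕ) < ρ then e ⟨i, hi⟩ else 0) ?_ a
  rw [eq_top_iff, ← he]
  refine Submodule.span_mono ?_
  rintro _ ⟨i, rfl⟩
  refine ⟨⟨i, lt_of_lt_of_le i.2 h⟩, ?_⟩
  simp

end Vale.Agent.P192Z
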