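import Vale.Agent.P192Z.Mach.Rest
import Vale.Agent.P192Z.Mach.Bits

/-!
# P192: the relations of the next level hold between encodings
-/

namespace Vale.Agent.P192Z.Mach

variable {q : ℕ} [hq : Fact (6 ≤ q)]

theorem sim_one {κ : Cfg} {y : Let (up q)} (h : Good q κ (encM q y))
    (h2 : κ.st.cls.two = false) : Eqv (sys q) (word κ (adr q)) ([y].flatMap enc) := by
  simpa [enc] using good_eqv_one h h2 (adr q)

theorem sim_two {κ : Cfg} {y y' : Let (up q)} (h : Good q κ (encT q y y'))
    (h2 : κ.st.cls.two = true) : Eqv (sys q) (word κ (adr q)) ([y, y'].flatMap enc) := by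
  have h1 := good_eqv_two h h2 (adr q)
  have e1 : restW (encT q y y') (adr q) = enc y :=
    restW_congr (fun i hi => by simp [encT, hi]) fun _ _ => rfl
  have e2 : restW (sh q (encT q y y')) (sh q (adr q)) = enc y' := by
    refine restW_congr (fun i _ => by simp [encT, sh]) fun i hi => ?_
    have h3 := off_spec q i
    have h4 := off_spec q (i + 2 * q)
    have h5 : off q (i + 2 * q) = off q i := by omega
    simp only [sh, adr, h5]
  rw [e1, e2] at h1
  simpa using h1

omit hq in
theorem encT_lo {y y' : Let (up q)} {i : ℕ} (h : i < 2 * q) : encT q y y' i = encM q y i := by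
  simp only [encT, h, if_true]

omit hq in
theorem encT_hi {y y' : Let (up q)} {i : ℕ} (h : 2 * q ≤ i) :
    encT q y y' i = encM q y' (i - 2 * q) := by
  simp only [encT, not_lt.2 h, if_false]

omit hq in
theorem encM_item {y y' : Let (up q)} {i : ℕ} (h : q + 3 ≤ i) (e : y.it = y'.it) :
    encM q y i = encM q y' i := by
  have h0 : i ≠ 0 := by omega
  have h1 : i ≠ 1 := by omega
  have h2 : i ≠ 2 := by omega
  have h3 : ¬ i < q := by omega
  have h4 : ¬ i < q + 3 := by omega
  simp only [encM, h0, h1, h2, h3, h4, if_false, e]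

omit hq in
theorem encM_low {c : Ctl} {m t : Sym} {a i i' : Fin (up q)} {j : ℕ} (h : j < q + 3) :
    encM q ⟨c, m, t, a, i⟩ j = encM q ⟨c, m, t, a, i'⟩ j := by
  simp only [encM, h, if_true]

theorem zn0 : znAt q 0 = .A := (znAt_A 0).2 (by have := six_le (q := q); omega)
theorem zn1 : znAt q 1 = .A := (znAt_A 1).2 (by have := six_le (q := q); omega)
theorem fl0 : flAt q 0 = .p0 := (flAt_p0 0).2 (by omega)
theorem fl1 : flAt q 1 = .p1 := (flAt_p1 1).2 (by omega)
theorem sd0 : side q 0 = false := (side_false 0).2 (by have := six_le (q := q); omega)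
theorem sd1 : side q 1 = false := (side_false 1).2 (by have := six_le (q := q); omega)
theorem znE : znAt q (2 * q - 1) = .I := (znAt_I _).2 (by have := six_le (q := q); omega)
theorem flE : flAt q (2 * q - 1) = .last := (flAt_last _).2 (by have := six_le (q := q); omega)
theorem sdE : side q (2 * q - 1) = false := (side_false _).2 (by have := six_le (q := q); omega)

/-- carry a symbol to the first cell -/
def cOC (s : Src) (y : Let (up q)) : Cfg :=
  ⟨.OC s, 0, encM q y (srcPos q s), fun _ => false, put (encM q y) (srcPos q s) blank⟩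

omit hq in
theorem good_OC (s : Src) (y : Let (up q)) : Good q (cOC s y) (encM q y) := by
  refine ⟨Nat.zero_le _, fun _ _ => rfl, by simp [cOC, put], fun i _ => ?_⟩
  simp only [cOC, put]
  split_ifs with h
  · rw [h]
  · rfl

theorem letter_OC (s : Src) (y : Let (up q)) : letter (cOC s y) (adr q) 0 =
    ⟨⟨.A, .p0, false, .H (.OC s) false⟩, .c y.c, encM q y (srcPos q s), adr q 0, adr q 0⟩ := by
  have h : (0 : ℕ) ≠ srcPos q s := by
    have := six_le (q := q)
    cases s <;> simp [srcPos]
    omega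
  simp [letter, cOC, ctlAt, dynAt, zn0, fl0, sd0, put, h, encM]

theorem kind_OC (s : Src) : kind ⟨.A, .p0, false, .H (.OC s) false⟩ = some s.kd := by
  cases s <;> rfl

theorem len_OC (s : Src) (y : Let (up q)) : 0 < len q (cOC s y) := by
  have := six_le (q := q)
  simp [len, cOC, St.cls, Cls.two]
  omega

theorem zero_OC (s : Src) (y : Let (up q)) (h : ZTab s.kd (.c y.c) (encM q y (srcPos q s))) :
    IsZero (sys q) ([y].flatMap enc) := by
  refine IsZero.of_eqv (sim_one (good_OC s y) rfl).symm (zero_one (len_OC s y) ?_).isZero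
  rw [letter_OC]
  exact Zer.tab _ s.kd (kind_OC s) h

/-- the point where a table is applied -/
def cO3 (k : Kd) (y : Let (up q)) : Cfg :=
  ⟨.O3b k, 1, y.t, fun _ => false, put (encM q y) 2 blank⟩

omit hq in
theorem good_O3 {k : Kd} {y : Let (up q)} (h : kind y.c = some k) :
    Good q (cO3 k y) (encM q y) := by
  refine ⟨by simp [cO3], fun _ _ => rfl, by simp [cO3, put], by simpa [cO3, put, encM, kindS] using h,
    fun i _ => ?_⟩
  simp only [cO3, put]
  split_ifs with h
  · simp [h, encM]
  · rfl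

theorem letter_O3 (k : Kd) (y : Let (up q)) : letter (cO3 k y) (adr q) 1 =
    ⟨⟨.A, .p1, false, .H (.O3b k) false⟩, y.m, y.t, adr q 1, adr q 1⟩ := by
  simp [letter, cO3, ctlAt, dynAt, zn1, fl1, sd1, put, encM]

theorem len_O3 (k : Kd) (y : Let (up q)) : 1 < len q (cO3 k y) := by
  have := six_le (q := q)
  simp [len, cO3, St.cls, Cls.two]
  omega

/-- the point where two control symbols meet -/
def cO4 (y y' : Let (up q)) : Cfg :=
  ⟨.O4a, 0, .c y'.c, fun _ => false, put (encT q y y') (2 * q) blank⟩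

omit hq in
theorem good_O4 (y y' : Let (up q)) : Good q (cO4 y y') (encT q y y') := by
  refine ⟨Nat.zero_le _, fun _ _ => rfl, by simp [cO4, put], fun i _ => ?_⟩
  simp only [cO4, put]
  split_ifs with h
  · simp [h, encT, encM]
  · rfl

theorem letter_O4 (y y' : Let (up q)) : letter (cO4 y y') (adr q) 0 =
    ⟨⟨.A, .p0, false, .H .O4a false⟩, .c y.c, .c y'.c, adr q 0, adr q 0⟩ := by
  have := six_le (q := q)
  have h : (0 : ℕ) ≠ 2 * q := by omega
  have h' : 0 < 2 * q := by omega
  simp only [letter, cO4, ctlAt, dynAt, zn0, fl0, sd0, put, h, h', encT, encM, if_true, if_false]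

theorem len_O4 (y y' : Let (up q)) : 0 < len q (cO4 y y') := by
  have := six_le (q := q)
  simp [len, cO4, St.cls, Cls.two]
  omega

/-- the end of a scan of the item zones -/
def cQ0 (s : Sc) (y y' : Let (up q)) : Cfg :=
  ⟨.Q0 s, 2 * q - 1, blank, fun i => decide (i = 2 * q - 1 ∨ i = 4 * q - 1), encT q y y'⟩

theorem letter_Q0 (s : Sc) (y y' : Let (up q)) : letter (cQ0 s y y') (adr q) (2 * q - 1) =
    ⟨⟨.I, .last, true, .H (.Q0 s) false⟩, encT q y y' (2 * q - 1), blank, adr q (2 * q - 1),
      adr q (2 * q - 1)⟩ := by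
  simp [letter, cQ0, ctlAt, dynAt, znE, flE, sdE]

theorem len_Q0 (s : Sc) (y y' : Let (up q)) : 2 * q - 1 < len q (cQ0 s y y') := by
  have := six_le (q := q)
  simp [len, cQ0, St.cls, Cls.two]
  omega

theorem sim_rw {c c' : Ctl} {m m' t : Sym} {a i : Fin (up q)} (h : RW c m c' m') :
    Eqv (sys q) ([(⟨c, m, t, a, i⟩ : Let (up q))].flatMap enc)
      ([(⟨c', m', t, a, i⟩ : Let (up q))].flatMap enc) := by
  refine (sim_one (good_OC .m _) rfl).symm.trans (Eqv.trans (Eqv.of_step ?_)
    (sim_one (good_OC .m _) rfl))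
  refine step_one rfl (len_OC _ _) (fun j _ hj => ?_) ?_
  · simp only [letter, cOC, ctlAt, dynAt, put, encM, srcPos, hj, if_false]
    split_ifs <;> rfl
  · rw [letter_OC, letter_OC]
    exact Rel.ap _ .rw _ _ _ _ _ _ rfl ⟨c, c', rfl, rfl, h⟩

theorem sim_ap {c : Ctl} {k : Kd} {m t m' t' : Sym} {a i : Fin (up q)} (hk : kind c = some k)
    (h : Tab k m t m' t') :
    Eqv (sys q) ([(⟨c, m, t, a, i⟩ : Let (up q))].flatMap enc)
      ([(⟨next c, m', t', a, i⟩ : Let (up q))].flatMap enc) := by
  let y : Let (up q) := ⟨c, m, t, a, i⟩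
  let κ' : Cfg := ⟨.O3c k, 1, t', fun _ => false, put (put (encM q y) 2 blank) 1 m'⟩
  have hg : Good q κ' (encM q ⟨next c, m', t', a, i⟩) := by
    refine ⟨by simp [κ'], fun _ _ => rfl, by simp [κ', put],
      by simpa [κ', y, put, encM, kindS] using hk, fun j _ => ?_⟩
    have e0 : κ'.mn 0 = .c c := by simp [κ', y, put, encM]
    rw [e0]
    simp only [κ', y, put, encM, nextS]
    split_ifs <;> first | rfl | omega
  refine (sim_one (good_O3 (y := y) hk) rfl).symm.trans (Eqv.trans (Eqv.of_step ?_) (sim_one hg rfl))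
  refine step_one rfl (len_O3 _ _) (fun j _ hj => ?_) ?_
  · simp only [letter, cO3, κ', ctlAt, dynAt, put, hj, if_false]
    rfl
  · have e : letter κ' (adr q) 1 =
        ⟨next ⟨.A, .p1, false, .H (.O3b k) false⟩, m', t', adr q 1, adr q 1⟩ := by
      simp only [letter, κ', ctlAt, dynAt, zn1, fl1, sd1, put, if_true]
      rfl
    rw [letter_O3, e]
    exact Rel.ap _ k _ _ _ _ _ _ rfl h

theorem sim_mv {c c' d d' : Ctl} {m t m' t' : Sym} {a i a' i' : Fin (up q)} (h : Mv c c' d d') :
    Eqv (sys q) ([(⟨c, m, t, a, i⟩ : Let (up q)), ⟨c', m', t', a', i'⟩].flatMap enc)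
      ([(⟨d, m, t', a, i⟩ : Let (up q)), ⟨d', m', t, a', i'⟩].flatMap enc) := by
  have h6 := six_le (q := q)
  let y : Let (up q) := ⟨c, m, t, a, i⟩
  let y' : Let (up q) := ⟨c', m', t', a', i'⟩
  let κ' : Cfg := ⟨.O4b, 0, .c d', fun _ => false, put (put (encT q y y') (2 * q) blank) 0 (.c d)⟩
  have e2 : κ'.mn 2 = t := by
    have h1 : (2 : ℕ) ≠ 2 * q := by omega
    have h2 : 2 < 2 * q := by omega
    simp [κ', put, encT, encM, h1, h2, y]
  have e3 : κ'.mn (2 * q + 2) = t' := by simp [κ', put, encT, encM, y']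
  have hg : Good q κ' (encT q ⟨d, m, t', a, i⟩ ⟨d', m', t, a', i'⟩) := by
    refine ⟨Nat.zero_le _, fun _ _ => rfl, ?_, fun j _ => ?_⟩
    · have h1 : 2 * q ≠ 0 := by omega
      simp only [κ', put, h1, if_true, if_false]
    · rw [e2, e3]
      simp only [κ', y, y', put, encT, encM]
      split_ifs <;> first | rfl | omega
  refine (sim_two (good_O4 y y') rfl).symm.trans (Eqv.trans (Eqv.of_step ?_) (sim_two hg rfl))
  refine step_one rfl (len_O4 _ _) (fun j _ hj => ?_) ?_
  · simp only [letter, cO4, κ', ctlAt, dynAt, put, hj, if_false]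
    rfl
  · have e : letter κ' (adr q) 0 =
        ⟨next ⟨.A, .p0, false, .H .O4a false⟩, .c d, .c d', adr q 0, adr q 0⟩ := by
      simp only [letter, κ', ctlAt, dynAt, zn0, fl0, sd0, put, if_true]
      rfl
    rw [letter_O4, e]
    exact Rel.ap _ .mv _ _ _ _ _ _ rfl ⟨c, c', d, d', rfl, rfl, rfl, rfl, h⟩

theorem sim_sw {c c' : Ctl} {m t m' t' : Sym} {a i a' i' : Fin (up q)} (h : perm c) :
    Eqv (sys q) ([(⟨c, m, t, a, i⟩ : Let (up q)), ⟨c', m', t', a', i'⟩].flatMap enc)
      ([(⟨c, m, t, a, i'⟩ : Let (up q)), ⟨c', m', t', a', i⟩].flatMap enc) := by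
  have h6 := six_le (q := q)
  let z : Let (up q) := ⟨c, m, t, a, i'⟩
  let z' : Let (up q) := ⟨c', m', t', a', i⟩
  have h0 : encT q z z' 0 = .c c := by
    have h1 : 0 < 2 * q := by omega
    simp only [encT, encM, h1, if_true, z]
  have hg : Good q (cQ0 .swap z z') (encT q ⟨c, m, t, a, i⟩ ⟨c', m', t', a', i'⟩) := by
    refine ⟨q - 3, by omega, by simp only [cQ0, zo]; omega, fun j _ => ?_, rfl, ?_,
      fun h => absurd h (by decide), fun j hj => ?_⟩
    · simp only [cQ0, zo, decide_eq_true_eq]
      omega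
    · show permOK .swap (encT q z z' 0)
      rw [h0]
      exact Or.inr h
    · simp only [cQ0, undo, true_and]
      split_ifs with h1 h2
      · rw [encT_lo (by omega), encT_hi (by omega), Nat.add_sub_cancel]
        exact encM_item h1.1 rfl
      · rw [encT_hi (by omega), encT_lo (by omega)]
        exact encM_item (by omega) rfl
      · by_cases h3 : j < 2 * q
        · rw [encT_lo h3, encT_lo h3]
          exact encM_low (by omega)
        · rw [encT_hi (by omega), encT_hi (by omega)]
          exact encM_low (by omega)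
  let κ' : Cfg := ⟨.Q5, 2 * q - 1, blank, fun i => decide (i = 4 * q - 1), encT q z z'⟩
  have hg' : Good q κ' (encT q z z') := by
    refine ⟨by simp only [κ']; omega, fun j _ => by simp [κ'], rfl, ?_, fun _ _ => rfl⟩
    show permOK .swap (encT q z z' 0)
    rw [h0]
    exact Or.inr h
  refine (sim_two hg rfl).symm.trans (Eqv.trans (Eqv.of_step ?_) (sim_two hg' rfl))
  refine step_one rfl (len_Q0 _ _ _) (fun j _ hj => ?_) ?_
  · simp only [letter, cQ0, κ', ctlAt, dynAt, hj, if_false, false_or]
    rfl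
  · have e : letter κ' (adr q) (2 * q - 1) =
        ⟨⟨.I, .last, false, .H .Q5 false⟩, encT q z z' (2 * q - 1), blank, adr q (2 * q - 1),
          adr q (2 * q - 1)⟩ := by
      have h1 : 2 * q - 1 ≠ 4 * q - 1 := by omega
      simp [letter, κ', ctlAt, dynAt, znE, flE, sdE, h1]
    rw [letter_Q0, e]
    exact Rel.rw _ _ _ _ _ _ _ (RW.commit _)

theorem sim_rel {u v : List (Let (up q))} (h : Rel u v) :
    Eqv (sys q) (u.flatMap enc) (v.flatMap enc) := by
  cases h with
  | rw c m c' m' t a i h => exact sim_rw h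
  | ap c k m t m' t' a i hk h => exact sim_ap hk h
  | mv c c' d d' m t a i m' t' a' i' h => exact sim_mv h
  | sw c m t a i c' m' t' a' i' h => exact sim_sw h

theorem zer_adr {x y : Let (up q)} (h : y.a.val ≠ (x.a.val + 1) % up q) :
    IsZero (sys q) ([x, y].flatMap enc) := by
  have h6 := six_le (q := q)
  obtain ⟨l, hl, hb⟩ := exists_bit_ne (b := q - 3) y.a.2 (Nat.mod_lt _ (Nat.two_pow_pos _)) h
  have hb' : y.a.val.testBit l ≠ (x.a.val.testBit l ^^ carry x.a.val l) := by
    rw [← succ_mod_testBit _ hl]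
    exact hb
  let κ : Cfg := ⟨.Q3 .addr, 2 * q + 3 + l, encT q x y (3 + l),
    fun i => decide (i = 3 + l ∨ i = 2 * q + 3 + l), put (encT q x y) (3 + l) blank⟩
  have hg : Good q κ (encT q x y) := by
    refine ⟨l, by omega, by simp only [κ, zo], fun j _ => ?_, by simp [κ, zo, put], Or.inl rfl,
      fun h => absurd h (by decide), fun j _ => ?_⟩
    · simp only [κ, zo, decide_eq_true_eq]
    · simp only [κ, zo, undo, put, zero_add, reduceCtorEq, false_and, if_false]
      split_ifs with h1
      · rw [h1]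
      · rfl
  have hlen : 2 * q + 3 + l < len q κ := by
    simp only [len, κ, St.cls, Cls.two, if_true]
    omega
  refine IsZero.of_eqv (sim_two hg rfl).symm (zero_one hlen ?_).isZero
  have z1 : znAt q (2 * q + 3 + l) = .A := (znAt_A _).2 (by omega)
  have z2 : side q (2 * q + 3 + l) = true := (side_true _).2 (by omega)
  have z3 : (flAt q (2 * q + 3 + l)).data = true := (flAt_data _).2 (by omega)
  have e : letter κ (adr q) (2 * q + 3 + l) =
      ⟨⟨.A, flAt q (2 * q + 3 + l), true, .H (.Q3 .addr) true⟩,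
        .d (y.a.val.testBit l) (carry y.a.val l), .d (x.a.val.testBit l) (carry x.a.val l),
        adr q (2 * q + 3 + l), adr q (2 * q + 3 + l)⟩ := by
    have e1 : put (encT q x y) (3 + l) blank (2 * q + 3 + l) =
        .d (y.a.val.testBit l) (carry y.a.val l) := by
      have e0 : 2 * q + 3 + l - 2 * q - 3 = l := by omega
      simp only [put, encT, encM, e0]
      split_ifs <;> first | rfl | omega
    have e2 : encT q x y (3 + l) = .d (x.a.val.testBit l) (carry x.a.val l) := by
      have e0 : 3 + l - 3 = l := by omega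
      simp only [encT, encM, e0]
      split_ifs <;> first | rfl | omega
    simp only [letter, κ, ctlAt, dynAt, z1, z2, e1, e2, if_true, or_true, decide_true]
  rw [e]
  refine Zer.tab _ .addr ?_ ⟨_, _, _, _, rfl, rfl, hb'⟩
  simp [kind, act, act0, St.cls, Cls.two, z3, Sc.zn, tkind]

theorem zer_item {x y : Let (up q)} (h : perm x.c) (e : x.it = y.it) :
    IsZero (sys q) ([x, y].flatMap enc) := by
  have h6 := six_le (q := q)
  have h0 : encT q x y 0 = .c x.c := by
    have h1 : 0 < 2 * q := by omega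
    simp only [encT, encM, h1, if_true]
  have hg : Good q (cQ0 .eq x y) (encT q x y) := by
    refine ⟨q - 3, by omega, by simp only [cQ0, zo]; omega, fun j _ => ?_, rfl, ?_,
      fun _ j h1 h2 => ?_, fun j hj => ?_⟩
    · simp only [cQ0, zo, decide_eq_true_eq]
      omega
    · show permOK .eq (encT q x y 0)
      rw [h0]
      exact Or.inr h
    · simp only [cQ0]
      rw [encT_lo (by omega), encT_hi (by omega), Nat.add_sub_cancel]
      exact encM_item h1 e
    · simp [cQ0, undo]
  refine IsZero.of_eqv (sim_two hg rfl).symm (zero_one (len_Q0 _ _ _) ?_).isZero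
  rw [letter_Q0]
  exact Zer.rw _ (ZRW.eq _)

theorem sim_zer {z : List (Let (up q))} (h : Zer z) : IsZero (sys q) (z.flatMap enc) := by
  have h6 := six_le (q := q)
  cases h with
  | rw x h => exact zero_OC .m x ⟨x.c, rfl, h⟩
  | t x h => exact zero_OC .t x ⟨x.c, rfl, h⟩
  | tab x k hk h =>
    refine IsZero.of_eqv (sim_one (good_O3 hk) rfl).symm (zero_one (len_O3 k x) ?_).isZero
    rw [letter_O3]
    exact Zer.tab _ k rfl h
  | last x h =>
    refine zero_OC .out x ⟨x.c, x.a.val.testBit (q - 4), carry x.a.val (q - 4), rfl, ?_, ?_⟩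
    · have e0 : q - 1 - 3 = q - 4 := by omega
      simp only [srcPos, encM, e0]
      split_ifs <;> first | rfl | omega
    · rw [← carry_succ, show q - 4 + 1 = q - 3 by omega, carry_top x.a.2]
      exact h
  | pair x y h =>
    refine IsZero.of_eqv (sim_two (good_O4 x y) rfl).symm (zero_one (len_O4 x y) ?_).isZero
    rw [letter_O4]
    exact Zer.tab _ .mv rfl ⟨x.c, y.c, rfl, rfl, h⟩
  | adr x y h => exact zer_adr h
  | item x y h e => exact zer_item h e

end Vale.Agent.P192Z.Mach
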