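import Vale.Agent.P192Z.Mach.Defs

/-!
# P192: words without forbidden factors split into pieces
-/

namespace Vale.Agent.P192Z.Mach

variable {q : ℕ} [hq : Fact (6 ≤ q)]

/-- local consequences of the absence of monomial relations, for the first `n` letters -/
structure StLoc (f : ℕ → Let q) (n : ℕ) : Prop where
  pair : ∀ i, i + 1 < n → okPair (f i).c (f (i + 1)).c
  adr : ∀ i, i + 1 < n → (f (i + 1)).a.val = ((f i).a.val + 1) % q
  last : ∀ i < n, ((f i).c.fl = .last ↔ (f i).a.val + 1 = q)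
  zt : ∀ i < n, ¬ ZT (f i).c (f i).t
  dead : ∀ i < n, ∀ s sd, (f i).c.dyn = .H s sd →
    act (f i).c.zn (f i).c.fl (f i).c.ptr s sd ≠ .dead

omit hq in
theorem not_zer_one {w : List (Let q)} (hz : ¬ HasZero (sys q) w) {i : ℕ} (hi : i < w.length) :
    ¬ Zer [w[i]] := fun h =>
  hz ⟨w.take i, [w[i]], w.drop (i + 1), h, by simp⟩

omit hq in
theorem not_zer_two {w : List (Let q)} (hz : ¬ HasZero (sys q) w) {i : ℕ}
    (hi : i + 1 < w.length) : ¬ Zer [w[i], w[i + 1]] := fun h =>
  hz ⟨w.take i, [w[i], w[i + 1]], w.drop (i + 2), h, by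
    rw [List.append_assoc]
    conv_lhs => rw [← List.take_append_drop i w]
    congr 1
    rw [List.drop_eq_getElem_cons (by omega : i < w.length),
      List.drop_eq_getElem_cons hi]
    rfl⟩

omit hq in
theorem stLoc_of {w : List (Let q)} (hz : ¬ HasZero (sys q) w) (x0 : Let q) :
    StLoc (fun i => w.getD i x0) w.length := by
  have e : ∀ i (hi : i < w.length), w.getD i x0 = w[i] := fun i hi => by
    simp [List.getD, hi]
  refine ⟨fun i hi => ?_, fun i hi => ?_, fun i hi => ?_, fun i hi => ?_, fun i hi s sd hd ha => ?_⟩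
  · rw [e i (by omega), e (i + 1) hi]
    by_contra h
    exact not_zer_two hz hi (Zer.pair _ _ h)
  · rw [e i (by omega), e (i + 1) hi]
    by_contra h
    exact not_zer_two hz hi (Zer.adr _ _ h)
  · rw [e i hi]
    by_contra h
    exact not_zer_one hz hi (Zer.last _ h)
  · rw [e i hi]
    intro h
    exact not_zer_one hz hi (Zer.t _ h)
  · simp only [e i hi] at hd ha
    refine not_zer_one hz hi (Zer.rw _ ?_)
    have : w[i].c = ⟨w[i].c.zn, w[i].c.fl, w[i].c.ptr, .H s sd⟩ := by rw [← hd]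
    rw [this]
    exact ZRW.dead _ _ _ _ _ _ ha

/-- one zone -/
theorem StLoc.zone {f : ℕ → Let q} {n : ℕ} (h : StLoc f n) {j : ℕ} (h0 : (f j).c.fl = .p0)
    (ha : (f j).a.val = 0) : ∀ i < q, j + i < n →
      (f (j + i)).c.zn = (f j).c.zn ∧ (f (j + i)).c.fl = flAt q i ∧ (f (j + i)).a.val = i := by
  have h6 := six_le (q := q)
  intro i
  induction i with
  | zero => intro _ _; exact ⟨rfl, h0.trans ((flAt_p0 0).2 (by omega)).symm, ha⟩
  | succ i ih =>
    intro hi hn
    obtain ⟨e1, e2, e3⟩ := ih (by omega) (by omega)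
    have ha' : (f (j + (i + 1))).a.val = i + 1 := by
      have := h.adr (j + i) (by omega)
      rw [e3, Nat.mod_eq_of_lt hi] at this
      exact this
    have hs := (h.pair (j + i) (by omega)).1
    have hl := h.last (j + (i + 1)) hn
    rw [ha'] at hl
    have e : j + i + 1 = j + (i + 1) := by omega
    rw [e2, e1, e] at hs
    by_cases c0 : i = 0
    · rw [(flAt_p0 i).2 (by omega)] at hs
      exact ⟨hs.1, hs.2.trans ((flAt_p1 _).2 (by omega)).symm, ha'⟩
    by_cases c1 : i = 1
    · rw [(flAt_p1 i).2 (by omega)] at hs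
      exact ⟨hs.1, hs.2.trans ((flAt_p2 _).2 (by omega)).symm, ha'⟩
    by_cases c2 : i = 2
    · rw [(flAt_p2 i).2 (by omega)] at hs
      exact ⟨hs.1, hs.2.trans ((flAt_p3 _).2 (by omega)).symm, ha'⟩
    have hs' : (f (j + (i + 1))).c.zn = (f j).c.zn ∧
        ((f (j + (i + 1))).c.fl = .mid ∨ (f (j + (i + 1))).c.fl = .last) := by
      by_cases c3 : i = 3
      · rw [(flAt_p3 i).2 (by omega)] at hs
        exact hs
      · rw [(flAt_mid i).2 (by have := off_spec q i; omega)] at hs
        exact hs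
    refine ⟨hs'.1, ?_, ha'⟩
    rcases hs'.2 with h1 | h1
    · have h2 : ¬ (i + 1 + 1 = q) := fun h2 => by
        rw [hl.2 h2] at h1; cases h1
      rw [h1, (flAt_mid _).2 (by have := off_spec q (i + 1); omega)]
    · have h2 := hl.1 h1
      rw [h1, (flAt_last _).2 (by omega)]

/-- the cell after a zone -/
theorem StLoc.zone_next {f : ℕ → Let q} {n : ℕ} (h : StLoc f n) {j : ℕ} (h0 : (f j).c.fl = .p0)
    (ha : (f j).a.val = 0) (hn : j + q < n) :
    (f (j + q)).c.zn ≠ (f j).c.zn ∧ (f (j + q)).c.fl = .p0 ∧ (f (j + q)).a.val = 0 := by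
  have h6 := six_le (q := q)
  obtain ⟨e1, e2, e3⟩ := h.zone h0 ha (q - 1) (by omega) (by omega)
  have e : j + (q - 1) + 1 = j + q := by omega
  have hs := (h.pair (j + (q - 1)) (by omega)).1
  have had := h.adr (j + (q - 1)) (by omega)
  have hl : flAt q (q - 1) = .last := (flAt_last _).2 (by omega)
  rw [e, e2, hl, e1] at hs
  rw [e, e3, show q - 1 + 1 = q by omega, Nat.mod_self] at had
  exact ⟨hs.1, hs.2, had⟩

omit hq in
theorem zn_ne_A {z : Zn} (h : z ≠ .A) : z = .I := by cases z <;> simp_all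

omit hq in
theorem zn_ne_I {z : Zn} (h : z ≠ .I) : z = .A := by cases z <;> simp_all

/-- static start of a block -/
def Blk (x : Let q) : Prop := x.c.zn = .A ∧ x.c.fl = .p0 ∧ x.a.val = 0

theorem StLoc.blk_next {f : ℕ → Let q} {n : ℕ} (h : StLoc f n) {j : ℕ} (hb : Blk (f j))
    (hn : j + 2 * q < n) : Blk (f (j + 2 * q)) := by
  obtain ⟨e1, e2, e3⟩ := h.zone_next hb.2.1 hb.2.2 (by omega)
  obtain ⟨e4, e5, e6⟩ := h.zone_next e2 e3 (by omega)
  rw [show j + q + q = j + 2 * q by omega] at e4 e5 e6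
  rw [hb.1] at e1
  rw [zn_ne_A e1] at e4
  exact ⟨zn_ne_I e4, e5, e6⟩

theorem StLoc.blk {f : ℕ → Let q} {n : ℕ} (h : StLoc f n) {j : ℕ} (hb : Blk (f j)) {i : ℕ}
    (hi : i < 2 * q) (hn : j + i < n) :
    (f (j + i)).c.zn = znAt q i ∧ (f (j + i)).c.fl = flAt q i ∧ (f (j + i)).a.val = off q i := by
  by_cases h1 : i < q
  · obtain ⟨e1, e2, e3⟩ := h.zone hb.2.1 hb.2.2 i h1 hn
    refine ⟨?_, e2, by simp [off, h1, e3]⟩
    rw [e1, hb.1, eq_comm, znAt_A]; omega
  · obtain ⟨e1, e2, e3⟩ := h.zone_next hb.2.1 hb.2.2 (by omega)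
    obtain ⟨e4, e5, e6⟩ := h.zone e2 e3 (i - q) (by omega) (by omega)
    rw [show j + q + (i - q) = j + i by omega] at e4 e5 e6
    rw [hb.1] at e1
    have ho : off q i = i - q := by simp [off, h1, hi]
    have ho' : off q (i - q) = i - q := by simp [off, show i - q < q by omega]
    refine ⟨?_, ?_, by rw [e6, ho]⟩
    · rw [e4, zn_ne_A e1, eq_comm, znAt_I]; omega
    · rw [e5]; unfold flAt; rw [ho, ho']

/-- static parts of two blocks -/
theorem StLoc.blk2 {f : ℕ → Let q} {n : ℕ} (h : StLoc f n) (hb : Blk (f 0)) (hn : 4 * q < n)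
    {i : ℕ} (hi : i < 4 * q) :
    (f i).c.zn = znAt q i ∧ (f i).c.fl = flAt q i ∧ (f i).a.val = off q i := by
  by_cases h1 : i < 2 * q
  · simpa using h.blk hb h1 (by omega)
  · have hb2 := h.blk_next hb (by omega)
    obtain ⟨e1, e2, e3⟩ := h.blk hb2 (show i - 2 * q < 2 * q by omega) (by omega)
    rw [show 0 + 2 * q + (i - 2 * q) = i by omega] at e1 e2 e3
    have ho : off q (i - 2 * q) = off q i := by
      have := off_spec q i; have := off_spec q (i - 2 * q); omega
    refine ⟨?_, ?_, by rw [e3, ho]⟩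
    · rw [e1]; unfold znAt; split_ifs <;> first | rfl | omega
    · rw [e2]; unfold flAt; rw [ho]

/-- the cell is the last one of a block -/
def IL (c : Ctl) : Prop := c.zn = .I ∧ c.fl = .last

omit hq in
theorem okPair.inner {c c' : Ctl} (h : okPair c c') (hn : ¬ IL c) :
    (∃ r, c.dyn = .L r ∧ c'.dyn = .L r) ∨ (∃ r, c.dyn = .R r ∧ c'.dyn = .R r) ∨
      (∃ s sd, c.dyn = .L (roleL s.cls sd) ∧ c'.dyn = .H s sd) ∨
      (∃ s sd, c.dyn = .H s sd ∧ c'.dyn = .R (roleR s.cls sd)) := by
  rcases h.2.1 with h1 | h1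
  · generalize c.dyn = d at h1 ⊢
    generalize c'.dyn = d' at h1 ⊢
    cases h1 with
    | LL r _ => exact Or.inl ⟨r, rfl, rfl⟩
    | RR r _ => exact Or.inr (Or.inl ⟨r, rfl, rfl⟩)
    | LH s sd _ => exact Or.inr (Or.inr (Or.inl ⟨s, sd, rfl, rfl⟩))
    | HR s sd _ => exact Or.inr (Or.inr (Or.inr ⟨s, sd, rfl, rfl⟩))
    | LLk a b => exact absurd ⟨a, b⟩ hn
    | RRk a b => exact absurd ⟨a, b⟩ hn
    | LHk s a b _ => exact absurd ⟨a, b⟩ hn
    | HRk s a b _ => exact absurd ⟨a, b⟩ hn
  · exact absurd ⟨h1.1, h1.2.1⟩ hn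

omit hq in
theorem okPair.outer {c c' : Ctl} (h : okPair c c') (hn : IL c) :
    (c.dyn = .L .F ∧ c'.dyn = .L .T) ∨ (c.dyn = .R .F ∧ c'.dyn = .R .T) ∨
      (∃ s, s.cls.two = true ∧ c.dyn = .L .F ∧ c'.dyn = .H s true) ∨
      (∃ s, s.cls = .main ∧ c.dyn = .H s false ∧ c'.dyn = .R .T) ∨
      (endD c.dyn ∧ begD c'.dyn) := by
  rcases h.2.1 with h1 | h1
  · generalize c.dyn = d at h1 ⊢
    generalize c'.dyn = d' at h1 ⊢
    cases h1 with
    | LL r a => exact absurd hn a
    | RR r a => exact absurd hn a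
    | LH s sd a => exact absurd hn a
    | HR s sd a => exact absurd hn a
    | LLk a b => exact Or.inl ⟨rfl, rfl⟩
    | RRk a b => exact Or.inr (Or.inl ⟨rfl, rfl⟩)
    | LHk s a b e => exact Or.inr (Or.inr (Or.inl ⟨s, e, rfl, rfl⟩))
    | HRk s a b e => exact Or.inr (Or.inr (Or.inr (Or.inl ⟨s, e, rfl, rfl⟩)))
  · exact Or.inr (Or.inr (Or.inr (Or.inr h1.2.2)))

/-- symbols that occur in the second block of a piece -/
def TSide (d : Dyn) : Prop := d = .L .T ∨ d = .R .T ∨ d = .R .S ∨ ∃ s, d = .H s true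

omit hq in
theorem roleL_T {c : Cls} {sd : Bool} (h : roleL c sd = .T) : sd = true ∧ c.two = true := by
  cases c <;> cases sd <;> simp_all [roleL, Cls.two]

omit hq in
theorem TSide.step {c c' : Ctl} (h : okPair c c') (hn : ¬ IL c) (ht : TSide c.dyn) :
    TSide c'.dyn := by
  rcases h.inner hn with ⟨r, e1, e2⟩ | ⟨r, e1, e2⟩ | ⟨s, sd, e1, e2⟩ | ⟨s, sd, e1, e2⟩
  · rw [e2, ← e1]; exact ht
  · rw [e2, ← e1]; exact ht
  · rw [e1] at ht
    rcases ht with h1 | h1 | h1 | ⟨s', h1⟩
    · have := (roleL_T (Dyn.L.inj h1)).1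
      subst this
      exact Or.inr (Or.inr (Or.inr ⟨s, e2⟩))
    · cases h1
    · cases h1
    · cases h1
  · rw [e1] at ht
    rcases ht with h1 | h1 | h1 | ⟨s', h1⟩
    · cases h1
    · cases h1
    · cases h1
    · obtain ⟨rfl, rfl⟩ := Dyn.H.inj h1
      rw [e2]
      generalize s.cls = cl
      cases cl
      · exact Or.inr (Or.inr (Or.inl rfl))
      · exact Or.inr (Or.inr (Or.inl rfl))
      · exact Or.inr (Or.inr (Or.inl rfl))
      · exact Or.inr (Or.inl rfl)

omit hq in
theorem TSide.out {c c' : Ctl} (h : okPair c c') (hn : IL c) (ht : TSide c.dyn) :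
    begD c'.dyn := by
  rcases h.outer hn with ⟨e1, _⟩ | ⟨e1, _⟩ | ⟨s, _, e1, _⟩ | ⟨s, _, e1, _⟩ | h1
  · rw [e1] at ht; rcases ht with h1 | h1 | h1 | ⟨s', h1⟩ <;> cases h1
  · rw [e1] at ht; rcases ht with h1 | h1 | h1 | ⟨s', h1⟩ <;> cases h1
  · rw [e1] at ht; rcases ht with h1 | h1 | h1 | ⟨s', h1⟩ <;> cases h1
  · rw [e1] at ht; rcases ht with h1 | h1 | h1 | ⟨s', h1⟩ <;> cases h1
  · exact h1.2

theorem il_at {c : Ctl} {i : ℕ} (h1 : c.zn = znAt q i) (h2 : c.fl = flAt q i) :
    IL c ↔ (i + 1 = 2 * q ∨ i + 1 = 4 * q) := by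
  have h6 := six_le (q := q)
  unfold IL
  rw [h1, h2, znAt_I, flAt_last]
  omega

theorem StLoc.exists_blk {f : ℕ → Let q} {n : ℕ} (h : StLoc f n) (hn : 4 * q < n) :
    ∃ i, i + 1 ≤ 2 * q ∧ IL (f i).c ∧ Blk (f (i + 1)) := by
  have h6 := six_le (q := q)
  have ha : ∀ i, (f 0).a.val + i < q → (f i).a.val = (f 0).a.val + i := by
    intro i
    induction i with
    | zero => intro _; rfl
    | succ i ih =>
      intro hi
      rw [h.adr i (by omega), ih (by omega), Nat.mod_eq_of_lt (by omega)]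
      omega
  have h0 := (f 0).a.isLt
  set i0 := q - 1 - (f 0).a.val with hi0
  have e0 : (f i0).a.val = q - 1 := by rw [ha i0 (by omega)]; omega
  have hl : (f i0).c.fl = .last := (h.last i0 (by omega)).2 (by omega)
  have hs := (h.pair i0 (by omega)).1
  rw [hl] at hs
  have had := h.adr i0 (by omega)
  rw [e0, show q - 1 + 1 = q by omega, Nat.mod_self] at had
  by_cases hz : (f i0).c.zn = .I
  · refine ⟨i0, by omega, ⟨hz, hl⟩, ?_, hs.2, had⟩
    have := hs.1
    rw [hz] at this
    exact zn_ne_I this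
  · have h1 : (f (i0 + 1)).c.zn = .I := by
      have := hs.1
      rw [zn_ne_I hz] at this
      exact zn_ne_A this
    obtain ⟨e1, e2, e3⟩ := h.zone hs.2 had (q - 1) (by omega) (by omega)
    obtain ⟨e4, e5, e6⟩ := h.zone_next hs.2 had (by omega)
    refine ⟨i0 + 1 + (q - 1), by omega, ⟨e1.trans h1, e2.trans ((flAt_last _).2 (by omega))⟩, ?_⟩
    rw [show i0 + 1 + (q - 1) + 1 = i0 + 1 + q by omega]
    rw [h1] at e4
    exact ⟨zn_ne_I e4, e5, e6⟩

theorem StLoc.exists_start {f : ℕ → Let q} {n : ℕ} (h : StLoc f n) (hn : 4 * q < n) :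
    ∃ i ≤ 4 * q, Start (f i) := by
  have h6 := six_le (q := q)
  obtain ⟨i, hi, hil, hb⟩ := h.exists_blk hn
  by_cases hbeg : begD (f (i + 1)).c.dyn
  · exact ⟨i + 1, by omega, hb.1, hb.2.1, hb.2.2, hbeg⟩
  have ht0 : TSide (f (i + 1)).c.dyn := by
    rcases (h.pair i (by omega)).outer hil with ⟨_, e⟩ | ⟨_, e⟩ | ⟨s, _, _, e⟩ | ⟨s, _, _, e⟩ | h1
    · exact Or.inl e
    · exact Or.inr (Or.inl e)
    · exact Or.inr (Or.inr (Or.inr ⟨s, e⟩))
    · exact Or.inr (Or.inl e)
    · exact absurd h1.2 hbeg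
  have ht : ∀ k < 2 * q, TSide (f (i + 1 + k)).c.dyn := by
    intro k
    induction k with
    | zero => intro _; exact ht0
    | succ k ih =>
      intro hk
      obtain ⟨e1, e2, _⟩ := h.blk hb (show k < 2 * q by omega) (by omega)
      refine TSide.step (h.pair (i + 1 + k) (by omega)) ?_ (ih (by omega))
      rw [il_at e1 e2]; omega
  obtain ⟨e1, e2, _⟩ := h.blk hb (show 2 * q - 1 < 2 * q by omega) (by omega)
  have hb2 := h.blk_next hb (by omega)
  have hbg := TSide.out (h.pair (i + 1 + (2 * q - 1)) (by omega))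
    ((il_at e1 e2).2 (by omega)) (ht _ (by omega))
  rw [show i + 1 + (2 * q - 1) + 1 = i + 1 + 2 * q by omega] at hbg
  exact ⟨i + 1 + 2 * q, by omega, hb2.1, hb2.2.1, hb2.2.2, hbg⟩

theorem exists_start {w : List (Let q)} (hz : ¬ HasZero (sys q) w) (hl : 4 * q + 1 ≤ w.length) :
    ∃ i < 4 * q + 1, StAt Start w i := by
  obtain ⟨i, hi, hs⟩ := (stLoc_of hz w[0]).exists_start (by omega)
  refine ⟨i, by omega, _, ?_, hs⟩
  have : i < w.length := by omega
  simp [List.getD, this]

omit hq in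
theorem act_dead_solo {zn fl π s} (h : s.cls.two = false) : act zn fl π s true = .dead := by
  simp [act, h]

omit hq in
theorem act_dead_LK2 {zn fl π} : act zn fl π .LK2 false = .dead := by
  simp [act]

omit hq in
theorem cls_main_of {s : St} (h : s.cls.two = true) (h2 : s ≠ .LK2) : s.cls = .main := by
  cases s <;> simp_all [St.cls, Cls.two]

omit hq in
theorem roleL_two {c : Cls} (h : c.two = true) : roleL c false = .F ∧ roleL c true = .T := by
  cases c <;> simp_all [roleL, Cls.two]

/-- the cells left of the first cell that is not a left mark -/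
theorem StLoc.left_part {f : ℕ → Let q} {n : ℕ} (h : StLoc f n) (hs : Start (f 0))
    (hn : 4 * q < n) : ∀ i < 4 * q, (∀ k ≤ i, ∃ r, (f k).c.dyn = .L r) →
      (i < 2 * q → (f i).c.dyn = (f 0).c.dyn) ∧
        (2 * q ≤ i → (f i).c.dyn = .L .T ∧ (f 0).c.dyn = .L .F) := by
  have h6 := six_le (q := q)
  have hb : Blk (f 0) := ⟨hs.1, hs.2.1, hs.2.2.1⟩
  intro i
  induction i with
  | zero => intro _ _; exact ⟨fun _ => rfl, fun h => by omega⟩
  | succ i ih =>
    intro hi hL
    obtain ⟨ih1, ih2⟩ := ih (by omega) (fun k hk => hL k (by omega))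
    obtain ⟨e1, e2, _⟩ := h.blk2 hb hn (show i < 4 * q by omega)
    obtain ⟨r, hr⟩ := hL i (by omega)
    obtain ⟨r', hr'⟩ := hL (i + 1) le_rfl
    by_cases hil : IL (f i).c
    · have hi2 : i + 1 = 2 * q := by have := (il_at e1 e2).1 hil; omega
      refine ⟨fun h => by omega, fun _ => ?_⟩
      rcases (h.pair i (by omega)).outer hil with ⟨a, b⟩ | ⟨a, _⟩ | ⟨s, _, _, b⟩ | ⟨s, _, a, _⟩ | h1
      · exact ⟨b, by rw [← ih1 (by omega)]; exact a⟩
      · rw [hr] at a; cases a
      · rw [hr'] at b; cases b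
      · rw [hr] at a; cases a
      · rw [hr] at h1; exact h1.1.elim
    · have hi2 : i + 1 ≠ 2 * q := by have := (il_at e1 e2).not.1 hil; omega
      have e : (f (i + 1)).c.dyn = (f i).c.dyn := by
        rcases (h.pair i (by omega)).inner hil with ⟨r, a, b⟩ | ⟨r, a, b⟩ | ⟨s, sd, a, b⟩ |
          ⟨s, sd, a, b⟩
        · rw [a, b]
        · rw [a, b]
        · rw [hr'] at b; cases b
        · rw [hr] at a; cases a
      rw [e]
      exact ⟨fun h => ih1 (by omega), fun h => ih2 (by omega)⟩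

/-- the head and the cells left of it -/
theorem StLoc.exists_head {f : ℕ → Let q} {n : ℕ} (h : StLoc f n) (hs : Start (f 0))
    (hn : 4 * q < n) : ∃ s pos, pos < (if s.cls.two then 4 * q else 2 * q) ∧
      (s = .LK2 → 2 * q ≤ pos) ∧ (f pos).c.dyn = .H s (side q pos) ∧
      ∀ i < pos, (f i).c.dyn = .L (roleL s.cls (side q i)) := by
  classical
  have h6 := six_le (q := q)
  have hb : Blk (f 0) := ⟨hs.1, hs.2.1, hs.2.2.1⟩
  have hex : ∃ i, i < 4 * q ∧ ¬ ∃ r, (f i).c.dyn = .L r := by
    by_contra hc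
    have hL : ∀ k ≤ 4 * q - 1, ∃ r, (f k).c.dyn = .L r := fun k hk => by
      by_contra h1
      exact hc ⟨k, by omega, h1⟩
    have e := ((h.left_part hs hn (4 * q - 1) (by omega) hL).2 (by omega)).1
    obtain ⟨e1, e2, _⟩ := h.blk2 hb hn (show 4 * q - 1 < 4 * q by omega)
    rcases (h.pair (4 * q - 1) (by omega)).outer ((il_at e1 e2).2 (by omega)) with
      ⟨a, _⟩ | ⟨a, _⟩ | ⟨s, _, a, _⟩ | ⟨s, _, a, _⟩ | h1
    · rw [e] at a; cases a
    · rw [e] at a; cases a
    · rw [e] at a; cases a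
    · rw [e] at a; cases a
    · rw [e] at h1; exact h1.1
  obtain ⟨hp, hnl⟩ := Nat.find_spec hex
  have hmin : ∀ k < Nat.find hex, ∃ r, (f k).c.dyn = .L r := fun k hk => by
    by_contra h1
    exact Nat.find_min hex hk ⟨by omega, h1⟩
  generalize Nat.find hex = pos at hp hnl hmin
  have hlp : ∀ i < pos, (i < 2 * q → (f i).c.dyn = (f 0).c.dyn) ∧
      (2 * q ≤ i → (f i).c.dyn = .L .T ∧ (f 0).c.dyn = .L .F) := fun i hi =>
    h.left_part hs hn i (by omega) (fun k hk => hmin k (by omega))
  -- the case of a head on side `false`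
  have caseF : ∀ s, pos < 2 * q → (f pos).c.dyn = .H s false →
      (0 < pos → (f 0).c.dyn = .L (roleL s.cls false)) →
      ∃ s pos, pos < (if s.cls.two then 4 * q else 2 * q) ∧
      (s = .LK2 → 2 * q ≤ pos) ∧ (f pos).c.dyn = .H s (side q pos) ∧
      ∀ i < pos, (f i).c.dyn = .L (roleL s.cls (side q i)) := by
    intro s h1 h2 h3
    refine ⟨s, pos, by split_ifs <;> omega, fun e => ?_, ?_, fun i hi => ?_⟩
    · subst e
      exact absurd act_dead_LK2 (h.dead pos (by omega) _ _ h2)
    · rw [(side_false pos).2 h1]; exact h2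
    · rw [(side_false i).2 (by omega), (hlp i hi).1 (by omega), h3 (by omega)]
  -- the case of a head on side `true`
  have caseT : ∀ s, 2 * q ≤ pos → s.cls.two = true → (f pos).c.dyn = .H s true →
      (f 0).c.dyn = .L .F →
      ∃ s pos, pos < (if s.cls.two then 4 * q else 2 * q) ∧
      (s = .LK2 → 2 * q ≤ pos) ∧ (f pos).c.dyn = .H s (side q pos) ∧
      ∀ i < pos, (f i).c.dyn = .L (roleL s.cls (side q i)) := by
    intro s h1 h2 h3 h4
    refine ⟨s, pos, by rw [if_pos h2]; omega, fun _ => h1, ?_, fun i hi => ?_⟩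
    · rw [(side_true pos).2 h1]; exact h3
    · by_cases h5 : i < 2 * q
      · rw [(side_false i).2 h5, (hlp i hi).1 h5, h4, (roleL_two h2).1]
      · rw [(side_true i).2 (by omega), ((hlp i hi).2 (by omega)).1, (roleL_two h2).2]
  have hbeg := hs.2.2.2
  rcases Nat.eq_zero_or_pos pos with h0 | h0
  · subst h0
    cases hd : (f 0).c.dyn with
    | L r => exact absurd ⟨r, hd⟩ hnl
    | R r => rw [hd] at hbeg; exact hbeg.elim
    | H s sd =>
      rw [hd] at hbeg
      have : sd = false := hbeg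
      subst this
      have := caseF s (by omega) hd (fun h => by omega)
      simpa only [hd] using this
  obtain ⟨p, rfl⟩ : ∃ p, pos = p + 1 := ⟨pos - 1, by omega⟩
  obtain ⟨r, hr⟩ := hmin p (by omega)
  obtain ⟨e1, e2, _⟩ := h.blk2 hb hn (show p < 4 * q by omega)
  by_cases hil : IL (f p).c
  · have hi2 : p + 1 = 2 * q := by have := (il_at e1 e2).1 hil; omega
    rcases (h.pair p (by omega)).outer hil with ⟨_, b⟩ | ⟨a, _⟩ | ⟨s, h2, a, b⟩ | ⟨s, _, a, _⟩ | h1
    · exact absurd ⟨_, b⟩ hnl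
    · rw [hr] at a; cases a
    · exact caseT s (by omega) h2 b (by rw [← (hlp p (by omega)).1 (by omega)]; exact a)
    · rw [hr] at a; cases a
    · rw [hr] at h1; exact h1.1.elim
  · have hi2 : p + 1 ≠ 2 * q := by have := (il_at e1 e2).not.1 hil; omega
    rcases (h.pair p (by omega)).inner hil with ⟨r, a, b⟩ | ⟨r, a, b⟩ | ⟨s, sd, a, b⟩ |
      ⟨s, sd, a, b⟩
    · exact absurd ⟨_, b⟩ hnl
    · rw [hr] at a; cases a
    · by_cases h2 : p + 1 < 2 * q
      · have e0 : (f 0).c.dyn = .L (roleL s.cls sd) := by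
          rw [← (hlp p (by omega)).1 (by omega)]; exact a
        have hsd : sd = false := by
          cases sd
          · rfl
          · exfalso
            rw [e0] at hbeg
            cases h3 : s.cls.two
            · exact h.dead (p + 1) (by omega) _ _ b (act_dead_solo h3)
            · exact hbeg (roleL_two h3).2
        subst hsd
        exact caseF s h2 b (fun _ => e0)
      · obtain ⟨e3, e4⟩ := (hlp p (by omega)).2 (by omega)
        rw [e3] at a
        obtain ⟨rfl, h3⟩ := roleL_T (Dyn.L.inj a).symm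
        exact caseT s (by omega) h3 b e4
    · rw [hr] at a; cases a

/-- the cells right of the head -/
theorem StLoc.right_part {f : ℕ → Let q} {n : ℕ} (h : StLoc f n) (hb : Blk (f 0))
    (hn : 4 * q < n) {s : St} {pos : ℕ} (h2 : s = .LK2 → 2 * q ≤ pos)
    (h3 : (f pos).c.dyn = .H s (side q pos)) :
    ∀ k, pos + 1 + k < (if s.cls.two then 4 * q else 2 * q) →
      (f (pos + 1 + k)).c.dyn = .R (roleR s.cls (side q (pos + 1 + k))) := by
  have h6 := six_le (q := q)
  have hlen : (if s.cls.two then 4 * q else 2 * q) ≤ 4 * q := by split_ifs <;> omega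
  have hmain : ∀ i, pos ≤ i → i + 1 = 2 * q → i + 1 < (if s.cls.two then 4 * q else 2 * q) →
      s.cls = .main := by
    intro i h1 h4 h5
    refine cls_main_of ?_ (fun e => by have := h2 e; omega)
    by_contra h7
    rw [if_neg h7] at h5
    omega
  intro k
  induction k with
  | zero =>
    intro hk
    obtain ⟨e1, e2, _⟩ := h.blk2 hb hn (show pos < 4 * q by omega)
    rw [Nat.add_zero] at hk ⊢
    by_cases hil : IL (f pos).c
    · have hi2 : pos + 1 = 2 * q := by have := (il_at e1 e2).1 hil; omega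
      have hm := hmain pos le_rfl hi2 hk
      rw [(side_false pos).2 (by omega)] at h3
      rw [(side_true _).2 (by omega), hm]
      rcases (h.pair pos (by omega)).outer hil with
        ⟨a, _⟩ | ⟨a, _⟩ | ⟨s, _, a, _⟩ | ⟨s, _, _, b⟩ | h1
      · rw [h3] at a; cases a
      · rw [h3] at a; cases a
      · rw [h3] at a; cases a
      · exact b
      · rw [h3] at h1; exact absurd ⟨hm, rfl⟩ h1.1
    · have hi2 : pos + 1 ≠ 2 * q := by have := (il_at e1 e2).not.1 hil; omega
      have es : side q (pos + 1) = side q pos := by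
        unfold side; rw [decide_eq_decide]; omega
      rw [es]
      rcases (h.pair pos (by omega)).inner hil with ⟨r, a, b⟩ | ⟨r, a, b⟩ | ⟨s', sd, a, b⟩ |
        ⟨s', sd, a, b⟩
      · rw [h3] at a; cases a
      · rw [h3] at a; cases a
      · rw [h3] at a; cases a
      · rw [h3] at a
        obtain ⟨rfl, rfl⟩ := Dyn.H.inj a
        exact b
  | succ k ih =>
    intro hk
    have ih := ih (by omega)
    rw [show pos + 1 + (k + 1) = pos + 1 + k + 1 by omega] at hk ⊢
    have hpi : pos ≤ pos + 1 + k := by omega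
    generalize pos + 1 + k = i at ih hk hpi ⊢
    obtain ⟨e1, e2, _⟩ := h.blk2 hb hn (show i < 4 * q by omega)
    by_cases hil : IL (f i).c
    · have hi2 : i + 1 = 2 * q := by have := (il_at e1 e2).1 hil; omega
      have hm := hmain i hpi hi2 hk
      rw [(side_false i).2 (by omega), hm] at ih
      rw [(side_true _).2 (by omega), hm]
      rcases (h.pair i (by omega)).outer hil with
        ⟨a, _⟩ | ⟨_, b⟩ | ⟨s, _, a, _⟩ | ⟨s, _, a, _⟩ | h1
      · rw [ih] at a; cases a
      · exact b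
      · rw [ih] at a; cases a
      · rw [ih] at a; cases a
      · rw [ih] at h1; exact absurd rfl h1.1
    · have hi2 : i + 1 ≠ 2 * q := by have := (il_at e1 e2).not.1 hil; omega
      have es : side q (i + 1) = side q i := by
        unfold side; rw [decide_eq_decide]; omega
      rw [es]
      rcases (h.pair i (by omega)).inner hil with ⟨r, a, b⟩ | ⟨r, a, b⟩ | ⟨s', sd, a, b⟩ |
        ⟨s', sd, a, b⟩
      · rw [ih] at a; cases a
      · rw [b, ← a, ih]
      · rw [ih] at a; cases a
      · rw [ih] at a; cases a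

theorem StLoc.exists_piece {f : ℕ → Let q} {n : ℕ} (h : StLoc f n) (hs : Start (f 0))
    (hn : 4 * q < n) : ∃ (κ : Cfg) (it : ℕ → Fin q), Valid q κ ∧
      (∀ i < len q κ, f i = letter κ it i) ∧ Start (f (len q κ)) := by
  have h6 := six_le (q := q)
  have hb : Blk (f 0) := ⟨hs.1, hs.2.1, hs.2.2.1⟩
  obtain ⟨s, pos, h1, h2, h3, h4⟩ := h.exists_head hs hn
  have h5 := h.right_part hb hn h2 h3
  let κ : Cfg := ⟨s, pos, (f pos).t, fun i => (f i).c.ptr, fun i => (f i).m⟩
  have hlen : len q κ = if s.cls.two then 4 * q else 2 * q := rfl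
  have hlen4 : len q κ ≤ 4 * q := by rw [hlen]; split_ifs <;> omega
  have hlen2 : len q κ = 2 * q ∨ len q κ = 4 * q := by rw [hlen]; split_ifs <;> omega
  have hd : ∀ i < len q κ, (f i).c.dyn = dynAt q κ i := by
    intro i hi
    unfold dynAt
    change _ = if i = pos then Dyn.H s (side q i) else if i < pos then
      Dyn.L (roleL s.cls (side q i)) else Dyn.R (roleR s.cls (side q i))
    split_ifs with a b
    · subst a; exact h3
    · exact h4 i b
    · have := h5 (i - (pos + 1)) (by rw [← hlen]; omega)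
      rwa [show pos + 1 + (i - (pos + 1)) = i by omega] at this
  refine ⟨κ, fun i => (f i).it, ⟨h1, h2⟩, fun i hi => ?_, ?_⟩
  · obtain ⟨e1, e2, e3⟩ := h.blk2 hb hn (show i < 4 * q by omega)
    have ec : (f i).c = ctlAt q κ i := by
      unfold ctlAt
      rw [← e1, ← e2, ← hd i hi]
    have et : (f i).t = if i = κ.pos then κ.tr else blank := by
      split_ifs with a
      · have a' : i = pos := a
        rw [a']
      · by_contra hne
        refine h.zt i (by omega) ⟨hne, ?_⟩
        rw [hd i hi]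
        unfold dynAt
        rw [if_neg a]
        split_ifs
        · exact Or.inl ⟨_, rfl⟩
        · exact Or.inr (Or.inl ⟨_, rfl⟩)
    have ea : (f i).a = Mach.adr q i := by
      apply Fin.ext
      have := (f i).a.isLt
      change _ = off q i % q
      rw [← e3, Nat.mod_eq_of_lt this]
    unfold letter
    rw [← ec, ← et, ← ea]
  · have hb' : Blk (f (len q κ)) := by
      have hb2 := h.blk_next hb (by omega)
      rw [Nat.zero_add] at hb2
      rcases hlen2 with e | e
      · rw [e]; exact hb2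
      · have := h.blk_next hb2 (by omega)
        rw [e, show 4 * q = 2 * q + 2 * q by omega]; exact this
    refine ⟨hb'.1, hb'.2.1, hb'.2.2, ?_⟩
    obtain ⟨p, hp⟩ : ∃ p, len q κ = p + 1 := ⟨len q κ - 1, by omega⟩
    obtain ⟨e1, e2, _⟩ := h.blk2 hb hn (show p < 4 * q by omega)
    have hdp := hd p (by omega)
    have hpos : pos ≤ p := by rw [← hlen] at h1; omega
    have hm : s.cls = .main → side q p = true := fun e => by
      rw [side_true]
      rw [hlen, e] at hp
      simp only [Cls.two, if_true] at hp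
      omega
    have hdp' : (f p).c.dyn = .H s (side q p) ∨ (f p).c.dyn = .R (roleR s.cls (side q p)) := by
      rw [hdp]
      unfold dynAt
      split_ifs with a b
      · exact Or.inl rfl
      · exact absurd b (by change ¬ p < pos; omega)
      · exact Or.inr rfl
    rw [hp]
    rcases (h.pair p (by omega)).outer ((il_at e1 e2).2 (by omega)) with
      ⟨a, _⟩ | ⟨a, _⟩ | ⟨s', _, a, _⟩ | ⟨s', e, a, _⟩ | h7
    · rcases hdp' with b | b <;> rw [b] at a <;> cases a
    · rcases hdp' with b | b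
      · rw [b] at a; cases a
      · rw [b] at a
        have a' := Dyn.R.inj a
        exfalso
        revert a' hm
        generalize s.cls = cl
        generalize side q p = sd
        cases cl <;> cases sd <;> simp [roleR]
    · rcases hdp' with b | b <;> rw [b] at a <;> cases a
    · rcases hdp' with b | b
      · rw [b] at a
        obtain ⟨rfl, a'⟩ := Dyn.H.inj a
        rw [hm e] at a'
        cases a'
      · rw [b] at a; cases a
    · exact h7.2

theorem exists_piece {w : List (Let q)} (hz : ¬ HasZero (sys q) w) (hl : 4 * q + 1 ≤ w.length)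
    (hs : StAt Start w 0) :
    ∃ (κ : Cfg) (it : ℕ → Fin q) (w' : List (Let q)), Valid q κ ∧ w = word κ it ++ w' ∧
      StAt Start w' 0 := by
  have e : ∀ i (hi : i < w.length), w.getD i w[0] = w[i] := fun i hi => by
    simp [List.getD, hi]
  obtain ⟨x, hx, hsx⟩ := hs
  have hx' : w[0] = x := by
    rw [List.getElem?_eq_getElem (by omega)] at hx
    exact Option.some.inj hx
  obtain ⟨κ, it, hv, h1, h2⟩ := (stLoc_of hz w[0]).exists_piece
    (by rw [e 0 (by omega), hx']; exact hsx) (by omega)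
  have hlen4 : len q κ ≤ 4 * q := by unfold len; split_ifs <;> omega
  refine ⟨κ, it, w.drop (len q κ), hv, ?_, ?_⟩
  · conv_lhs => rw [← List.take_append_drop (len q κ) w]
    congr 1
    apply List.ext_getElem
    · rw [length_word, List.length_take]; omega
    · intro i h3 h4
      rw [length_word] at h4
      have := h1 i h4
      simp only [e i (by omega)] at this
      simp [word, this]
  · refine ⟨w[len q κ], by simp, ?_⟩
    simpa only [e (len q κ) (by omega)] using h2

theorem getElem?_word_append {κ : Cfg} (it : ℕ → Fin q) (w : List (Let q)) {i : ℕ}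
    (hi : i < len q κ) : (word κ it ++ w)[i]? = some (letter κ it i) := by
  rw [List.getElem?_append_left (by rw [length_word]; exact hi)]
  simp [word, hi]

theorem start_word {κ : Cfg} (_hv : Valid q κ) (it : ℕ → Fin q) (w : List (Let q)) :
    StAt Start (word κ it ++ w) 0 := by
  have h6 := six_le (q := q)
  have hlen : 0 < len q κ := by unfold len; split_ifs <;> omega
  refine ⟨_, getElem?_word_append it w hlen, (znAt_A 0).2 (by omega), (flAt_p0 0).2 (by omega),
    ?_, ?_⟩
  · change off q 0 % q = 0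
    have : off q 0 = 0 := by have := off_spec q 0; omega
    rw [this, Nat.zero_mod]
  · change begD (dynAt q κ 0)
    unfold dynAt
    rw [(side_false 0).2 (by omega)]
    split_ifs with a b
    · rfl
    · intro e
      cases (roleL_T e).1
    · omega

theorem not_start_two {κ : Cfg} (_hv : Valid q κ) (h2 : κ.st.cls.two = true) (it : ℕ → Fin q)
    (w : List (Let q)) : ¬ StAt Start (word κ it ++ w) (2 * q) := by
  have h6 := six_le (q := q)
  have hlen : 2 * q < len q κ := by unfold len; rw [if_pos h2]; omega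
  rintro ⟨x, hx, hs⟩
  rw [getElem?_word_append it w hlen] at hx
  obtain rfl := Option.some.inj hx
  have hb : begD (dynAt q κ (2 * q)) := hs.2.2.2
  unfold dynAt at hb
  rw [(side_true (2 * q)).2 le_rfl] at hb
  split_ifs at hb with a b
  · cases hb
  · exact hb (roleL_two h2).2
  · exact hb

end Vale.Agent.P192Z.Mach
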