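import Vale.Agent.P192Z.Mach.InterB
import Vale.Agent.P192Z.Mach.Sim
import Vale.Agent.P192Z.Mach.Struct

/-!
# P192: item zones in the same mode can be interchanged
-/

namespace Vale.Agent.P192Z.Mach

variable {q : ℕ} [hq : Fact (6 ≤ q)]

theorem exists_parse (b : ℕ) {w : List (Let q)} (hz : ¬ IsZero (sys q) w)
    (hl : 2 * q * b + 2 * q + 1 ≤ w.length) (hs : StAt Start w 0) :
    ∃ Y r, Parse w Y r ∧ b ≤ Y.length := by
  induction b using Nat.strong_induction_on generalizing w with
  | _ b ih =>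
    rcases b with _ | b
    · exact ⟨[], w, Parse.done w, le_rfl⟩
    rw [Nat.mul_succ] at hl
    obtain ⟨κ, it, w', hv, rfl, hs'⟩ := exists_piece (fun h => hz h.isZero) (by omega) hs
    have h1 : ¬ IsZero (sys q) (word κ it) := fun h => hz (h.left _)
    have h2 : ¬ IsZero (sys q) w' := fun h => hz (h.right _)
    rw [List.length_append, length_word, len] at hl
    cases h : κ.st.cls.two with
    | false =>
      obtain ⟨h3, y, h4⟩ := piece_one hv h h1
      simp only [h, Bool.false_eq_true, if_false] at hl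
      obtain ⟨Y, r, h5, h6⟩ := ih b (by omega) h2 (by omega) hs'
      exact ⟨y :: Y, r, Parse.one κ it y w' Y r h h4 h3 h5, by simpa using h6⟩
    | true =>
      obtain ⟨h3, h3', y, y', h4⟩ := piece_two hv h h1
      simp only [h, if_true] at hl
      rcases b with _ | b
      · exact ⟨[y, y'], w', Parse.two κ it y y' w' [] w' h h4 h3 h3' (Parse.done w'), by simp⟩
      · rw [Nat.mul_succ] at hl
        obtain ⟨Y, r, h5, h6⟩ := ih b (by omega) h2 (by omega) hs'
        exact ⟨y :: y' :: Y, r, Parse.two κ it y y' w' Y r h h4 h3 h3' h5, by simpa using h6⟩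

theorem parse_nonzero {w r : List (Let q)} {Y : List (Let (up q))} (hP : Parse w Y r)
    (hz : ¬ IsZero (sys q) w) : ¬ IsZero (sys (up q)) Y := fun h =>
  hz (IsZero.of_eqv (parse_eqv hP)
    ((isZero_flatMap (P' := sys (up q)) enc (fun _ _ h => sim_rel h) (fun _ h => sim_zer h)
      h).left r))

theorem swap_parse {M : ℕ} {z : Fin M → Fin q → Let q} {Y : List (Let (up q))}
    {r : List (Let q)} (hP : Parse (flat z) Y r) {k k' : Fin M} {b b' : ℕ}
    (hk : k.val = 2 * b + 1) (hk' : k'.val = 2 * b' + 1) (hne : k ≠ k') {y y' : Let (up q)}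
    (hy : Y[b]? = some y) (hy' : Y[b']? = some y') (hf : ∀ i, (z k i).c.ptr = false)
    (ht : ∀ i, cta (z k i) = cta (z k' i)) :
    Parse (flat (z ∘ Equiv.swap k k')) ((Y.set b (setIt y y'.it)).set b' (setIt y' y.it)) r ∧
      (z k = z k' → y.it = y'.it) := by
  have hf' : ∀ i, (z k' i).c.ptr = false := fun i => by
    rw [← hf i]
    exact congrArg (fun x => x.1.ptr) (ht i).symm
  obtain ⟨a1, a2, -⟩ := zone_loc hP hk hy
  obtain ⟨a3, -, a4⟩ := a2 hf
  obtain ⟨b1, b2, -⟩ := zone_loc hP hk' hy'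
  obtain ⟨b3, -, -⟩ := b2 hf'
  have hb : b ≠ b' := fun e => hne (Fin.ext (by omega))
  have h1 := a4 (z k') y'.it (fun i => (ht i).symm) b3 b1
  obtain ⟨-, c2, -⟩ := zone_loc h1 hk' ((List.getElem?_set_ne hb).trans hy')
  rw [Function.update_of_ne hne.symm] at c2
  obtain ⟨-, -, c4⟩ := c2 hf'
  refine ⟨?_, fun e => itS_inj fun i hi => by rw [← a3 ⟨i, hi⟩, ← b3 ⟨i, hi⟩, e]⟩
  have h2 := c4 (z k) y.it ht a3 a1
  rwa [Function.update_comm hne, ← Equiv.comp_swap_eq_update] at h2

/-- what is kept of the zones: controls, transit symbols, addresses, and the places where the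
encoded word can start a piece -/
def skel {M : ℕ} (z : Fin M → Fin q → Let q) :
    (Fin M → Fin q → Ctl × Sym × Fin q) × Set ℕ :=
  (fun k i => cta (z k i),
    {o | ∃ Y r, Parse (flat z) Y r ∧ 8 * up q + 1 ≤ Y.length ∧ StAt Start Y o})

/-- the number of modes per place -/
def nMode : ℕ := Fintype.card (St × Sym × Bool)

theorem exists_modes : ∃ t : Finset (Fin q → Ctl × Sym × Fin q),
    (∀ μ, track μ ∈ t) ∧ t.card ≤ nMode * (q + 2) := by
  have key : ∀ {α β : Type} [Fintype α] (f : α × Fin (q + 2) → β), ∃ t : Finset β,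
      (∀ μ, f μ ∈ t) ∧ t.card ≤ Fintype.card α * (q + 2) := by
    intro α β _ f
    classical
    refine ⟨Finset.univ.image f, fun μ => Finset.mem_image_of_mem f (Finset.mem_univ μ),
      Finset.card_image_le.trans ?_⟩
    rw [Finset.card_univ, Fintype.card_prod, Fintype.card_fin]
  exact key track

omit hq in
theorem stAt_set {Y : List (Let q)} {b o : ℕ} {y : Let q} (hy : Y[b]? = some y) (n : Fin q)
    (h : StAt Start Y o) : StAt Start (Y.set b (setIt y n)) o := by
  obtain ⟨x, h1, h2⟩ := h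
  by_cases e : b = o
  · subst e
    rw [hy] at h1
    obtain rfl := Option.some.inj h1
    exact ⟨_, List.getElem?_set_self (List.getElem?_eq_some_iff.1 hy).1, h2⟩
  · exact ⟨x, (List.getElem?_set_ne e).trans h1, h2⟩

theorem skel_swap {M : ℕ} {z : Fin M → Fin q → Let q} {k k' : Fin M} {b b' : ℕ}
    (hk : k.val = 2 * b + 1) (hk' : k'.val = 2 * b' + 1) (hne : k ≠ k')
    (hb : b < 8 * up q + 1) (hb' : b' < 8 * up q + 1) (hf : ∀ i, (z k i).c.ptr = false)
    (ht : ∀ i, cta (z k i) = cta (z k' i)) : skel (z ∘ Equiv.swap k k') = skel z := by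
  have key : ∀ z : Fin M → Fin q → Let q, (∀ i, (z k i).c.ptr = false) →
      (∀ i, cta (z k i) = cta (z k' i)) → (skel z).2 ⊆ (skel (z ∘ Equiv.swap k k')).2 := by
    rintro z hf ht o ⟨Y, r, hP, h1, h2⟩
    have hy := List.getElem?_eq_getElem (l := Y) (i := b) (by omega)
    have hy' := List.getElem?_eq_getElem (l := Y) (i := b') (by omega)
    refine ⟨_, r, (swap_parse hP hk hk' hne hy hy' hf ht).1, by simpa using h1, ?_⟩
    exact stAt_set ((List.getElem?_set_ne fun e => hne (Fin.ext (by omega))).trans hy') _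
      (stAt_set hy _ h2)
  refine Prod.ext (funext fun j => funext fun i => ?_) (Set.Subset.antisymm ?_ (key z hf ht))
  · show cta (z (Equiv.swap k k' j) i) = cta (z j i)
    rw [Equiv.swap_apply_def]
    split_ifs with e1 e2
    · rw [e1, ht]
    · rw [e2, ht]
    · rfl
  · have := key (z ∘ Equiv.swap k k') (fun i => by
      rw [Function.comp_apply, Equiv.swap_apply_left, ← hf i]
      exact congrArg (fun x => x.1.ptr) (ht i).symm) (fun i => by
      rw [Function.comp_apply, Function.comp_apply, Equiv.swap_apply_left, Equiv.swap_apply_right,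
        ht])
    rwa [Function.comp_assoc, ← Equiv.coe_trans, Equiv.swap_swap, Equiv.coe_refl,
      Function.comp_id] at this

theorem start_congr {M : ℕ} {z z' : Fin (M + 1) → Fin q → Let q}
    (h : ∀ i, cta (z 0 i) = cta (z' 0 i)) (hs : StAt Start (flat z) 0) : StAt Start (flat z') 0 := by
  have h6 := six_le (q := q)
  have h1 := flat_get z 0 ⟨0, by omega⟩
  have h2 := flat_get z' 0 ⟨0, by omega⟩
  obtain ⟨x, h3, h4⟩ := hs
  simp only [Fin.val_zero, mul_zero, add_zero] at h1 h2
  rw [h1] at h3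
  obtain rfl := Option.some.inj h3
  refine ⟨_, h2, ?_⟩
  have h5 := h ⟨0, by omega⟩
  simp only [cta, Prod.mk.injEq] at h5
  unfold Start at h4 ⊢
  rwa [← h5.1, ← h5.2.2]

/-- the window of an upper word that starts a piece -/
theorem window {Y : List (Let q)} (hz : ¬ IsZero (sys q) Y) {o : ℕ}
    (hl : o + 4 * q + 1 ≤ Y.length) (hs : StAt Start Y o) :
    ∃ κ it w, Valid q κ ∧ ¬ IsZero (sys q) (word κ it) ∧ (Y.take o).length = o ∧
      Y = Y.take o ++ (word κ it ++ w) ∧ ∀ i < q, Y[o + i]? = some (letter κ it i) := by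
  have h1 : ¬ IsZero (sys q) (Y.drop o) := fun h => hz (by
    simpa using h.right (Y.take o))
  obtain ⟨κ, it, w, hv, e, -⟩ := exists_piece (w := Y.drop o) (fun h => h1 h.isZero)
    (by rw [List.length_drop]; omega) (by simpa [StAt] using hs)
  refine ⟨κ, it, w, hv, fun h => h1 (e ▸ h.left w), by rw [List.length_take]; omega,
    by rw [← e, List.take_append_drop], fun i hi => ?_⟩
  have h2 : i < len q κ := by unfold len; split_ifs <;> omega
  rw [← List.getElem?_drop, e, List.getElem?_append_left (by rwa [length_word]), word_getI _ _ h2]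

theorem window_swap {Y : List (Let q)} (hz : ¬ IsZero (sys q) Y) {o : ℕ}
    (hl : o + 4 * q + 1 ≤ Y.length) (hs : StAt Start Y o) {i j : ℕ} (hi : i < q) (hj : j < q)
    (hij : i ≠ j) : ∃ y y', Y[o + i]? = some y ∧ Y[o + j]? = some y' ∧ y.it ≠ y'.it ∧
      Eqv (sys q) Y ((Y.set (o + i) (setIt y y'.it)).set (o + j) (setIt y' y.it)) := by
  obtain ⟨κ, it, w, hv, h1, h2, h3, h4⟩ := window hz hl hs
  obtain ⟨h5, h6⟩ := piece_swap hv h1 hi hj
  refine ⟨_, _, h4 i hi, h4 j hj, h6 hij, ?_⟩
  have h7 : q ≤ len q κ := by unfold len; split_ifs <;> omega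
  have h8 : (Y.set (o + i) (setIt (letter κ it i) (letter κ it j).it)).set (o + j)
      (setIt (letter κ it j) (letter κ it i).it) =
      Y.take o ++ (word κ (it ∘ Equiv.swap i j) ++ w) := by
    refine splice (s := 0) (q := q) (W := word κ it) (by rw [length_word, length_word])
      (by rw [length_word]; omega) (fun p hp => ?_) (fun p hp => ?_) (fun p hp => ?_)
    · rw [List.getElem?_set_ne (by omega), List.getElem?_set_ne (by omega), ← h3]
    · by_cases e : p < len q κ
      · rw [word_getI _ _ e, word_getI _ _ e]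
        simp only [letter, Function.comp_apply]
        rw [Equiv.swap_apply_of_ne_of_ne (by omega) (by omega)]
      · rw [List.getElem?_eq_none (by rw [length_word]; omega),
          List.getElem?_eq_none (by rw [length_word]; omega)]
    · rw [h2, add_zero, zero_add, word_getI _ _ (by omega)]
      by_cases e1 : p = j
      · subst e1
        rw [List.getElem?_set_self (by rw [List.length_set]; omega)]
        simp only [letter, setIt, Function.comp_apply, Equiv.swap_apply_right]
      · rw [List.getElem?_set_ne (by omega)]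
        by_cases e2 : p = i
        · subst e2
          rw [List.getElem?_set_self (by omega)]
          simp only [letter, setIt, Function.comp_apply, Equiv.swap_apply_left]
        · rw [List.getElem?_set_ne (by omega), h4 p hp]
          simp only [letter, Function.comp_apply, Equiv.swap_apply_of_ne_of_ne e2 e1]
  rw [h8]
  have h9 := (Eqv.refl (Y.take o)).append (h5.append (Eqv.refl w))
  rwa [← h3] at h9

theorem interchange (ρ : ℕ) (hρ : ρ * (nMode * (q + 2)) + 3 < up q)
    (z0 : Fin (16 * up q + 8) → Fin q → Let q) (hz : ¬ IsZero (sys q) (flat z0))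
    (hs : StAt Start (flat z0) 0) :
    ∃ J : Finset (Fin (16 * up q + 8)), ρ < J.card ∧ ∀ z, skel z = skel z0 → ∀ i ∈ J, ∀ j ∈ J,
      i ≠ j → skel (z ∘ Equiv.swap i j) = skel z ∧
        (StAt Start (flat (z ∘ Equiv.swap i j)) 0 ↔ StAt Start (flat z) 0) ∧
        (¬ IsZero (sys q) (flat z) → StAt Start (flat z) 0 →
          Eqv (sys q) (flat z) (flat (z ∘ Equiv.swap i j)) ∧ z i ≠ z j) := by
  classical
  have h6 := six_le (q := q)
  obtain ⟨Y0, r0, hP0, hl0⟩ := exists_parse (8 * up q + 1) hz (by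
    rw [Cap.length_flat]
    have : q * (16 * up q + 8) = 2 * q * (8 * up q + 1) + 6 * q := by ring
    omega) hs
  have hz0 := parse_nonzero hP0 hz
  obtain ⟨o, ho, hso⟩ := exists_start (fun h => hz0 h.isZero) (by omega)
  obtain ⟨κ, it, -, -, -, -, -, hY0⟩ := window hz0 (by omega) hso
  let e : ℕ → Fin (16 * up q + 8) := fun i => ⟨min (2 * (o + i) + 1) (16 * up q + 7), by omega⟩
  have he : ∀ i < up q, (e i).val = 2 * (o + i) + 1 := fun i hi => by
    show min _ _ = _
    omega
  let s := (Finset.range (up q)) \ {0, κ.pos, κ.pos + 1}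
  have hs1 : ∀ i ∈ s, i < up q := fun i hi => Finset.mem_range.1 (Finset.mem_sdiff.1 hi).1
  have hperm : ∀ i, perm (letter κ it i).c → i = κ.pos := by
    intro i h
    by_contra h'
    have h1 : dynAt (up q) κ i = .H .W false := h.1
    unfold dynAt at h1
    rw [if_neg h'] at h1
    split_ifs at h1
  have hs2 : ∀ i ∈ s, ∀ l, (z0 (e i) l).c.ptr = false := by
    intro i hi l
    have h1 := (Finset.mem_sdiff.1 hi).2
    simp only [Finset.mem_insert, Finset.mem_singleton, not_or] at h1
    by_contra h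
    rcases (zone_loc hP0 (he i (hs1 i hi)) (hY0 i (hs1 i hi))).2.2 l (by simpa using h) with
      h2 | ⟨b', y', h2, h3, h4⟩
    · exact h1.2.1 (hperm i h2)
    · have h5 := hs1 i hi
      rw [show b' = o + (i - 1) by omega, hY0 _ (by omega)] at h3
      obtain rfl := Option.some.inj h3
      have := hperm _ h4
      omega
  obtain ⟨t, ht1, h1⟩ := exists_modes (q := q)
  obtain ⟨τ, -, hτ⟩ := Finset.exists_lt_card_fiber_of_mul_lt_card_of_maps_to (s := s)
    (t := t) (f := fun i l => cta (z0 (e i) l)) (n := ρ)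
    (fun i hi => by
      obtain ⟨μ, hμ⟩ := ((zone_loc hP0 (he i (hs1 i hi)) (hY0 i (hs1 i hi))).2.1 (hs2 i hi)).2.1
      exact hμ ▸ ht1 μ)
    (by
      have h2 : (Finset.range (up q)).card - ({0, κ.pos, κ.pos + 1} : Finset ℕ).card ≤ s.card :=
        Finset.le_card_sdiff _ _
      have h3 : ({0, κ.pos, κ.pos + 1} : Finset ℕ).card ≤ 3 := Finset.card_le_three
      have h4 := Nat.mul_le_mul_right ρ h1
      rw [Finset.card_range] at h2
      rw [mul_comm (nMode * (q + 2))] at h4
      omega)
  refine ⟨(s.filter fun i => (fun l => cta (z0 (e i) l)) = τ).image e, ?_, ?_⟩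
  · rwa [Finset.card_image_of_injOn]
    intro i hi j hj h
    have h1 := he i (hs1 i (Finset.mem_filter.1 hi).1)
    have h2 := he j (hs1 j (Finset.mem_filter.1 hj).1)
    rw [h] at h1
    omega
  intro z hsk k hk k' hk' hne
  obtain ⟨i, hi, rfl⟩ := Finset.mem_image.1 hk
  obtain ⟨j, hj, rfl⟩ := Finset.mem_image.1 hk'
  obtain ⟨hi, hi'⟩ := Finset.mem_filter.1 hi
  obtain ⟨hj, hj'⟩ := Finset.mem_filter.1 hj
  have hc : ∀ k l, cta (z k l) = cta (z0 k l) := fun k l =>
    congrFun (congrFun (congrArg Prod.fst hsk) k) l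
  have hf : ∀ l, (z (e i) l).c.ptr = false := fun l => by
    rw [← hs2 i hi l]
    exact congrArg (fun x => x.1.ptr) (hc _ l)
  have ht : ∀ l, cta (z (e i) l) = cta (z (e j) l) := fun l => by
    rw [hc, hc]
    exact congrFun (hi'.trans hj'.symm) l
  have hi1 := hs1 i hi
  have hj1 := hs1 j hj
  have h1 := skel_swap (he i hi1) (he j hj1) hne (by omega) (by omega) hf ht
  have h2 : ∀ l, cta ((z ∘ Equiv.swap (e i) (e j)) 0 l) = cta (z 0 l) := fun l =>
    congrFun (congrFun (congrArg Prod.fst h1) 0) l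
  refine ⟨h1, ⟨start_congr h2, start_congr fun l => (h2 l).symm⟩, fun hz1 _ => ?_⟩
  obtain ⟨Y, r, hP, hl, hso'⟩ : o ∈ (skel z).2 := by
    rw [hsk]
    exact ⟨Y0, r0, hP0, hl0, hso⟩
  obtain ⟨y, y', hy, hy', h3, h4⟩ := window_swap (parse_nonzero hP hz1) (by omega) hso' hi1 hj1
    (fun h => hne (by rw [h]))
  obtain ⟨h5, h7⟩ := swap_parse hP (he i hi1) (he j hj1) hne hy hy' hf ht
  exact ⟨(parse_eqv hP).trans (((eqv_flatMap (P' := sys (up q)) enc (fun _ _ h => sim_rel h)
    h4).append (Eqv.refl r)).trans (parse_eqv h5).symm), fun h => h3 (h7 h)⟩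

end Vale.Agent.P192Z.Mach
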