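import Vale.Agent.P192Z.Mach.Defs

/-!
# P192: item zones without pointers can be rewritten
-/

namespace Vale.Agent.P192Z.Mach

/-- replace the values on the zone that starts at `s` -/
def upd {α : Type} (q s : ℕ) (F g : ℕ → α) : ℕ → α :=
  fun p => if s ≤ p ∧ p < s + q then F (p - s) else g p

section

variable {α : Type} {q s : ℕ} {F g : ℕ → α}

theorem upd_out {a : ℕ} (h : ¬ (s ≤ a ∧ a < s + q)) : upd q s F g a = g a := if_neg h

theorem upd_in {i : ℕ} (h : i < q) : upd q s F g (s + i) = F i := by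
  unfold upd
  rw [if_pos ⟨by omega, by omega⟩, Nat.add_sub_cancel_left]

theorem put_upd {a : ℕ} (h : ¬ (s ≤ a ∧ a < s + q)) (x : α) :
    put (upd q s F g) a x = upd q s F (put g a x) := by
  funext p
  unfold put upd
  by_cases e : p = a
  · subst e
    simp [h]
  · simp [e]

theorem put_neI {a p : ℕ} (h : p ≠ a) (x : α) : put g a x p = g p := if_neg h

end

theorem EqT.upd {n q s : ℕ} {F T g : ℕ → Sym} (h : EqT n T g) :
    EqT n (upd q s F T) (upd q s F g) := by
  intro i hi
  unfold Mach.upd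
  rw [h i hi]

theorem undo_addrI (q j : ℕ) (f : ℕ → Sym) : undo q .addr j f = f := by
  funext i
  simp [undo]

theorem cond_addrI (q j : ℕ) (f : ℕ → Sym) : cond q .addr j f := fun h => by cases h

theorem undo_zeroI {q : ℕ} (hq : 0 < q) (s : Sc) (j : ℕ) (f : ℕ → Sym) : undo q s j f 0 = f 0 := by
  unfold undo
  rw [if_neg (by omega), if_neg (by omega)]

variable {q : ℕ} [hq : Fact (6 ≤ q)]

/-- the configuration with a new main track on one zone -/
def Cfg.upd (q s : ℕ) (F : ℕ → Sym) (κ : Cfg) : Cfg :=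
  ⟨κ.st, κ.pos, κ.tr, κ.ptr, Mach.upd q s F κ.mn⟩

theorem good_upd {κ : Cfg} {T : ℕ → Sym} (hG : Good q κ T) {s : ℕ} (hs : s = q ∨ s = 3 * q)
    (hf : ∀ p, s ≤ p → p < s + q → κ.ptr p = false) (F : ℕ → Sym) :
    Good q (κ.upd q s F) (upd q s F T) := by
  have h6 := six_le (q := q)
  have o : ∀ a, (a < q ∨ (2 * q ≤ a ∧ a < 3 * q)) → ¬ (s ≤ a ∧ a < s + q) := by omega
  have o0 := o 0 (by omega)
  have o2 := o 2 (by omega)
  have o3 := o (2 * q) (by omega)
  have o4 := o (2 * q + 2) (by omega)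
  have no : ∀ {a b : ℕ}, P2 (4 * q) κ a b → q ≤ a → a < 2 * q → 3 * q ≤ b → b < 4 * q → False := by
    intro a b h h1 h2 h3 h4
    rcases hs with rfl | rfl
    · have := (h a (by omega)).2 (Or.inl rfl)
      rw [hf a h1 (by omega)] at this
      cases this
    · have := (h b (by omega)).2 (Or.inr rfl)
      rw [hf b h3 (by omega)] at this
      cases this
  obtain ⟨st, pos, tr, ptr, mn⟩ := κ
  cases st with
  | OC c =>
    have o1 := o (srcPos q c) (by cases c <;> simp only [srcPos] <;> omega)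
    simp only [Good, Cfg.upd, upd_out o1, put_upd o1] at hG ⊢
    exact ⟨hG.1, hG.2.1, hG.2.2.1, hG.2.2.2.upd⟩
  | O6a =>
    have o1 := o pos (by simp only [Good] at hG; omega)
    simp only [Good, Cfg.upd, upd_out o1, put_upd o1] at hG ⊢
    exact ⟨hG.1, hG.2.1, hG.2.2.1, hG.2.2.2.1, hG.2.2.2.2.upd⟩
  | O6b =>
    have o1 := o (pos - 1) (by simp only [Good] at hG; omega)
    simp only [Good, Cfg.upd, upd_out o1, put_upd o1] at hG ⊢
    exact ⟨hG.1, hG.2.1, hG.2.2.1, hG.2.2.2.1, hG.2.2.2.2.upd⟩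
  | W | LK1 | W2 | O4a | O4b | O4c | O4e =>
    simp only [Good, Cfg.upd, upd_out o2, upd_out o3, upd_out o4, put_upd o2, put_upd o3,
      put_upd o4] at hG ⊢
    exact ⟨hG.1, hG.2.1, hG.2.2.1, hG.2.2.2.upd⟩
  | O3a k | O3b k | O3c k | O3d k | LK2 | O4d | S1 c | S2 c | Q5 =>
    simp only [Good, Cfg.upd, upd_out o0, upd_out o2, upd_out o4, put_upd o0, put_upd o2,
      put_upd o4] at hG ⊢
    exact ⟨hG.1, hG.2.1, hG.2.2.1, hG.2.2.2.1, hG.2.2.2.2.upd⟩
  | Q0 c | Q1 c =>
    obtain ⟨j, h1, h2, h3, h4, h5, -, h7⟩ := hG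
    cases c with
    | addr =>
      refine ⟨j, h1, h2, h3, h4, Or.inl rfl, cond_addrI _ _ _, ?_⟩
      rw [undo_addrI] at h7 ⊢
      exact h7.upd
    | swap | eq => exact (no h3 (by simp only [zo]; omega) (by simp only [zo]; omega)
        (by simp only [zo]; omega) (by simp only [zo]; omega)).elim
  | Q2 c =>
    obtain ⟨j, h1, h2, h2', h3, h4, h5, -, h7⟩ := hG
    cases c with
    | addr =>
      have o1 := o (zo q .addr + 3 + j) (by simp only [zo]; omega)
      refine ⟨j, h1, h2, h2', h3, (upd_out o1).trans h4, Or.inl rfl, cond_addrI _ _ _, ?_⟩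
      rw [undo_addrI] at h7 ⊢
      simp only [Cfg.upd, put_upd o1]
      exact h7.upd
    | swap | eq => exact (no h3 (by simp only [zo]; omega) (by simp only [zo]; omega)
        (by simp only [zo]; omega) (by simp only [zo]; omega)).elim
  | Q3 c | Q4 c =>
    obtain ⟨j, h1, h2, h3, h4, h5, -, h7⟩ := hG
    cases c with
    | addr =>
      have o1 := o (zo q .addr + 3 + j) (by simp only [zo]; omega)
      refine ⟨j, h1, h2, h3, (upd_out o1).trans h4, Or.inl rfl, cond_addrI _ _ _, ?_⟩
      rw [undo_addrI] at h7 ⊢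
      simp only [Cfg.upd, put_upd o1]
      exact h7.upd
    | swap | eq => exact (no h3 (by simp only [zo]; omega) (by simp only [zo]; omega)
        (by simp only [zo]; omega) (by simp only [zo]; omega)).elim

theorem good_ext {κ : Cfg} {T : ℕ → Sym} (hG : Good q κ T) {s : ℕ} (hs : s = q ∨ s = 3 * q)
    (hl : s + q ≤ len q κ) (hf : ∀ p, s ≤ p → p < s + q → κ.ptr p = false) {p : ℕ} (h1 : s ≤ p)
    (h2 : p < s + q) : T p = κ.mn p := by
  have h6 := six_le (q := q)
  have o : ∀ a, (a < q ∨ (2 * q ≤ a ∧ a < 3 * q)) → p ≠ a := by omega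
  have o0 := o 0 (by omega)
  have o2 := o 2 (by omega)
  have o3 := o (2 * q) (by omega)
  have o4 := o (2 * q + 2) (by omega)
  have no : ∀ {a b : ℕ}, P2 (4 * q) κ a b → q ≤ a → a < 2 * q → 3 * q ≤ b → b < 4 * q → False := by
    intro a b h h1 h2 h3 h4
    rcases hs with rfl | rfl
    · have := (h a (by omega)).2 (Or.inl rfl)
      rw [hf a h1 (by omega)] at this
      cases this
    · have := (h b (by omega)).2 (Or.inr rfl)
      rw [hf b h3 (by omega)] at this
      cases this
  have hp : p < len q κ := by omega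
  obtain ⟨st, pos, tr, ptr, mn⟩ := κ
  cases st with
  | OC c =>
    have o1 := o (srcPos q c) (by cases c <;> simp only [srcPos] <;> omega)
    simpa only [put_neI o1] using hG.2.2.2 p hp
  | O6a =>
    have o1 := o pos (by simp only [Good] at hG; omega)
    simpa only [put_neI o1] using hG.2.2.2.2 p hp
  | O6b =>
    have o1 := o (pos - 1) (by simp only [Good] at hG; omega)
    simpa only [put_neI o1] using hG.2.2.2.2 p hp
  | W | LK1 | W2 | O4a | O4b | O4c | O4e =>
    simpa only [put_neI o2, put_neI o3, put_neI o4] using hG.2.2.2 p hp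
  | O3a k | O3b k | O3c k | O3d k | LK2 | O4d | S1 c | S2 c | Q5 =>
    simpa only [put_neI o0, put_neI o2, put_neI o4] using hG.2.2.2.2 p hp
  | Q0 c | Q1 c =>
    obtain ⟨j, h1, h2, h3, h4, h5, -, h7⟩ := hG
    cases c with
    | addr => simpa only [undo_addrI] using h7 p hp
    | swap | eq => exact (no h3 (by simp only [zo]; omega) (by simp only [zo]; omega)
        (by simp only [zo]; omega) (by simp only [zo]; omega)).elim
  | Q2 c =>
    obtain ⟨j, h1, h2, h2', h3, h4, h5, -, h7⟩ := hG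
    cases c with
    | addr =>
      have o1 := o (zo q .addr + 3 + j) (by simp only [zo]; omega)
      simpa only [undo_addrI, put_neI o1] using h7 p hp
    | swap | eq => exact (no h3 (by simp only [zo]; omega) (by simp only [zo]; omega)
        (by simp only [zo]; omega) (by simp only [zo]; omega)).elim
  | Q3 c | Q4 c =>
    obtain ⟨j, h1, h2, h3, h4, h5, -, h7⟩ := hG
    cases c with
    | addr =>
      have o1 := o (zo q .addr + 3 + j) (by simp only [zo]; omega)
      simpa only [undo_addrI, put_neI o1] using h7 p hp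
    | swap | eq => exact (no h3 (by simp only [zo]; omega) (by simp only [zo]; omega)
        (by simp only [zo]; omega) (by simp only [zo]; omega)).elim

theorem good_ptr {κ : Cfg} {T : ℕ → Sym} (hG : Good q κ T) {p : ℕ}
    (hp : (q ≤ p ∧ p < 2 * q) ∨ 3 * q ≤ p) (hl : p < len q κ) (h : κ.ptr p = true) :
    permS (T 0) := by
  have h6 := six_le (q := q)
  have no : NoP (len q κ) κ → False := fun h' => by
    rw [h' p hl] at h
    cases h
  have key : ∀ {c : Sc} {m : Sym}, c ≠ .addr → permOK c m → T 0 = m → permS (T 0) :=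
    fun h1 h2 h3 => h3 ▸ h2.resolve_left h1
  have h0 : 0 < 4 * q := by omega
  obtain ⟨st, pos, tr, ptr, mn⟩ := κ
  cases st with
  | W | OC c | O3a k | O3b k | O3c k | O3d k | LK1 | W2 | O4a | O4b | O4c | O4e | S1 c =>
    exact (no hG.2.1).elim
  | O6a | O6b | LK2 | O4d => exact (no hG.2.2.1).elim
  | S2 c =>
    refine key ?_ hG.2.2.2.1 (hG.2.2.2.2 0 h0)
    rintro rfl
    have := (hG.2.1 p hl).1 h
    simp only [zo] at this
    omega
  | Q5 => exact key (by decide) hG.2.2.2.1 (hG.2.2.2.2 0 h0)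
  | Q0 c | Q1 c =>
    obtain ⟨j, h1, h2, h3, h4, h5, -, h7⟩ := hG
    refine key ?_ h5 ((h7 0 h0).trans (undo_zeroI (by omega) _ _ _))
    rintro rfl
    have := (h3 p hl).1 h
    simp only [zo] at this
    omega
  | Q2 c =>
    obtain ⟨j, h1, h2, h2', h3, h4, h5, -, h7⟩ := hG
    refine key ?_ h5 ((h7 0 h0).trans ((undo_zeroI (by omega) _ _ _).trans (put_neI (by omega) _)))
    rintro rfl
    have := (h3 p hl).1 h
    simp only [zo] at this
    omega
  | Q3 c | Q4 c =>
    obtain ⟨j, h1, h2, h3, h4, h5, -, h7⟩ := hG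
    refine key ?_ h5 ((h7 0 h0).trans ((undo_zeroI (by omega) _ _ _).trans (put_neI (by omega) _)))
    rintro rfl
    have := (h3 p hl).1 h
    simp only [zo] at this
    omega

end Vale.Agent.P192Z.Mach
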