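import Vale.Agent.P192Z.Mach.InterA
import Vale.Agent.P192Z.Mach.GoodStep
import Vale.Agent.P192Z.Mach.Capelli

/-!
# P192: item zones inside a parsed word
-/

namespace Vale.Agent.P192Z.Mach

theorem splice {α : Type} {A W W' C u : List α} {s q : ℕ} (hl : W'.length = W.length)
    (hs : s + q ≤ W.length)
    (h1 : ∀ p, ¬ (A.length + s ≤ p ∧ p < A.length + s + q) → u[p]? = (A ++ (W ++ C))[p]?)
    (h2 : ∀ p, ¬ (s ≤ p ∧ p < s + q) → W'[p]? = W[p]?)
    (h3 : ∀ i < q, u[A.length + s + i]? = W'[s + i]?) : u = A ++ (W' ++ C) := by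
  refine List.ext_getElem? fun p => ?_
  by_cases h : A.length + s ≤ p ∧ p < A.length + s + q
  · obtain ⟨i, rfl⟩ : ∃ i, p = A.length + s + i := ⟨p - (A.length + s), by omega⟩
    rw [h3 i (by omega), List.getElem?_append_right (by omega),
      List.getElem?_append_left (by omega)]
    congr 1
    omega
  · rw [h1 p h]
    simp only [List.getElem?_append, hl]
    split_ifs with e1 e2
    · rfl
    · exact (h2 _ (by omega)).symm
    · rfl

theorem flat_get {X : Type} {M q : ℕ} (z : Fin M → Fin q → X) (k : Fin M) (i : Fin q) :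
    (flat z)[q * k.val + i.val]? = some (z k i) := by
  induction M with
  | zero => exact k.elim0
  | succ M ih =>
    have e : flat z = List.ofFn (z 0) ++ flat fun k => z k.succ := by
      simp [flat, List.ofFn_succ]
    rw [e]
    refine Fin.cases ?_ (fun k => ?_) k
    · rw [List.getElem?_append_left (by simp)]
      simp
    · rw [List.getElem?_append_right (by simp [Nat.mul_succ]; omega), ← ih (fun k => z k.succ) k]
      congr 1
      simp only [Fin.val_succ, Nat.mul_succ, List.length_ofFn]
      omega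

theorem flat_update {X : Type} {M q : ℕ} (z : Fin M → Fin q → X) (k : Fin M) (v : Fin q → X)
    {p : ℕ} (h : ¬ (q * k.val ≤ p ∧ p < q * k.val + q)) :
    (flat (Function.update z k v))[p]? = (flat z)[p]? := by
  by_cases hp : p < q * M
  · have hq : 0 < q := Nat.pos_of_ne_zero (by rintro rfl; simp at hp)
    have h1 : p / q < M := Nat.div_lt_of_lt_mul hp
    have h2 := Nat.div_add_mod p q
    have h3 := Nat.mod_lt p hq
    have h4 := flat_get z ⟨p / q, h1⟩ ⟨p % q, h3⟩
    have h5 := flat_get (Function.update z k v) ⟨p / q, h1⟩ ⟨p % q, h3⟩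
    simp only [h2] at h4 h5
    rw [h4, h5, Function.update_of_ne]
    rintro rfl
    simp only at h
    omega
  · rw [List.getElem?_eq_none (by rw [Cap.length_flat]; omega),
      List.getElem?_eq_none (by rw [Cap.length_flat]; omega)]

variable {q : ℕ}

/-- the main track of an item zone -/
def itS (n i : ℕ) : Sym := if i < 3 then blank else .d (n.testBit (i - 3)) false

/-- change the item of a letter -/
def setIt (y : Let q) (n : Fin q) : Let q := ⟨y.c, y.m, y.t, y.a, n⟩

/-- control, transit symbol and address -/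
def cta (x : Let q) : Ctl × Sym × Fin q := (x.c, x.t, x.a)

variable [hq : Fact (6 ≤ q)]

theorem encM_itS (y : Let (up q)) (i : ℕ) : encM q y (q + i) = itS y.it.val i := by
  have h6 := six_le (q := q)
  unfold encM itS
  rw [if_neg (by omega), if_neg (by omega), if_neg (by omega), if_neg (by omega),
    show q + i - (q + 3) = i - 3 by omega]
  simp only [Nat.add_lt_add_iff_left]

theorem encM_setIt (y : Let (up q)) (n : Fin (up q)) {p : ℕ} (hp : p < 2 * q) :
    encM q (setIt y n) p = upd q q (itS n.val) (encM q y) p := by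
  have h6 := six_le (q := q)
  by_cases h : p < q
  · rw [upd_out (by omega)]
    simp only [encM, setIt, h, if_true]
  · obtain ⟨i, rfl⟩ : ∃ i, p = q + i := ⟨p - q, by omega⟩
    rw [upd_in (by omega), encM_itS]
    rfl

theorem itS_inj {n n' : Fin (up q)} (h : ∀ i < q, itS n.val i = itS n'.val i) : n = n' := by
  have h6 := six_le (q := q)
  refine Fin.ext (Nat.eq_of_testBit_eq fun l => ?_)
  by_cases hl : l < q - 3
  · have := h (l + 3) (by omega)
    simpa [itS] using this
  · have h1 : 2 ^ (q - 3) ≤ 2 ^ l := Nat.pow_le_pow_right (by norm_num) (by omega)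
    rw [Nat.testBit_lt_two_pow (lt_of_lt_of_le n.2 h1),
      Nat.testBit_lt_two_pow (lt_of_lt_of_le n'.2 h1)]

theorem word_getI (κ : Cfg) (it : ℕ → Fin q) {p : ℕ} (hp : p < len q κ) :
    (word κ it)[p]? = some (letter κ it p) := by
  simp [word, hp]

/-- the tracks of the item zones without pointers -/
def track (μ : (St × Sym × Bool) × Fin (q + 2)) (i : Fin q) : Ctl × Sym × Fin q :=
  cta (letter ⟨μ.1.1, (if μ.1.2.2 then 3 * q else q) + μ.2.val - 1, μ.1.2.1, fun _ => false,
    fun _ => blank⟩ (adr q) ((if μ.1.2.2 then 3 * q else q) + i.val))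

theorem exists_track (κ : Cfg) (it : ℕ → Fin q) {s : ℕ} (hs : s = q ∨ s = 3 * q)
    (hf : ∀ i < q, κ.ptr (s + i) = false) :
    ∃ μ, ∀ i : Fin q, track μ i = cta (letter κ it (s + i.val)) := by
  have h6 := six_le (q := q)
  obtain ⟨b, hb⟩ : ∃ b : Bool, (if b then 3 * q else q) = s := by
    rcases hs with h | h
    · exact ⟨false, h.symm⟩
    · exact ⟨true, h.symm⟩
  obtain ⟨p, hp, h1⟩ : ∃ p, p < q + 2 ∧ ∀ i < q,
      (s + i = s + p - 1 ↔ s + i = κ.pos) ∧ (s + i < s + p - 1 ↔ s + i < κ.pos) := by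
    by_cases e1 : κ.pos < s
    · exact ⟨0, by omega, fun i hi => by omega⟩
    · by_cases e2 : κ.pos < s + q
      · exact ⟨κ.pos - s + 1, by omega, fun i hi => by omega⟩
      · exact ⟨q + 1, by omega, fun i hi => by omega⟩
  refine ⟨⟨⟨κ.st, κ.tr, b⟩, ⟨p, hp⟩⟩, fun i => ?_⟩
  obtain ⟨h2, h3⟩ := h1 i i.2
  simp only [track, cta, letter, ctlAt, dynAt, hb, hf i i.2, h2, h3]

/-- a legitimate piece and the letters it encodes -/
def Piece (κ : Cfg) (it : ℕ → Fin q) (Yp : List (Let (up q))) : Prop :=
  (κ.st.cls.two = false ∧ ∃ y, Yp = [y] ∧ Good q κ (encM q y) ∧ ItOK q it) ∨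
    (κ.st.cls.two = true ∧ ∃ y y', Yp = [y, y'] ∧ Good q κ (encT q y y') ∧ ItOK q it ∧
      ItOK q (sh q it))

theorem Piece.parse {κ : Cfg} {it : ℕ → Fin q} {Yp Y : List (Let (up q))} {w r : List (Let q)}
    (h : Piece κ it Yp) (hP : Parse w Y r) : Parse (word κ it ++ w) (Yp ++ Y) r := by
  rcases h with ⟨h1, y, rfl, h2, h3⟩ | ⟨h1, y, y', rfl, h2, h3, h4⟩
  · exact Parse.one κ it y w Y r h1 h2 h3 hP
  · exact Parse.two κ it y y' w Y r h1 h2 h3 h4 hP

omit hq in
theorem Piece.len {κ : Cfg} {it : ℕ → Fin q} {Yp : List (Let (up q))} (h : Piece κ it Yp) :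
    len q κ = 2 * q * Yp.length := by
  rcases h with ⟨h1, y, rfl, -⟩ | ⟨h1, y, y', rfl, -⟩
  · simp [Mach.len, h1]
  · simp only [Mach.len, h1, if_true, List.length_cons, List.length_nil]
    omega

theorem parse_loc {w r : List (Let q)} {Y : List (Let (up q))} (hP : Parse w Y r) {b : ℕ}
    (hb : b < Y.length) : ∃ A C Y1 Y2 κ it Yp, Piece κ it Yp ∧ w = A ++ (word κ it ++ C) ∧
      Y = Y1 ++ (Yp ++ Y2) ∧ A.length = 2 * q * Y1.length ∧ Y1.length ≤ b ∧
      b < Y1.length + Yp.length ∧ ∀ κ' it' Yp', Piece κ' it' Yp' →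
        Parse (A ++ (word κ' it' ++ C)) (Y1 ++ (Yp' ++ Y2)) r := by
  have key : ∀ (κ : Cfg) (it : ℕ → Fin q) (Yp Y : List (Let (up q))) (w r : List (Let q)) (b : ℕ),
      Piece κ it Yp → Parse w Y r → b < (Yp ++ Y).length →
      (∀ b < Y.length, ∃ A C Y1 Y2 κ it Yp, Piece κ it Yp ∧ w = A ++ (word κ it ++ C) ∧
        Y = Y1 ++ (Yp ++ Y2) ∧ A.length = 2 * q * Y1.length ∧ Y1.length ≤ b ∧
        b < Y1.length + Yp.length ∧ ∀ κ' it' Yp', Piece κ' it' Yp' →
          Parse (A ++ (word κ' it' ++ C)) (Y1 ++ (Yp' ++ Y2)) r) →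
      ∃ A C Y1 Y2 κ1 it1 Yp1, Piece κ1 it1 Yp1 ∧ word κ it ++ w = A ++ (word κ1 it1 ++ C) ∧
        Yp ++ Y = Y1 ++ (Yp1 ++ Y2) ∧ A.length = 2 * q * Y1.length ∧ Y1.length ≤ b ∧
        b < Y1.length + Yp1.length ∧ ∀ κ' it' Yp', Piece κ' it' Yp' →
          Parse (A ++ (word κ' it' ++ C)) (Y1 ++ (Yp' ++ Y2)) r := by
    intro κ it Yp Y w r b h hP hb ih
    by_cases e : b < Yp.length
    · exact ⟨[], w, [], Y, κ, it, Yp, h, rfl, rfl, rfl, Nat.zero_le _, by simpa using e,
        fun κ' it' Yp' h' => h'.parse hP⟩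
    · rw [List.length_append] at hb
      obtain ⟨A, C, Y1, Y2, κ1, it1, Yp1, h1, rfl, rfl, h4, h5, h6, h7⟩ :=
        ih (b - Yp.length) (by omega)
      refine ⟨word κ it ++ A, C, Yp ++ Y1, Y2, κ1, it1, Yp1, h1, by simp, by simp, ?_, ?_, ?_,
        fun κ' it' Yp' h' => ?_⟩
      · rw [List.length_append, List.length_append, length_word, h.len, h4, mul_add]
      · rw [List.length_append]; omega
      · rw [List.length_append]; omega
      · simpa using h.parse (h7 κ' it' Yp' h')
  induction hP generalizing b with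
  | done w => simp at hb
  | one κ it y w Y r h1 h2 h3 hP ih =>
    exact key κ it [y] Y w r b (Or.inl ⟨h1, y, rfl, h2, h3⟩) hP hb fun b hb => ih hb
  | two κ it y y' w Y r h1 h2 h3 h4 hP ih =>
    exact key κ it [y, y'] Y w r b (Or.inr ⟨h1, y, y', rfl, h2, h3, h4⟩) hP hb fun b hb => ih hb

omit hq in
theorem ItOK.upd {it f : ℕ → Fin q} (h : ItOK q it)
    (hf : ∀ i j, i < q → j < q → f i = f j → i = j) : ItOK q (upd q q f it) := by
  refine ⟨fun i j hi hj e => ?_, fun i j hi hi' hj hj' e => ?_⟩
  · rw [upd_out (by omega), upd_out (by omega)] at e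
    exact h.1 i j hi hj e
  · obtain ⟨i, rfl⟩ : ∃ i', i = q + i' := ⟨i - q, by omega⟩
    obtain ⟨j, rfl⟩ : ∃ j', j = q + j' := ⟨j - q, by omega⟩
    rw [upd_in (by omega), upd_in (by omega)] at e
    rw [hf i j (by omega) (by omega) e]

omit hq in
theorem ItOK.congr {it it' : ℕ → Fin q} (h : ItOK q it) (e : ∀ i < 2 * q, it' i = it i) :
    ItOK q it' :=
  ⟨fun i j hi hj e' => h.1 i j hi hj (by rw [← e i (by omega), ← e j (by omega), e']),
    fun i j hi hi' hj hj' e' => h.2 i j hi hi' hj hj' (by rw [← e i hi', ← e j hj', e'])⟩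

theorem Piece.zone {κ : Cfg} {it : ℕ → Fin q} {Yp : List (Let (up q))} (h : Piece κ it Yp)
    {d s : ℕ} {y : Let (up q)} (hy : Yp[d]? = some y) (hs : s = 2 * q * d + q) :
    (s = q ∨ s = 3 * q) ∧ (∀ i j, i < q → j < q → it (s + i) = it (s + j) → i = j) ∧
      ((∀ i < q, κ.ptr (s + i) = false) → (∀ i < q, κ.mn (s + i) = itS y.it.val i) ∧
        ∀ (n : Fin (up q)) (f : ℕ → Fin q), (∀ i j, i < q → j < q → f i = f j → i = j) →
          Piece (κ.upd q s (itS n.val)) (upd q s f it) (Yp.set d (setIt y n))) ∧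
      ∀ i < q, κ.ptr (s + i) = true → d ≤ 1 ∧ ∃ y0, Yp[0]? = some y0 ∧ perm y0.c := by
  have h6 := six_le (q := q)
  have hf : (∀ i < q, κ.ptr (s + i) = false) → ∀ p, s ≤ p → p < s + q → κ.ptr p = false := by
    intro h p h1 h2
    have := h (p - s) (by omega)
    rwa [show s + (p - s) = p by omega] at this
  have hl := h.len
  rcases h with ⟨h1, y0, rfl, h2, h3⟩ | ⟨h1, y0, y1, rfl, h2, h3, h4⟩
  · obtain ⟨rfl, rfl⟩ : d = 0 ∧ y0 = y := by
      cases d with
      | zero => simpa using hy
      | succ d => simp at hy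
    obtain rfl : s = q := by omega
    simp only [List.length_singleton] at hl
    refine ⟨Or.inl rfl, fun i j hi hj e => ?_, fun h0 => ⟨fun i hi => ?_, fun n f hf' => ?_⟩,
      fun i hi h0 => ⟨by omega, y0, rfl, ?_⟩⟩
    · have := h3.2 _ _ (by omega) (by omega) (by omega) (by omega) e
      omega
    · rw [← good_ext h2 (Or.inl rfl) (by omega) (hf h0) (by omega) (by omega), encM_itS]
    · refine Or.inl ⟨h1, _, rfl, (good_upd h2 (Or.inl rfl) (hf h0) _).congr fun p hp => ?_,
        h3.upd hf'⟩
      exact encM_setIt y0 n (by have : p < Mach.len s κ := hp; omega)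
    · exact good_ptr h2 (Or.inl ⟨by omega, by omega⟩) (by omega) h0
  · simp only [List.length_cons, List.length_nil] at hl
    have hd : (d = 0 ∧ y0 = y) ∨ (d = 1 ∧ y1 = y) := by
      rcases d with _ | _ | d
      · simpa using hy
      · simpa using hy
      · simp at hy
    have hp : ∀ i < q, κ.ptr (s + i) = true → d ≤ 1 ∧ ∃ y2, [y0, y1][0]? = some y2 ∧ perm y2.c := by
      intro i hi h0
      refine ⟨by omega, y0, rfl, ?_⟩
      have := good_ptr h2 (p := s + i) (by rcases hd with ⟨rfl, -⟩ | ⟨rfl, -⟩ <;> omega)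
        (by rcases hd with ⟨rfl, -⟩ | ⟨rfl, -⟩ <;> omega) h0
      rwa [encT, if_pos (by omega)] at this
    rcases hd with ⟨rfl, rfl⟩ | ⟨rfl, rfl⟩
    · obtain rfl : s = q := by omega
      refine ⟨Or.inl rfl, fun i j hi hj e => ?_, fun h0 => ⟨fun i hi => ?_, fun n f hf' => ?_⟩, hp⟩
      · have := h3.2 _ _ (by omega) (by omega) (by omega) (by omega) e
        omega
      · rw [← good_ext h2 (Or.inl rfl) (by omega) (hf h0) (by omega) (by omega), encT,
          if_pos (by omega), encM_itS]
      · refine Or.inr ⟨h1, _, _, rfl, (good_upd h2 (Or.inl rfl) (hf h0) _).congr fun p _ => ?_,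
          h3.upd hf', h4.congr fun i _ => upd_out (by omega)⟩
        by_cases e : p < 2 * s
        · simp only [encT, e, if_true, encM_setIt y0 n e, upd]
        · simp only [encT, e, if_false]
          rw [upd_out (by omega), encT, if_neg e]
    · obtain rfl : s = 3 * q := by omega
      refine ⟨Or.inr rfl, fun i j hi hj e => ?_, fun h0 => ⟨fun i hi => ?_, fun n f hf' => ?_⟩, hp⟩
      · have := h4.2 (q + i) (q + j) (by omega) (by omega) (by omega) (by omega) (by
          simp only [sh]
          rwa [show q + i + 2 * q = 3 * q + i by omega, show q + j + 2 * q = 3 * q + j by omega])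
        omega
      · rw [← good_ext h2 (Or.inr rfl) (by omega) (hf h0) (by omega) (by omega), encT,
          if_neg (by omega), show 3 * q + i - 2 * q = q + i by omega, encM_itS]
      · refine Or.inr ⟨h1, _, _, rfl, (good_upd h2 (Or.inr rfl) (hf h0) _).congr fun p hp => ?_,
          h3.congr fun i _ => upd_out (by omega), (h4.upd hf').congr fun i _ => ?_⟩
        · have hp' : p < Mach.len q κ := hp
          by_cases e : p < 2 * q
          · simp only [encT, e, if_true]
            rw [upd_out (by omega), encT, if_pos e]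
          · simp only [encT, e, if_false, upd]
            rw [encM_setIt y1 n (by omega), upd]
            by_cases e' : 3 * q ≤ p
            · rw [if_pos (by omega), if_pos (by omega), show p - 2 * q - q = p - 3 * q by omega]
            · rw [if_neg (by omega), if_neg (by omega)]
        · simp only [sh, upd]
          by_cases e' : q ≤ i ∧ i < q + q
          · rw [if_pos (by omega), if_pos e', show i + 2 * q - 3 * q = i - q by omega]
          · rw [if_neg (by omega), if_neg e']

theorem zone_loc {M : ℕ} {z : Fin M → Fin q → Let q} {Y : List (Let (up q))} {r : List (Let q)}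
    (hP : Parse (flat z) Y r) {k : Fin M} {b : ℕ} (hk : k.val = 2 * b + 1) {y : Let (up q)}
    (hy : Y[b]? = some y) :
    (Function.Injective fun i => (z k i).it) ∧
      ((∀ i, (z k i).c.ptr = false) → (∀ i : Fin q, (z k i).m = itS y.it.val i.val) ∧
        (∃ μ, track μ = fun i => cta (z k i)) ∧
        ∀ (v : Fin q → Let q) (n : Fin (up q)), (∀ i, cta (v i) = cta (z k i)) →
          (∀ i : Fin q, (v i).m = itS n.val i.val) → (Function.Injective fun i => (v i).it) →
          Parse (flat (Function.update z k v)) (Y.set b (setIt y n)) r) ∧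
      ∀ i, (z k i).c.ptr = true →
        perm y.c ∨ ∃ b' y', b = b' + 1 ∧ Y[b']? = some y' ∧ perm y'.c := by
  have hb : b < Y.length := (List.getElem?_eq_some_iff.1 hy).1
  obtain ⟨A, C, Y1, Y2, κ, it, Yp, h1, h2, rfl, h4, h5, h6, h7⟩ := parse_loc hP hb
  obtain ⟨d, rfl⟩ : ∃ d, b = Y1.length + d := ⟨b - Y1.length, by omega⟩
  have hd : d < Yp.length := by omega
  rw [List.getElem?_append_right (by omega), Nat.add_sub_cancel_left,
    List.getElem?_append_left hd] at hy
  obtain ⟨s, hs⟩ : ∃ s, s = 2 * q * d + q := ⟨_, rfl⟩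
  obtain ⟨g1, g2, g3, g4⟩ := h1.zone hy hs
  have hl : s + q ≤ len q κ := by
    rw [h1.len, hs]
    calc 2 * q * d + q + q = 2 * q * (d + 1) := by ring
      _ ≤ _ := Nat.mul_le_mul_left _ hd
  have hA : q * k.val = A.length + s := by rw [hk, h4, hs]; ring
  have hz : ∀ i : Fin q, z k i = letter κ it (s + i.val) := by
    intro i
    have e := flat_get z k i
    have := i.2
    rw [h2, hA, List.getElem?_append_right (by omega),
      List.getElem?_append_left (by rw [length_word]; omega),
      show A.length + s + i.val - A.length = s + i.val by omega, word_getI κ it (by omega)] at e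
    exact (Option.some.inj e).symm
  refine ⟨fun i j e => ?_, fun h0 => ?_, fun i h0 => ?_⟩
  · simp only [hz] at e
    exact Fin.ext (g2 _ _ i.2 j.2 e)
  · have h0' : ∀ i < q, κ.ptr (s + i) = false := fun i hi => by
      have := h0 ⟨i, hi⟩
      rwa [hz] at this
    obtain ⟨g5, g6⟩ := g3 h0'
    refine ⟨fun i => by rw [hz]; exact g5 i i.2, ?_, fun v n v1 v2 v3 => ?_⟩
    · obtain ⟨μ, hμ⟩ := exists_track κ it g1 h0'
      exact ⟨μ, funext fun i => by rw [hμ, hz]⟩
    · obtain ⟨f, hf⟩ : ∃ f : ℕ → Fin q, ∀ i (h : i < q), f i = (v ⟨i, h⟩).it :=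
        ⟨fun i => if h : i < q then (v ⟨i, h⟩).it else adr q 0, fun i h => dif_pos h⟩
      have g7 := h7 _ _ _ (g6 n f fun i j hi hj e => by
        rw [hf i hi, hf j hj] at e
        exact congrArg Fin.val (v3 e))
      rw [List.set_append_right _ _ (by omega), Nat.add_sub_cancel_left,
        List.set_append_left _ _ hd]
      suffices e : flat (Function.update z k v) =
          A ++ (word (κ.upd q s (itS n.val)) (upd q s f it) ++ C) by rwa [e]
      refine splice (s := s) (q := q) (W := word κ it) (by rw [length_word, length_word]; rfl)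
        (by rwa [length_word]) (fun p hp => ?_) (fun p hp => ?_) (fun i hi => ?_)
      · rw [← h2]
        exact flat_update z k v (by rwa [hA])
      · by_cases e : p < len q κ
        · rw [word_getI _ _ e, word_getI (κ.upd q s (itS n.val)) _ e]
          simp only [letter, Cfg.upd, upd_out hp]
          rfl
        · rw [List.getElem?_eq_none (by rw [length_word]; exact Nat.le_of_not_lt e),
            List.getElem?_eq_none (by rw [length_word]; exact Nat.le_of_not_lt e)]
      · have e := flat_get (Function.update z k v) k ⟨i, hi⟩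
        rw [hA] at e
        rw [e, Function.update_self,
          word_getI (κ.upd q s (itS n.val)) _ (show s + i < len q κ by omega)]
        have e1 := v1 ⟨i, hi⟩
        have e2 := v2 ⟨i, hi⟩
        rw [hz] at e1
        simp only [cta, letter, Prod.mk.injEq] at e1
        simp only [letter, Cfg.upd, upd_in hi, hf i hi]
        congr 1
        generalize v ⟨i, hi⟩ = x at e1 e2
        obtain ⟨c, m, t, a, i'⟩ := x
        obtain ⟨rfl, rfl, rfl⟩ := e1
        obtain rfl := e2
        rfl
  · rw [hz] at h0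
    obtain ⟨g5, y0, g6, g7⟩ := g4 i i.2 h0
    rcases d with _ | _ | d
    · rw [hy] at g6
      obtain rfl := Option.some.inj g6
      exact Or.inl g7
    · refine Or.inr ⟨Y1.length, y0, rfl, ?_, g7⟩
      rw [List.getElem?_append_right le_rfl, Nat.sub_self, List.getElem?_append_left (by omega), g6]
    · omega

end Vale.Agent.P192Z.Mach
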