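import Vale.Agent.P192Z.Mach.SoundOne

/-!
# P192: the simulation is faithful
-/

set_option linter.unusedSimpArgs false
set_option linter.unusedVariables false
set_option linter.unusedSectionVars false

namespace Vale.Agent.P192Z.Mach

theorem rel_two {q : ℕ} {x y x' y' : Let q} (h : Rel [x, y] [x', y']) :
    (∃ c c' d d' m t a i m' t' a' i', Mv c c' d d' ∧ x = ⟨c, m, t, a, i⟩ ∧
      y = ⟨c', m', t', a', i'⟩ ∧ x' = ⟨d, m, t', a, i⟩ ∧ y' = ⟨d', m', t, a', i'⟩) ∨
    (perm x.c ∧ x' = ⟨x.c, x.m, x.t, x.a, y.it⟩ ∧ y' = ⟨y.c, y.m, y.t, y.a, x.it⟩) := by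
  cases h with
  | mv c c' d d' m t a i m' t' a' i' h =>
    exact Or.inl ⟨_, _, _, _, _, _, _, _, _, _, _, _, h, rfl, rfl, rfl, rfl⟩
  | sw c m t a i c' m' t' a' i' h => exact Or.inr ⟨h, rfl, rfl⟩

theorem rel_shape {q : ℕ} {u v : List (Let q)} (h : Rel u v) :
    (∃ x x', u = [x] ∧ v = [x']) ∨ ∃ x y x' y', u = [x, y] ∧ v = [x', y'] := by
  cases h
  · exact Or.inl ⟨_, _, rfl, rfl⟩
  · exact Or.inl ⟨_, _, rfl, rfl⟩
  · exact Or.inr ⟨_, _, _, _, rfl, rfl⟩
  · exact Or.inr ⟨_, _, _, _, rfl, rfl⟩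

theorem roleL_inj {c : Cls} (h : c.two = true) {a b : Bool} (e : roleL c a = roleL c b) :
    a = b := by
  cases c <;> cases a <;> cases b <;> simp [Cls.two, roleL] at h e ⊢

theorem roleR_inj {a b : Bool} (e : roleR .main a = roleR .main b) : a = b := by
  cases a <;> cases b <;> simp [roleR] at e ⊢

variable {q : ℕ} [hq : Fact (6 ≤ q)]

theorem letter_L {κ : Cfg} {it : ℕ → Fin q} {i : ℕ} {zn : Zn} {fl : Fl} {π : Bool} {r : Role}
    {m t : Sym} {a b : Fin q} (h : letter κ it i = ⟨⟨zn, fl, π, .L r⟩, m, t, a, b⟩) :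
    i < κ.pos ∧ zn = znAt q i ∧ fl = flAt q i ∧ π = κ.ptr i ∧ r = roleL κ.st.cls (side q i) ∧
      m = κ.mn i ∧ t = blank ∧ a = adr q i ∧ b = it i := by
  have h1 : dynAt q κ i = .L r := congrArg (fun x => x.c.dyn) h
  have h2 : i < κ.pos := by
    unfold dynAt at h1
    split_ifs at h1
    assumption
  rw [letter_left κ it h2] at h
  simp only [Let.mk.injEq, Ctl.mk.injEq, Dyn.L.injEq] at h
  obtain ⟨⟨rfl, rfl, rfl, rfl⟩, rfl, rfl, rfl, rfl⟩ := h
  simp [h2]

theorem letter_R {κ : Cfg} {it : ℕ → Fin q} {i : ℕ} {zn : Zn} {fl : Fl} {π : Bool} {r : Role}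
    {m t : Sym} {a b : Fin q} (h : letter κ it i = ⟨⟨zn, fl, π, .R r⟩, m, t, a, b⟩) :
    κ.pos < i ∧ zn = znAt q i ∧ fl = flAt q i ∧ π = κ.ptr i ∧ r = roleR κ.st.cls (side q i) ∧
      m = κ.mn i ∧ t = blank ∧ a = adr q i ∧ b = it i := by
  have h1 : dynAt q κ i = .R r := congrArg (fun x => x.c.dyn) h
  have h2 : κ.pos < i := by
    unfold dynAt at h1
    split_ifs at h1
    omega
  rw [letter_right κ it h2] at h
  simp only [Let.mk.injEq, Ctl.mk.injEq, Dyn.R.injEq] at h
  obtain ⟨⟨rfl, rfl, rfl, rfl⟩, rfl, rfl, rfl, rfl⟩ := h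
  simp [h2]

theorem word_set2 {κ κ' : Cfg} {it it' : ℕ → Fin q} (hl : len q κ = len q κ') {i : ℕ}
    (hi : i + 1 < len q κ) {x y : Let q} (hx : letter κ' it' i = x)
    (hy : letter κ' it' (i + 1) = y)
    (h : ∀ j < len q κ, j ≠ i → j ≠ i + 1 → letter κ it j = letter κ' it' j) :
    word κ' it' = ((word κ it).set i x).set (i + 1) y := by
  refine eq_set2 (by rw [length_word, length_word, hl]) ?_ ?_ fun j hj e e' => ?_
  · rw [word_get _ _ (by omega), hx]
  · rw [word_get _ _ (by omega), hy]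
  · rw [length_word] at hj
    rw [word_get _ _ (hl ▸ hj), word_get _ _ hj, h j hj e e']

/-- letters of the two halves after crossing -/
theorem cross_get {κ : Cfg} (h1 : κ.st = .LK2) (h2 : κ.pos = 2 * q) (it : ℕ → Fin q)
    {j : ℕ} (hj : j < 4 * q) (a : j ≠ 2 * q - 1) (b : j ≠ 2 * q) :
    (word (crossL q κ) it ++ word (crossR q κ) (sh q it))[j]? = (word κ it)[j]? := by
  have h6 := six_le (q := q)
  have hl : len q κ = 4 * q := by simp [len, h1, St.cls, Cls.two]
  have hL : len q (crossL q κ) = 2 * q := rfl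
  have hR : len q (crossR q κ) = 2 * q := rfl
  rw [word_get κ it (by omega)]
  by_cases hj2 : j < 2 * q
  · have hs : side q j = false := (side_false j).2 hj2
    rw [List.getElem?_append_left (by rw [length_word]; omega), word_get _ _ (by omega),
      letter_left κ it (by omega), letter_left _ it (by simp only [crossL]; omega)]
    simp [crossL, h1, hs, St.cls, roleL]
  · obtain ⟨l, rfl⟩ : ∃ l, j = l + 2 * q := ⟨j - 2 * q, by omega⟩
    have hl2 : l < 2 * q := by omega
    rw [List.getElem?_append_right (by rw [length_word]; omega), length_word, hL,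
      Nat.add_sub_cancel, word_get _ _ (by omega),
      letter_right κ it (by omega), letter_right _ _ (by simp only [crossR]; omega),
      znAt_shift hl2, flAt_shift hl2, adr_shift hl2]
    simp [crossR, sh, h1, St.cls, roleR]

theorem cross_getL (κ : Cfg) (it : ℕ → Fin q) :
    (word (crossL q κ) it ++ word (crossR q κ) (sh q it))[2 * q - 1]? =
      some ⟨⟨znAt q (2 * q - 1), flAt q (2 * q - 1), κ.ptr (2 * q - 1), .H .LK1 false⟩,
        κ.mn (2 * q - 1), κ.tr, adr q (2 * q - 1), it (2 * q - 1)⟩ := by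
  have h6 := six_le (q := q)
  have hL : len q (crossL q κ) = 2 * q := rfl
  rw [List.getElem?_append_left (by rw [length_word]; omega), word_get _ _ (by omega),
    letter_head (crossL q κ) it (i := 2 * q - 1) rfl, (side_false _).2 (by omega)]
  rfl

theorem cross_getR (κ : Cfg) (it : ℕ → Fin q) :
    (word (crossL q κ) it ++ word (crossR q κ) (sh q it))[2 * q]? =
      some ⟨⟨znAt q (2 * q), flAt q (2 * q), κ.ptr (2 * q), .H .W false⟩,
        κ.mn (2 * q), blank, adr q (2 * q), it (2 * q)⟩ := by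
  have h6 := six_le (q := q)
  have hL : len q (crossL q κ) = 2 * q := rfl
  have hR : len q (crossR q κ) = 2 * q := rfl
  have z0 := znAt_shift (q := q) (i := 0) (by omega)
  have f0 := flAt_shift (q := q) (i := 0) (by omega)
  have a0 := adr_shift (q := q) (i := 0) (by omega)
  rw [Nat.zero_add] at z0 f0 a0
  rw [List.getElem?_append_right (by rw [length_word]; omega), length_word, hL, Nat.sub_self,
    word_get _ _ (by omega), letter_head (crossR q κ) _ (i := 0) rfl, (side_false _).2 (by omega),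
    z0, f0, a0]
  simp [crossR, sh]

/-- a move read from left to right -/
theorem mv_fwd {κ : Cfg} (hv : Valid q κ) (it : ℕ → Fin q) {i : ℕ} (hi : i + 1 < len q κ)
    {c c' d d' : Ctl} {m t m' t' : Sym} {a b a' b' : Fin q} (h : Mv c c' d d')
    (e1 : letter κ it i = ⟨c, m, t, a, b⟩) (e2 : letter κ it (i + 1) = ⟨c', m', t', a', b'⟩) :
    (∃ κ', Keep q κ κ' ∧
      word κ' it = ((word κ it).set i ⟨d, m, t', a, b⟩).set (i + 1) ⟨d', m', t, a', b'⟩) ∨
    (κ.st = .LK2 ∧ κ.pos = 2 * q ∧ word (crossL q κ) it ++ word (crossR q κ) (sh q it) =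
      ((word κ it).set i ⟨d, m, t', a, b⟩).set (i + 1) ⟨d', m', t, a', b'⟩) := by
  have h6 := six_le (q := q)
  have hl := len_le (q := q) κ
  obtain ⟨st, pos, tr, ptr, mn⟩ := κ
  cases h with
  | right zn fl π zn' fl' π' s sd ha =>
    obtain ⟨h0, rfl, rfl, rfl, rfl, rfl, rfl, rfl, rfl, rfl⟩ := letter_H e1
    obtain ⟨-, rfl, rfl, rfl, -, rfl, rfl, rfl, rfl⟩ := letter_R e2
    simp only at h0
    subst h0
    have hw' : hw q ⟨s, i, t, ptr, mn⟩ = some ⟨s, i + 1, t, ptr, mn⟩ := by
      have ha' : actAt q ⟨s, i, t, ptr, mn⟩ = .right := ha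
      unfold hw; rw [ha']
    refine Or.inl ⟨_, (keep_hw hv hw').1, word_set2 (by rfl) hi ?_ ?_
      fun j _ h1 h2 => letter_away it rfl (by simp only; omega) rfl rfl⟩
    · rw [letter_left _ it (by simp)]
    · rw [letter_head _ it (by simp), side_succ (by omega)]
  | left zn fl π zn' fl' π' s sd s' ha =>
    obtain ⟨h0, rfl, rfl, rfl, rfl, rfl, rfl, rfl, rfl, rfl⟩ := letter_H e2
    obtain ⟨-, rfl, rfl, rfl, -, rfl, rfl, rfl, rfl⟩ := letter_L e1
    simp only at h0
    subst h0
    have hc := act_left_cls (Or.inl ha)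
    have hw' : hw q ⟨s, i + 1, t', ptr, mn⟩ = some ⟨s', i, t', ptr, mn⟩ := by
      have ha' : actAt q ⟨s, i + 1, t', ptr, mn⟩ = .left s' := ha
      unfold hw; rw [ha']; rfl
    refine Or.inl ⟨_, (keep_hw hv hw').1, word_set2 (len_eq (by simp only [hc])) hi ?_ ?_
      fun j _ h1 h2 => letter_away it hc (by simp only; omega) rfl rfl⟩
    · rw [letter_head _ it (by simp), side_pred (i := i)]
    · rw [letter_right _ it (by simp)]
      simp only [hc]
  | lshift zn fl zn' fl' π' s sd s' ha =>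
    obtain ⟨h0, rfl, rfl, rfl, rfl, rfl, rfl, rfl, rfl, rfl⟩ := letter_H e2
    obtain ⟨-, rfl, rfl, hp, -, rfl, rfl, rfl, rfl⟩ := letter_L e1
    simp only at h0 hp
    subst h0
    have hc := act_left_cls (Or.inr ha)
    have hw' : hw q ⟨s, i + 1, t', ptr, mn⟩ =
        some ⟨s', i, t', put (put ptr i true) (i + 1) false, mn⟩ := by
      have ha' : actAt q ⟨s, i + 1, t', ptr, mn⟩ = .lshift s' := ha
      unfold hw; rw [ha']
      simp [← hp]
    refine Or.inl ⟨_, (keep_hw hv hw').1, word_set2 (len_eq (by simp only [hc])) hi ?_ ?_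
      fun j _ h1 h2 => letter_away it hc (by simp only; omega) (by simp [put, h1, h2]) rfl⟩
    · rw [letter_head _ it (by simp), side_pred (i := i)]
      simp [put]
    · rw [letter_right _ it (by simp)]
      simp [put, hc]
  | cross zn fl π zn' fl' π' s sd ha =>
    obtain ⟨h0, rfl, rfl, rfl, rfl, rfl, rfl, rfl, rfl, rfl⟩ := letter_H e2
    obtain ⟨-, rfl, rfl, rfl, -, rfl, rfl, rfl, rfl⟩ := letter_L e1
    simp only at h0
    subst h0
    obtain ⟨h1, h2⟩ := (cross_iff hv).1 ha
    simp only at h1 h2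
    obtain rfl : i = 2 * q - 1 := by omega
    have hl4 : len q ⟨s, 2 * q - 1 + 1, t', ptr, mn⟩ = 4 * q := by simp [len, h1, St.cls, Cls.two]
    refine Or.inr ⟨h1, h2, eq_set2 ?_ (cross_getL _ _) ?_ fun j hj a b => ?_⟩
    · rw [List.length_append, length_word, length_word, length_word, hl4]
      show 2 * q + 2 * q = _
      omega
    · simp only [h2]
      exact cross_getR _ _
    · rw [length_word, hl4] at hj
      exact cross_get h1 h2 it hj a (by omega)

/-- a move read from right to left -/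
theorem mv_bwd {κ : Cfg} (hv : Valid q κ) (it : ℕ → Fin q) {i : ℕ} (hi : i + 1 < len q κ)
    {c c' d d' : Ctl} {m t m' t' : Sym} {a b a' b' : Fin q} (h : Mv c c' d d')
    (e1 : letter κ it i = ⟨d, m, t', a, b⟩) (e2 : letter κ it (i + 1) = ⟨d', m', t, a', b'⟩) :
    ∃ κ', Keep q κ κ' ∧
      word κ' it = ((word κ it).set i ⟨c, m, t, a, b⟩).set (i + 1) ⟨c', m', t', a', b'⟩ := by
  have h6 := six_le (q := q)
  have hl := len_le (q := q) κ
  have hlc := len_cases (q := q) κ
  obtain ⟨st, pos, tr, ptr, mn⟩ := κ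
  have side_ok : ∀ {zn fl π s sd}, act zn fl π s sd ≠ .dead → s.cls = st.cls → i = pos →
      roleR s.cls sd = roleR st.cls (side q (i + 1)) → sd = side q (i + 1) := by
    intro zn fl π s sd ha hc hp hr
    obtain ⟨l1, l2⟩ := act_live ha
    cases hs : s.cls with
    | main =>
      rw [← hc, hs] at hr
      exact roleR_inj hr
    | lk2 =>
      have := hv.2 (cls_lk2 (hc ▸ hs))
      rw [l2 (cls_lk2 hs), (side_true _).2 (by simp only at this; omega)]
    | solo =>
      rw [l1 (by rw [hs]; rfl), (side_false _).2]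
      rcases hlc with h | h
      · simp only [← hc, hs, Cls.two] at h; simp at h
      · omega
    | lk1 =>
      rw [l1 (by rw [hs]; rfl), (side_false _).2]
      rcases hlc with h | h
      · simp only [← hc, hs, Cls.two] at h; simp at h
      · omega
  cases h with
  | right zn fl π zn' fl' π' s sd ha =>
    obtain ⟨h0, rfl, rfl, rfl, rfl, -, rfl, rfl, rfl, rfl⟩ := letter_H e2
    obtain ⟨-, rfl, rfl, rfl, hr, rfl, rfl, rfl, rfl⟩ := letter_L e1
    simp only at h0 hr
    subst h0
    obtain rfl : sd = side q i := by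
      rcases hlc with h | h
      · exact roleL_inj h.1 hr
      · rw [(act_live (sd := sd) (by rw [ha]; simp)).1 h.1, (side_false _).2 (by omega)]
    have hv' : Valid q ⟨s, i, t, ptr, mn⟩ :=
      ⟨lt_trans (Nat.lt_succ_self i) hi, fun e => absurd e (act_right_ne ha)⟩
    have hw' : hw q ⟨s, i, t, ptr, mn⟩ = some ⟨s, i + 1, t, ptr, mn⟩ := by
      have ha' : actAt q ⟨s, i, t, ptr, mn⟩ = .right := ha
      unfold hw; rw [ha']
    refine ⟨_, (keep_hw hv' hw').2, word_set2 (by rfl) hi ?_ ?_
      fun j _ h1 h2 => letter_away it rfl (by simp only; omega) rfl rfl⟩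
    · rw [letter_head _ it (by simp)]
    · rw [letter_right _ it (by simp), side_succ (by omega)]
  | left zn fl π zn' fl' π' s sd s' ha =>
    obtain ⟨h0, rfl, rfl, rfl, rfl, -, rfl, rfl, rfl, rfl⟩ := letter_H e1
    obtain ⟨-, rfl, rfl, rfl, hr, rfl, rfl, rfl, rfl⟩ := letter_R e2
    simp only at h0 hr
    have hc := act_left_cls (Or.inl ha)
    obtain rfl := side_ok (by rw [ha]; simp) hc.symm h0 hr
    subst h0
    have hv' : Valid q ⟨s, i + 1, t', ptr, mn⟩ := by
      refine ⟨?_, fun e => ?_⟩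
      · rwa [← len_eq (κ := ⟨s', i, t', ptr, mn⟩) (by simp only [hc])]
      · exact (side_true _).1 ((act_live (by rw [ha]; simp)).2 e)
    have hw' : hw q ⟨s, i + 1, t', ptr, mn⟩ = some ⟨s', i, t', ptr, mn⟩ := by
      have ha' : actAt q ⟨s, i + 1, t', ptr, mn⟩ = .left s' := ha
      unfold hw; rw [ha']; rfl
    refine ⟨_, (keep_hw hv' hw').2, word_set2 (len_eq (by simp only [hc])) hi ?_ ?_
      fun j _ h1 h2 => letter_away it hc.symm (by simp only; omega) rfl rfl⟩
    · rw [letter_left _ it (by simp), side_pred (i := i)]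
    · rw [letter_head _ it (by simp)]
  | lshift zn fl zn' fl' π' s sd s' ha =>
    obtain ⟨h0, rfl, rfl, p1, rfl, -, rfl, rfl, rfl, rfl⟩ := letter_H e1
    obtain ⟨-, rfl, rfl, p2, hr, rfl, rfl, rfl, rfl⟩ := letter_R e2
    simp only at h0 hr p1 p2
    have hc := act_left_cls (Or.inr ha)
    obtain rfl := side_ok (by rw [ha]; simp) hc.symm h0 hr
    subst h0
    obtain rfl := act_lshift_true ha
    have hv' : Valid q ⟨s, i + 1, t', put (put ptr i false) (i + 1) true, mn⟩ := by
      refine ⟨?_, fun e => ?_⟩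
      · rwa [← len_eq (κ := ⟨s', i, t', ptr, mn⟩) (by simp only [hc])]
      · exact (side_true _).1 ((act_live (by rw [ha]; simp)).2 e)
    have hw' : hw q ⟨s, i + 1, t', put (put ptr i false) (i + 1) true, mn⟩ =
        some ⟨s', i, t', ptr, mn⟩ := by
      have ha' : actAt q ⟨s, i + 1, t', put (put ptr i false) (i + 1) true, mn⟩ = .lshift s' := by
        simp only [actAt, put_same, ha]
      unfold hw; rw [ha']
      have e : put (put (put (put ptr i false) (i + 1) true) i true) (i + 1) false = ptr := by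
        funext j
        unfold put
        split_ifs with a b
        · rw [a, ← p2]
        · rw [b, ← p1]
        · rfl
      simp only [Nat.add_sub_cancel, e]
      rw [if_neg (by simp [put])]
    refine ⟨_, (keep_hw hv' hw').2, word_set2 (len_eq (by simp only [hc])) hi ?_ ?_
      fun j _ h1 h2 => letter_away it hc.symm (by simp only; omega) (by simp [put, h1, h2]) rfl⟩
    · rw [letter_left _ it (by simp), side_pred (i := i)]
      simp [put]
    · rw [letter_head _ it (by simp)]
      simp [put]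
  | cross zn fl π zn' fl' π' s sd ha =>
    have h1 := (letter_H e1).1
    have h2 := (letter_H e2).1
    omega

/-- exchange of items -/
theorem sw_step {κ : Cfg} (it : ℕ → Fin q) {i : ℕ} (hi : i + 1 < len q κ)
    (h : perm (letter κ it i).c) : κ.st = .W ∧ SameZone q i (i + 1) ∧
      word κ (it ∘ Equiv.swap i (i + 1)) = ((word κ it).set i
        ⟨(letter κ it i).c, (letter κ it i).m, (letter κ it i).t, (letter κ it i).a,
          (letter κ it (i + 1)).it⟩).set (i + 1)
        ⟨(letter κ it (i + 1)).c, (letter κ it (i + 1)).m, (letter κ it (i + 1)).t,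
          (letter κ it (i + 1)).a, (letter κ it i).it⟩ := by
  have h6 := six_le (q := q)
  obtain ⟨h1, h2⟩ := h
  obtain ⟨hp, hs, -⟩ := dynAt_H (q := q) h1
  have h3 : len q κ = 2 * q := by simp [len, ← hs, St.cls, Cls.two]
  have h4 : ¬ (i + 1 = q ∨ i + 1 = 2 * q ∨ i + 1 = 3 * q ∨ i + 1 = 4 * q) := by
    rw [← flAt_last]; exact h2
  refine ⟨hs.symm, by unfold SameZone; omega, word_set2 rfl hi ?_ ?_ fun j _ a b => ?_⟩
  · simp [letter]
  · simp [letter]
  · simp [letter, Equiv.swap_apply_of_ne_of_ne a b]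

/-- a relation of degree two inside a piece -/
theorem two_step {κ : Cfg} (hv : Valid q κ) (it : ℕ → Fin q) {i : ℕ} (hi : i + 1 < len q κ)
    {x y : Let q} (h : Rel [letter κ it i, letter κ it (i + 1)] [x, y] ∨
      Rel [x, y] [letter κ it i, letter κ it (i + 1)]) :
    (∃ κ', Keep q κ κ' ∧ word κ' it = ((word κ it).set i x).set (i + 1) y) ∨
    (κ.st = .LK2 ∧ κ.pos = 2 * q ∧ word (crossL q κ) it ++ word (crossR q κ) (sh q it) =
      ((word κ it).set i x).set (i + 1) y) ∨
    (κ.st = .W ∧ SameZone q i (i + 1) ∧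
      word κ (it ∘ Equiv.swap i (i + 1)) = ((word κ it).set i x).set (i + 1) y) := by
  rcases h with h | h
  · rcases rel_two h with ⟨c, c', d, d', m, t, a, b, m', t', a', b', hm, e1, e2, rfl, rfl⟩ |
      ⟨hp, rfl, rfl⟩
    · rcases mv_fwd hv it hi hm e1 e2 with h | h
      · exact Or.inl h
      · exact Or.inr (Or.inl h)
    · exact Or.inr (Or.inr (sw_step it hi hp))
  · rcases rel_two h with ⟨c, c', d, d', m, t, a, b, m', t', a', b', hm, rfl, rfl, e1, e2⟩ |
      ⟨hp, e1, e2⟩
    · exact Or.inl (mv_bwd hv it hi hm e1 e2)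
    · have := sw_step it hi (by rw [e1]; exact hp)
      rw [e1, e2] at this
      exact Or.inr (Or.inr this)

/-- join two functions at the end of the first block -/
def join {α : Type} (q : ℕ) (f g : ℕ → α) : ℕ → α := fun i => if i < 2 * q then f i else g (i - 2 * q)

omit hq in
theorem join_lo {α : Type} (f g : ℕ → α) {i : ℕ} (h : i < 2 * q) : join q f g i = f i := if_pos h

omit hq in
theorem sh_join {α : Type} (f g : ℕ → α) : sh q (join q f g) = g := by
  funext i
  simp [sh, join]

/-- a relation of degree two across a cut -/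
theorem cut_step {κ κ' : Cfg} (hv : Valid q κ) (hv' : Valid q κ') (it it' : ℕ → Fin q) {i : ℕ}
    (hi : i + 1 = len q κ) {x y : Let q} (h : Rel [letter κ it i, letter κ' it' 0] [x, y] ∨
      Rel [x, y] [letter κ it i, letter κ' it' 0]) :
    κ.st = .LK1 ∧ κ.pos = 2 * q - 1 ∧ κ'.st = .W ∧ κ'.pos = 0 ∧ i = 2 * q - 1 ∧
      x = ⟨⟨znAt q i, flAt q i, κ.ptr i, .L .F⟩, κ.mn i, κ'.tr, adr q i, it i⟩ ∧
      y = ⟨⟨znAt q 0, flAt q 0, κ'.ptr 0, .H .LK2 true⟩, κ'.mn 0, κ.tr, adr q 0, it' 0⟩ := by
  have h6 := six_le (q := q)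
  have hlc := len_cases (q := q) κ
  have hp := hv.1
  have np : ¬ perm (letter κ it i).c := fun h => h.2 ((flAt_last i).2 (by omega))
  rcases h with h | h
  · exfalso
    rcases rel_two h with ⟨c, c', d, d', m, t, a, b, m', t', a', b', hm, e1, e2, -, -⟩ |
      ⟨hp, -, -⟩
    · cases hm with
      | right => have := (letter_R e2).1; omega
      | left => have := (letter_L e1).1; omega
      | lshift => have := (letter_L e1).1; omega
      | cross => have := (letter_L e1).1; omega
    · exact np hp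
  · rcases rel_two h with ⟨c, c', d, d', m, t, a, b, m', t', a', b', hm, rfl, rfl, e1, e2⟩ |
      ⟨hp, e1, -⟩
    · cases hm with
      | right => have := (letter_L e1).1; omega
      | left => have := (letter_R e2).1; omega
      | lshift => have := (letter_R e2).1; omega
      | cross zn fl π zn' fl' π' s sd ha =>
        obtain ⟨rfl, rfl⟩ := act_cross_eq ha
        obtain ⟨h0, rfl, rfl, rfl, h1, -, rfl, rfl, rfl, rfl⟩ := letter_H e1
        obtain ⟨h2, rfl, rfl, rfl, h3, -, rfl, rfl, rfl, rfl⟩ := letter_H e2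
        have : len q κ = 2 * q := by simp [len, ← h1, St.cls, Cls.two]
        refine ⟨h1.symm, by omega, h3.symm, h2.symm, by omega, by rw [h0], by rw [← h2]⟩
    · exact absurd (by rw [e1]; exact hp) np

theorem good_split {κ : Cfg} (h1 : κ.st = .LK2) {y z : Let (up q)} (hg : Good q κ (encT q y z)) :
    Good q (crossL q κ) (encM q y) ∧ Good q (crossR q κ) (encM q z) := by
  have h6 := six_le (q := q)
  unfold Good at hg
  rw [h1] at hg
  obtain ⟨-, -, a2, a3, a4⟩ := hg
  rw [eqT_encT] at a4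
  exact ⟨⟨by simp only [crossL]; omega, fun i hi => a2 i (by omega), a3, a4.1⟩,
    ⟨by simp only [crossR]; omega, fun i hi => a2 _ (by omega), rfl, a4.2⟩⟩

theorem good_join {κ κ' : Cfg} (h1 : κ.st = .LK1) (h2 : κ'.st = .W) {y z : Let (up q)}
    (hg : Good q κ (encM q y)) (hg' : Good q κ' (encM q z)) :
    κ.tr = blank ∧ κ'.tr = blank ∧
      Good q ⟨.LK2, 2 * q, blank, join q κ.ptr κ'.ptr, join q κ.mn κ'.mn⟩ (encT q y z) := by
  have h6 := six_le (q := q)
  unfold Good at hg hg'
  rw [h1] at hg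
  rw [h2] at hg'
  obtain ⟨-, a2, a3, a4⟩ := hg
  obtain ⟨-, b2, b3, b4⟩ := hg'
  refine ⟨a3, b3, le_rfl, by simp only; omega, fun i hi => ?_, rfl, ?_⟩
  · simp only [join]
    split_ifs with h
    · exact a2 i h
    · exact b2 _ (by omega)
  · rw [eqT_encT]
    simp only [sh_join]
    exact ⟨fun i hi => by rw [join_lo _ _ hi]; exact a4 i hi, b4⟩

omit hq in
theorem ItOK.congrS {it it' : ℕ → Fin q} (h : ItOK q it) (e : ∀ i < 2 * q, it' i = it i) :
    ItOK q it' :=
  ⟨fun i j hi hj h' => h.1 i j hi hj (by rwa [e i (by omega), e j (by omega)] at h'),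
   fun i j a hi b hj h' => h.2 i j a hi b hj (by rwa [e i hi, e j hj] at h')⟩

/-- the word after the merging step -/
theorem join_word {κ κ' : Cfg} (h1 : κ.st = .LK1) (p1 : κ.pos = 2 * q - 1) (h2 : κ'.st = .W)
    (p2 : κ'.pos = 0) (t1 : κ.tr = blank) (t2 : κ'.tr = blank) (it it' : ℕ → Fin q) :
    word ⟨.LK2, 2 * q, blank, join q κ.ptr κ'.ptr, join q κ.mn κ'.mn⟩ (join q it it') =
      ((word κ it ++ word κ' it').set (2 * q - 1)
        ⟨⟨znAt q (2 * q - 1), flAt q (2 * q - 1), κ.ptr (2 * q - 1), .L .F⟩, κ.mn (2 * q - 1),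
          κ'.tr, adr q (2 * q - 1), it (2 * q - 1)⟩).set (2 * q - 1 + 1)
        ⟨⟨znAt q 0, flAt q 0, κ'.ptr 0, .H .LK2 true⟩, κ'.mn 0, κ.tr, adr q 0, it' 0⟩ := by
  have h6 := six_le (q := q)
  set κ0 : Cfg := ⟨.LK2, 2 * q, blank, join q κ.ptr κ'.ptr, join q κ.mn κ'.mn⟩ with hκ0
  have l0 : len q κ0 = 4 * q := rfl
  have l1 : len q κ = 2 * q := by simp [len, h1, St.cls, Cls.two]
  have l2 : len q κ' = 2 * q := by simp [len, h2, St.cls, Cls.two]
  have e1 : word κ it = word (crossL q κ0) (join q it it') := by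
    refine word_congr l1 fun i hi => ?_
    rw [l1] at hi
    simp only [letter, ctlAt, dynAt, crossL, hκ0, join_lo _ _ hi, h1, p1, t1]
  have e2 : word κ' it' = word (crossR q κ0) (sh q (join q it it')) := by
    refine word_congr l2 fun i hi => ?_
    simp only [letter, ctlAt, dynAt, crossR, hκ0, sh_join, h2, p2, t2]
  have z0 := znAt_shift (q := q) (i := 0) (by omega)
  have f0 := flAt_shift (q := q) (i := 0) (by omega)
  have a0 := adr_shift (q := q) (i := 0) (by omega)
  rw [Nat.zero_add] at z0 f0 a0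
  refine eq_set2 ?_ ?_ ?_ fun j hj a b => ?_
  · rw [List.length_append, length_word, length_word, length_word, l0, l1, l2]; omega
  · rw [word_get _ _ (by omega), letter_left _ _ (by simp only [hκ0]; omega),
      (side_false _).2 (by omega), t2]
    simp only [hκ0, join_lo _ _ (show 2 * q - 1 < 2 * q by omega)]
    rfl
  · rw [show 2 * q - 1 + 1 = 2 * q by omega, word_get _ _ (by omega),
      letter_head κ0 _ (i := 2 * q) rfl, (side_true _).2 le_rfl, z0, f0, a0, t1]
    simp [hκ0, join]
  · rw [List.length_append, length_word, length_word, l1, l2] at hj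
    rw [e1, e2, cross_get rfl rfl _ (by omega) a (by omega)]

/-- a step by places -/
def PStep (w w' : List (Let q)) : Prop :=
  (∃ (i : ℕ) (x x' : Let q), w[i]? = some x ∧ (Rel [x] [x'] ∨ Rel [x'] [x]) ∧ w' = w.set i x') ∨
    ∃ (i : ℕ) (x y x' y' : Let q), w[i]? = some x ∧ w[i + 1]? = some y ∧
      (Rel [x, y] [x', y'] ∨ Rel [x', y'] [x, y]) ∧ w' = (w.set i x').set (i + 1) y'

omit hq in
theorem pStep_of {w w' : List (Let q)} (hs : Step (sys q) w w' ∨ Step (sys q) w' w) :
    PStep w w' := by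
  have key : ∀ (a u v b : List (Let q)), (Rel u v ∨ Rel v u) →
      PStep (a ++ u ++ b) (a ++ v ++ b) := by
    intro a u v b h
    have hs : (∃ x x', u = [x] ∧ v = [x']) ∨ ∃ x y x' y', u = [x, y] ∧ v = [x', y'] := by
      rcases h with h | h
      · exact rel_shape h
      · rcases rel_shape h with ⟨x, x', e, e'⟩ | ⟨x, y, x', y', e, e'⟩
        · exact Or.inl ⟨_, _, e', e⟩
        · exact Or.inr ⟨_, _, _, _, e', e⟩
    rcases hs with ⟨x, x', rfl, rfl⟩ | ⟨x, y, x', y', rfl, rfl⟩
    · exact Or.inl ⟨a.length, x, x', by simp, h, by simp⟩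
    · refine Or.inr ⟨a.length, x, y, x', y', by simp, ?_, h, ?_⟩
      · rw [List.append_assoc, List.getElem?_append_right (by omega)]
        simp
      · rw [List.append_assoc, List.append_assoc, List.set_append_right _ _ le_rfl,
          List.set_append_right _ _ (by omega)]
        simp
  rcases hs with ⟨a, u, v, b, h, rfl, rfl⟩ | ⟨a, u, v, b, h, rfl, rfl⟩
  · exact key a u v b (Or.inl h)
  · exact key a v u b (Or.inr h)

/-- where a step lies in a piece followed by a word -/
theorem pStep_split (κ : Cfg) (it : ℕ → Fin q) {w w' : List (Let q)}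
    (h : PStep (word κ it ++ w) w') :
    (∃ i x, (Rel [letter κ it i] [x] ∨ Rel [x] [letter κ it i]) ∧
      w' = (word κ it).set i x ++ w) ∨
    (∃ i x y, i + 1 < len q κ ∧ (Rel [letter κ it i, letter κ it (i + 1)] [x, y] ∨
      Rel [x, y] [letter κ it i, letter κ it (i + 1)]) ∧
      w' = ((word κ it).set i x).set (i + 1) y ++ w) ∨
    (∃ i z x y, i + 1 = len q κ ∧ w[0]? = some z ∧ (Rel [letter κ it i, z] [x, y] ∨
      Rel [x, y] [letter κ it i, z]) ∧ w' = ((word κ it ++ w).set i x).set (i + 1) y) ∨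
    ∃ w'', PStep w w'' ∧ w' = word κ it ++ w'' := by
  have hl := length_word κ it
  rcases h with ⟨i, x, x', hx, h, rfl⟩ | ⟨i, x, y, x', y', hx, hy, h, rfl⟩
  · by_cases hi : i < len q κ
    · rw [List.getElem?_append_left (by omega), word_get κ it hi] at hx
      obtain rfl := Option.some.inj hx
      exact Or.inl ⟨i, x', h, List.set_append_left _ _ (by omega)⟩
    · rw [List.getElem?_append_right (by omega)] at hx
      exact Or.inr (Or.inr (Or.inr ⟨_, Or.inl ⟨_, x, x', hx, h, rfl⟩,
        List.set_append_right _ _ (by omega)⟩))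
  · by_cases hi : i < len q κ
    · rw [List.getElem?_append_left (by omega), word_get κ it hi] at hx
      obtain rfl := Option.some.inj hx
      by_cases hi' : i + 1 < len q κ
      · rw [List.getElem?_append_left (by omega), word_get κ it hi'] at hy
        obtain rfl := Option.some.inj hy
        refine Or.inr (Or.inl ⟨i, x', y', hi', h, ?_⟩)
        rw [List.set_append_left _ _ (by omega), List.set_append_left _ _ (by simp; omega)]
      · rw [List.getElem?_append_right (by omega), hl, show i + 1 - len q κ = 0 by omega] at hy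
        exact Or.inr (Or.inr (Or.inl ⟨i, y, x', y', by omega, hy, h, rfl⟩))
    · rw [List.getElem?_append_right (by omega)] at hx hy
      have e : i + 1 - (word κ it).length = i - (word κ it).length + 1 := by omega
      rw [e] at hy
      refine Or.inr (Or.inr (Or.inr ⟨_, Or.inr ⟨_, x, y, x', y', hx, hy, h, rfl⟩, ?_⟩))
      rw [List.set_append_right _ _ (by omega), List.set_append_right _ _ (by omega), e]

theorem parse_pStep {w r : List (Let q)} {Y : List (Let (up q))} (h : Parse w Y r) (hr : r = [])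
    {w' : List (Let q)} (hs : PStep w w') :
    ∃ Y', Parse w' Y' [] ∧ Eqv (sys (up q)) Y Y' := by
  have h6 := six_le (q := q)
  induction h generalizing w' with
  | done w =>
    subst hr
    rcases hs with ⟨i, x, x', hx, -⟩ | ⟨i, x, y, x', y', hx, -⟩ <;> simp at hx
  | one κ it y w Y r h2 hg hit hp ih =>
    subst hr
    have keep : ∀ κ', Keep q κ κ' →
        ∃ Y', Parse (word κ' it ++ w) Y' [] ∧ Eqv (sys (up q)) (y :: Y) Y' := by
      intro κ' hk
      obtain ⟨y', hg', he⟩ := hk.2.1 h2 y hg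
      exact ⟨y' :: Y, Parse.one κ' it y' w Y [] (hk.1.trans h2) hg' hit hp,
        he.append (Eqv.refl Y)⟩
    rcases pStep_split κ it hs with ⟨i, x, h, rfl⟩ | ⟨i, x, z, hi, h, rfl⟩ |
      ⟨i, z, x, x', hi, hz, h, rfl⟩ | ⟨w'', h, rfl⟩
    · obtain ⟨κ', hk, e⟩ := one_step hg.valid it h
      rw [← e]
      exact keep κ' hk
    · rcases two_step hg.valid it hi h with ⟨κ', hk, e⟩ | ⟨h1, -⟩ | ⟨h1, hz, e⟩
      · rw [← e]
        exact keep κ' hk
      · rw [h1] at h2; simp [St.cls, Cls.two] at h2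
      · rw [← e]
        exact ⟨_, Parse.one κ _ y w Y [] h2 hg (hit.swap hz) hp, Eqv.refl _⟩
    · generalize hr : ([] : List (Let q)) = r at hp
      cases hp with
      | done => subst hr; simp at hz
      | one κ' it' y' w Y r h2' hg' hit' hp' =>
        subst hr
        have hl' := len_cases (q := q) κ'
        rw [List.getElem?_append_left (by rw [length_word]; omega),
          word_get κ' it' (by omega)] at hz
        obtain rfl := Option.some.inj hz
        obtain ⟨a1, a2, a3, a4, rfl, rfl, rfl⟩ := cut_step hg.valid hg'.valid it it' hi h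
        obtain ⟨t1, t2, hj⟩ := good_join a1 a3 hg hg'
        have e := join_word a1 a2 a3 a4 t1 t2 it it'
        have l1 : (word κ it ++ word κ' it').length = len q κ + len q κ' := by
          rw [List.length_append, length_word, length_word]
        rw [← List.append_assoc, List.set_append_left _ _ (by omega),
          List.set_append_left _ _ (by rw [List.length_set]; omega), ← e]
        exact ⟨_, Parse.two _ _ y y' w Y [] rfl hj (hit.congrS fun i hi => join_lo _ _ hi)
          (by rw [sh_join]; exact hit') hp', Eqv.refl _⟩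
      | two κ' it' y' y'' w Y r h2' hg' hit' hit'' hp' =>
        have hl' := len_cases (q := q) κ'
        rw [List.getElem?_append_left (by rw [length_word]; omega),
          word_get κ' it' (by omega)] at hz
        obtain rfl := Option.some.inj hz
        obtain ⟨-, -, a3, -⟩ := cut_step hg.valid hg'.valid it it' hi h
        rw [a3] at h2'; simp [St.cls, Cls.two] at h2'
    · obtain ⟨Y', a, b⟩ := ih rfl h
      exact ⟨y :: Y', Parse.one κ it y _ Y' [] h2 hg hit a, (Eqv.refl [y]).append b⟩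
  | two κ it y y' w Y r h2 hg hit hit' hp ih =>
    subst hr
    have keep : ∀ κ', Keep q κ κ' →
        ∃ Y', Parse (word κ' it ++ w) Y' [] ∧ Eqv (sys (up q)) (y :: y' :: Y) Y' := by
      intro κ' hk
      obtain ⟨z, z', hg', he⟩ := hk.2.2 h2 y y' hg
      exact ⟨z :: z' :: Y, Parse.two κ' it z z' w Y [] (hk.1.trans h2) hg' hit hit' hp,
        he.append (Eqv.refl Y)⟩
    rcases pStep_split κ it hs with ⟨i, x, h, rfl⟩ | ⟨i, x, z, hi, h, rfl⟩ |
      ⟨i, z, x, x', hi, hz, h, rfl⟩ | ⟨w'', h, rfl⟩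
    · obtain ⟨κ', hk, e⟩ := one_step hg.valid it h
      rw [← e]
      exact keep κ' hk
    · rcases two_step hg.valid it hi h with ⟨κ', hk, e⟩ | ⟨h1, h3, e⟩ | ⟨h1, -⟩
      · rw [← e]
        exact keep κ' hk
      · rw [← e, List.append_assoc]
        obtain ⟨g1, g2⟩ := good_split h1 hg
        exact ⟨_, Parse.one _ it y _ _ [] rfl g1 hit (Parse.one _ _ y' w Y [] rfl g2 hit' hp),
          Eqv.refl _⟩
      · rw [h1] at h2; simp [St.cls, Cls.two] at h2
    · obtain ⟨κ', it', hv', rfl⟩ := parse_head hp hz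
      obtain ⟨a1, -⟩ := cut_step hg.valid hv' it it' hi h
      rw [a1] at h2; simp [St.cls, Cls.two] at h2
    · obtain ⟨Y', a, b⟩ := ih rfl h
      exact ⟨y :: y' :: Y', Parse.two κ it y y' _ Y' [] h2 hg hit hit' a,
        (Eqv.refl [y, y']).append b⟩

theorem parse_step {w w' : List (Let q)} {Y : List (Let (up q))} (h : Parse w Y [])
    (hs : Step (sys q) w w' ∨ Step (sys q) w' w) :
    ∃ Y', Parse w' Y' [] ∧ Eqv (sys (up q)) Y Y' :=
  parse_pStep h rfl (pStep_of hs)

theorem sound {Y : List (Let (up q))} (h : ¬ IsZero (sys (up q)) Y) :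
    ¬ IsZero (sys q) (Y.flatMap enc) :=
  sound_of (fun h hs => parse_step h hs) h

end Vale.Agent.P192Z.Mach
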