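import Vale.Agent.P192Z.Mach.Sim
import Vale.Agent.P192Z.Mach.Sound
import Vale.Agent.P192Z.Mach.Inter
import Vale.Agent.P192Z.Mach.Capelli
import Vale.Agent.P192Z.Mach.Descent
import Vale.Agent.P192Z.Mach.Growth

/-!
# P192: a finite homogeneous system with long nonzero words and nilpotent pencils
-/

namespace Vale.Agent.P192Z

open Desc in
/-- `nilR_descent` with a free bound in the second hypothesis -/
theorem nilR_descent' {X X' : Type} [Fintype X] [Fintype X'] (P : Pres X) (P' : Pres X')
    (St : X → Prop) (Q L : ℕ) (hQ : 0 < Q) (enc : X' → List X)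
    (h1 : ∀ lam : List X → Polynomial F2, P.Inv lam → P'.Inv fun Y => lam (Y.flatMap enc))
    (h2 : ∀ w : List X, ¬ IsZero P w → L ≤ w.length → ∃ i < L, StAt St w i)
    (h3 : ∀ w : List X, ¬ IsZero P w → 2 * Q + 1 ≤ w.length → StAt St w 0 →
      (StAt St w Q ∧ ∃ y, Eqv P (w.take Q) (enc y)) ∨
      (¬ StAt St w Q ∧ StAt St w (2 * Q) ∧ ∃ y y', Eqv P (w.take (2 * Q)) (enc y ++ enc y')))
    (ρ : ℕ) (hup : NilR P' (ρ * (Fintype.card X' + 1) ^ 2)) : NilR P ρ := by
  classical
  intro B _ _ e he a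
  obtain ⟨e', he'⟩ := span_matrix (ι := Option X') e he
  rw [← Fintype.card_option] at hup
  obtain ⟨m, hm⟩ := hup (Matrix (Option X') (Option X') B) e' he' (up P St Q enc a)
  have hm' : ∀ lam : List X → Polynomial F2, P.Inv lam → ∀ c : List X,
      (WS m fun Y : List X' => lam (Y.flatMap enc ++ c) • (Y.map (up P St Q enc a)).prod) = 0 := by
    intro lam hl c
    have h4 : P.Inv fun w => lam (w ++ c) := by simpa using hl.shift [] c
    have h5 := hm _ (h1 _ h4)
    simpa only [WS, List.map_ofFn] using h5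
  refine ⟨m * Q + Q + 1 + L, fun lam hl => ?_⟩
  have h6 := H_eq_zero a (fun lam hl N hN => G_eq_zero a hQ h3 hm' hl hN) L lam hl _ le_rfl
  have h7 : (WS (m * Q + Q + 1 + L) fun w => lam w • (w.map a).prod) = 0 := by
    rw [← h6]
    refine WS_congr fun w hw => ?_
    by_cases hz : IsZero P w
    · simp [hl.isZero hz]
    · rw [if_pos (h2 w hz (by omega))]
  simpa only [WS, List.map_ofFn] using h7

namespace Mach

/-- letters as tuples -/
def letEquiv (q : ℕ) : Let q ≃ (Ctl × Sym × Sym) × Fin q × Fin q where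
  toFun x := ((x.c, x.m, x.t), x.a, x.it)
  invFun p := ⟨p.1.1, p.1.2.1, p.1.2.2, p.2.1, p.2.2⟩
  left_inv _ := rfl
  right_inv _ := rfl

theorem card_let (q : ℕ) :
    Fintype.card (Let q) = Fintype.card (Ctl × Sym × Sym) * q ^ 2 := by
  rw [Fintype.card_congr (letEquiv q), Fintype.card_prod (Ctl × Sym × Sym),
    Fintype.card_prod (Fin q), Fintype.card_fin, sq]

theorem rel_length {q : ℕ} {u v : List (Let q)} (h : Rel u v) :
    u.length = v.length ∧ 1 ≤ u.length ∧ u.length ≤ 2 := by
  cases h <;> simp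

theorem zer_length {q : ℕ} {z : List (Let q)} (h : Zer z) : 1 ≤ z.length ∧ z.length ≤ 2 := by
  cases h <;> simp

theorem sys_eqs_finite (q : ℕ) : (sys q).eqs.Finite := by
  refine ((List.finite_length_le (Let q) 2).prod (List.finite_length_le (Let q) 2)).subset ?_
  rintro ⟨u, v⟩ h
  have := rel_length (q := q) (u := u) (v := v) h
  exact ⟨this.2.2, show v.length ≤ 2 by omega⟩

theorem sys_zeros_finite (q : ℕ) : (sys q).zeros.Finite :=
  (List.finite_length_le (Let q) 2).subset fun _ h => (zer_length h).2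

theorem sys_homog (q : ℕ) : (sys q).Homog := by
  refine ⟨fun u v h => ?_, fun z h => ?_⟩
  · have := rel_length (q := q) (u := u) (v := v) h
    exact ⟨this.1, List.ne_nil_of_length_pos this.2.1⟩
  · exact List.ne_nil_of_length_pos (zer_length (q := q) h).1

theorem rw_head {c c' : Ctl} {m m' : Sym} (h : RW c m c' m') :
    (∃ s sd, c.dyn = .H s sd) ∧ ∃ s sd, c'.dyn = .H s sd := by
  cases h <;> exact ⟨⟨_, _, rfl⟩, ⟨_, _, rfl⟩⟩

theorem kind_head {c : Ctl} {k : Kd} (h : kind c = some k) :
    (∃ s sd, c.dyn = .H s sd) ∧ ∃ s sd, (next c).dyn = .H s sd := by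
  obtain ⟨zn, fl, π, d⟩ := c
  cases d with
  | L r => simp [kind] at h
  | R r => simp [kind] at h
  | H s sd =>
    refine ⟨⟨s, sd, rfl⟩, ?_⟩
    simp only [next]
    split <;> exact ⟨_, _, rfl⟩

theorem rel_head {q : ℕ} {u v : List (Let q)} (h : Rel u v) {x : Let q} (hx : u = [x] ∨ v = [x]) :
    ∃ s sd, x.c.dyn = .H s sd := by
  cases h with
  | rw c m c' m' t a i h =>
    rcases hx with hx | hx <;> obtain rfl := List.singleton_injective hx
    · exact (rw_head h).1
    · exact (rw_head h).2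
  | ap c k m t m' t' a i hk h =>
    rcases hx with hx | hx <;> obtain rfl := List.singleton_injective hx
    · exact (kind_head hk).1
    · exact (kind_head hk).2
  | mv => simp at hx
  | sw => simp at hx

theorem mid_eq {X : Type} {a u b : List X} {x : X} (h : a ++ u ++ b = [x]) (hu : 1 ≤ u.length) :
    u = [x] := by
  have h1 := congrArg List.length h
  simp only [List.length_append, List.length_singleton] at h1
  obtain rfl : a = [] := List.eq_nil_of_length_eq_zero (by omega)
  obtain rfl : b = [] := List.eq_nil_of_length_eq_zero (by omega)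
  simpa using h

theorem eqv_single {q : ℕ} {x : Let q} (hx : ¬ ∃ s sd, x.c.dyn = .H s sd) {u v : List (Let q)}
    (h : Eqv (sys q) u v) : u = [x] ↔ v = [x] := by
  induction h with
  | rel u v h =>
    obtain ⟨a, r, r', b, hr, rfl, rfl⟩ := h
    have h1 := rel_length (q := q) (u := r) (v := r') hr
    constructor
    · exact fun e => (hx (rel_head hr (Or.inl (mid_eq e h1.2.1)))).elim
    · exact fun e => (hx (rel_head hr (Or.inr (mid_eq e (h1.1 ▸ h1.2.1))))).elim
  | refl u => exact Iff.rfl
  | symm u v _ ih => exact ih.symm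
  | trans u v w _ _ ih1 ih2 => exact ih1.trans ih2

theorem zer_single {q : ℕ} {z : List (Let q)} (h : Zer z) {x : Let q} (e : z = [x]) :
    (∃ s sd, x.c.dyn = .H s sd) ∨ x.t ≠ blank ∨ ¬ (x.c.fl = .last ↔ x.a.val + 1 = q) := by
  cases h with
  | rw y h =>
    obtain rfl := List.singleton_injective e
    left
    generalize y.c = c at h
    generalize y.m = m at h
    cases h <;> exact ⟨_, _, rfl⟩
  | t y h =>
    obtain rfl := List.singleton_injective e
    exact Or.inr (Or.inl h.1)
  | tab y k hk h =>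
    obtain rfl := List.singleton_injective e
    exact Or.inl (kind_head hk).1
  | last y h =>
    obtain rfl := List.singleton_injective e
    exact Or.inr (Or.inr h)
  | pair => simp at e
  | adr => simp at e
  | item => simp at e

/-- a marked letter alone is not zero -/
theorem exists_nonzero (q : ℕ) [Fact (6 ≤ q)] : ∃ x : Let q, ¬ IsZero (sys q) [x] := by
  have h6 := six_le (q := q)
  refine ⟨⟨⟨.A, .mid, false, .L .S⟩, blank, blank, ⟨0, by omega⟩, ⟨0, by omega⟩⟩, ?_⟩
  rintro ⟨w, h1, a, z, b, hz, rfl⟩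
  have h2 := (eqv_single (by simp) h1).1 rfl
  rcases zer_single hz (mid_eq h2 (zer_length (q := q) hz).1) with h | h | h
  · simp at h
  · exact h rfl
  · refine h ⟨fun e => ?_, fun e => ?_⟩
    · simp at e
    · simp only at e
      omega

theorem length_flatMap_enc {q : ℕ} [Fact (6 ≤ q)] (Y : List (Let (up q))) :
    (Y.flatMap enc).length = 2 * q * Y.length := by
  induction Y with
  | nil => simp
  | cons y Y ih => rw [List.flatMap_cons, List.length_append, length_enc, ih, List.length_cons]; ring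

theorem sys_long (n : ℕ) : ∀ (q : ℕ) [Fact (6 ≤ q)],
    ∃ w : List (Let q), n < w.length ∧ ¬ IsZero (sys q) w := by
  induction n with
  | zero =>
    intro q _
    obtain ⟨x, hx⟩ := exists_nonzero q
    exact ⟨[x], by simp, hx⟩
  | succ n ih =>
    intro q _
    have h6 := six_le (q := q)
    obtain ⟨Y, h1, h2⟩ := ih (up q)
    refine ⟨Y.flatMap enc, ?_, sound h2⟩
    rw [length_flatMap_enc]
    nlinarith

theorem sys_direct (q : ℕ) [Fact (6 ≤ q)] (ρ : ℕ) (h : ρ * (nMode * (q + 2)) + 3 < up q) :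
    NilR (sys q) ρ := by
  have h6 := six_le (q := q)
  exact nilR_direct (sys q) Start (4 * q + 1) q (16 * up q + 8) ρ
    (Nat.mul_pos (by omega) (by omega))
    (fun w hz hl => exists_start (fun h0 => hz h0.isZero) hl) skel (interchange ρ h)

theorem sys_descent (q : ℕ) [Fact (6 ≤ q)] (ρ : ℕ)
    (h : NilR (sys (up q)) (ρ * (Fintype.card (Let (up q)) + 1) ^ 2)) : NilR (sys q) ρ := by
  have h6 := six_le (q := q)
  refine nilR_descent' (sys q) (sys (up q)) Start (2 * q) (4 * q + 1) (by omega) enc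
    (fun lam hl => inv_flatMap (P' := sys (up q)) enc (fun _ _ h => sim_rel h)
      (fun _ h => sim_zer h) hl)
    (fun w hz hl => exists_start (fun h0 => hz h0.isZero) hl) (fun w hz hl hs => ?_) ρ h
  obtain ⟨κ, it, w', hv, rfl, hs'⟩ := exists_piece (fun h0 => hz h0.isZero) (by omega) hs
  have hz' : ¬ IsZero (sys q) (word κ it) := fun h0 => hz (h0.left w')
  cases h2 : κ.st.cls.two
  · have hl' : (word κ it).length = 2 * q := by rw [length_word, len, h2]; rfl
    obtain ⟨hit, y, hg⟩ := piece_one hv h2 hz'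
    refine Or.inl ⟨(Desc.stAt_append_right Start _ _ hl'.symm).2 hs', y, ?_⟩
    rw [List.take_left' hl']
    simpa using parse_eqv (Parse.one κ it y [] [] [] h2 hg hit (Parse.done []))
  · have hl' : (word κ it).length = 2 * (2 * q) := by
      rw [length_word, len, h2, if_pos rfl]; ring
    obtain ⟨hit, hit', y, y', hg⟩ := piece_two hv h2 hz'
    refine Or.inr ⟨not_start_two hv h2 it w', (Desc.stAt_append_right Start _ _ hl'.symm).2 hs',
      y, y', ?_⟩
    rw [List.take_left' hl']
    simpa using parse_eqv (Parse.two κ it y y' [] [] [] h2 hg hit hit' (Parse.done []))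

end Mach

theorem algebra_main : ∃ (X : Type) (_ : Fintype X) (P : Pres X),
    P.eqs.Finite ∧ P.zeros.Finite ∧ P.Homog ∧ P.INF ∧ P.NIL := by
  obtain ⟨q, hq, h⟩ := growth (Fintype.card (Mach.Ctl × Mach.Sym × Mach.Sym)) Mach.nMode
    (fun q ρ => NilR (Mach.sys q) ρ)
    (fun q ρ hq h => by
      have : Fact (6 ≤ q) := ⟨hq⟩
      exact Mach.sys_direct q ρ h)
    (fun q ρ hq h => by
      have : Fact (6 ≤ q) := ⟨hq⟩
      refine Mach.sys_descent q ρ ?_
      rw [Mach.card_let]
      exact h)
    (fun q ρ ρ' h hN => hN.mono h)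
  have : Fact (6 ≤ q) := ⟨hq⟩
  refine ⟨Mach.Let q, inferInstance, Mach.sys q, Mach.sys_eqs_finite q, Mach.sys_zeros_finite q,
    Mach.sys_homog q, inf_of_nonzero fun N => ?_, nil_of_nilR _ h⟩
  obtain ⟨w, h1, h2⟩ := Mach.sys_long N q
  exact ⟨w, h1.le, h2⟩

end Vale.Agent.P192Z
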