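import Vale.Agent.P192Z.Mach.WordStep
import Vale.Agent.P192Z.Mach.Bits

/-!
# P192: blocks at rest
-/

namespace Vale.Agent.P192Z.Mach

variable {q : ℕ} [hq : Fact (6 ≤ q)]

/-- two places of one zone of the first block -/
def SameZone (q i j : ℕ) : Prop := (i < q ∧ j < q) ∨ (q ≤ i ∧ i < 2 * q ∧ q ≤ j ∧ j < 2 * q)

theorem adr_val {i : ℕ} (hi : i < 4 * q) : (adr q i).val = off q i := by
  have := off_spec q i
  exact Nat.mod_eq_of_lt (by omega)

omit hq in
theorem itOK_iff {it : ℕ → Fin q} :
    ItOK q it ↔ ∀ i j, SameZone q i j → it i = it j → i = j := by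
  constructor
  · rintro ⟨h1, h2⟩ i j (⟨a, b⟩ | ⟨a, b, c, d⟩) e
    · exact h1 i j a b e
    · exact h2 i j a b c d e
  · exact fun h => ⟨fun i j a b => h i j (Or.inl ⟨a, b⟩),
      fun i j a b c d => h i j (Or.inr ⟨a, b, c, d⟩)⟩

theorem itOK_adr : ItOK q (adr q) := by
  refine itOK_iff.2 fun i j h e => ?_
  have h1 := off_spec q i
  have h2 := off_spec q j
  unfold SameZone at h
  have h3 := congrArg Fin.val e
  rw [adr_val (by omega), adr_val (by omega)] at h3
  omega

/-- the head in the state `W` at the place `i` -/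
def wCfg (T : ℕ → Sym) (i : ℕ) : Cfg := ⟨.W, i, blank, fun _ => false, T⟩

omit hq in
theorem len_wCfg (T : ℕ → Sym) (i : ℕ) : len q (wCfg T i) = 2 * q := rfl

theorem walk_rest (T : ℕ → Sym) (it : ℕ → Fin q) {i : ℕ} (hi : i < 2 * q) :
    Eqv (sys q) (word (wCfg T i) it) (restW T it) := walkW _ _ _ it hi

theorem letter_wCfg (T : ℕ → Sym) (it : ℕ → Fin q) {i : ℕ} (hi : i < 2 * q) :
    letter (wCfg T i) it i =
      ⟨⟨znAt q i, flAt q i, false, .H .W false⟩, T i, blank, adr q i, it i⟩ := by
  simp [letter, ctlAt, dynAt, wCfg, (side_false i).2 hi]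

theorem perm_wCfg (T : ℕ → Sym) {i : ℕ} (hi : i + 1 < 2 * q) (h : i + 1 ≠ q) :
    perm (ctlAt q (wCfg T i) i) := by
  refine ⟨?_, ?_⟩
  · simp [ctlAt, dynAt, wCfg, (side_false (q := q) i).2 (by omega)]
  · show flAt q i ≠ .last
    rw [Ne, flAt_last]
    omega

theorem rest_adj (T : ℕ → Sym) (it : ℕ → Fin q) {i : ℕ} (hi : i + 1 < 2 * q) (h : i + 1 ≠ q) :
    Eqv (sys q) (restW T it) (restW T (it ∘ Equiv.swap i (i + 1))) := by
  refine (walk_rest T it (i := i) (by omega)).symm.trans
    (Eqv.trans (Eqv.of_step ?_) (walk_rest T _ (i := i) (by omega)))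
  refine step_two rfl (i := i) hi (fun j _ h1 h2 => ?_) ?_
  · simp only [letter, Function.comp_apply, Equiv.swap_apply_of_ne_of_ne h1 h2]
  · simp only [letter, Function.comp_apply, Equiv.swap_apply_left, Equiv.swap_apply_right]
    exact Rel.sw _ _ _ _ _ _ _ _ _ _ (perm_wCfg T hi h)

theorem rest_swap_add (T : ℕ → Sym) (i d : ℕ) : ∀ it : ℕ → Fin q, SameZone q i (i + d) →
    Eqv (sys q) (restW T it) (restW T (it ∘ Equiv.swap i (i + d))) := by
  induction d with
  | zero => intro it _; simpa using Eqv.refl _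
  | succ d ih =>
    intro it h
    unfold SameZone at h
    have ha : ∀ it : ℕ → Fin q,
        Eqv (sys q) (restW T it) (restW T (it ∘ Equiv.swap (i + d) (i + d + 1))) :=
      fun it => rest_adj T it (by omega) (by omega)
    rcases Nat.eq_zero_or_pos d with rfl | hd
    · exact ha it
    · have h1 := (ha it).trans ((ih _ (by unfold SameZone; omega)).trans (ha _))
      have h2 : ((it ∘ Equiv.swap (i + d) (i + d + 1)) ∘ Equiv.swap i (i + d)) ∘
          Equiv.swap (i + d) (i + d + 1) = it ∘ Equiv.swap i (i + (d + 1)) := by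
        have h3 := Equiv.swap_mul_swap_mul_swap (x := i) (y := i + d) (z := i + d + 1)
          (by omega) (by omega)
        funext x
        have h4 := congrArg (fun e : Equiv.Perm ℕ => it (e x)) h3
        simp only [Equiv.Perm.coe_mul, Function.comp_apply] at h4 ⊢
        rw [h4, Equiv.swap_comm]
        rfl
      rwa [h2] at h1

theorem rest_swap (T : ℕ → Sym) (it : ℕ → Fin q) {i j : ℕ} (h : SameZone q i j) :
    Eqv (sys q) (restW T it) (restW T (it ∘ Equiv.swap i j)) := by
  rcases le_total i j with hij | hij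
  · obtain ⟨d, rfl⟩ := Nat.exists_eq_add_of_le hij
    exact rest_swap_add T i d it h
  · obtain ⟨d, rfl⟩ := Nat.exists_eq_add_of_le hij
    rw [Equiv.swap_comm]
    exact rest_swap_add T j d it (by unfold SameZone at h ⊢; omega)

theorem rest_zero_lt (T : ℕ → Sym) (it : ℕ → Fin q) {i j : ℕ} (h : SameZone q i j)
    (hij : i < j) (e : it i = it j) : IsZero (sys q) (restW T it) := by
  unfold SameZone at h
  refine IsZero.of_eqv (rest_swap T it (i := i + 1) (j := j) (by unfold SameZone; omega)) ?_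
  refine IsZero.of_eqv (walk_rest T _ (i := i) (by omega)).symm (HasZero.isZero ?_)
  refine zero_two (i := i) (by rw [len_wCfg]; omega) (Zer.item _ _ ?_ ?_)
  · exact perm_wCfg T (by omega) (by omega)
  · simp only [letter, Function.comp_apply, Equiv.swap_apply_left]
    rw [Equiv.swap_apply_of_ne_of_ne (by omega) (by omega), e]

theorem rest_zero_item (T : ℕ → Sym) (it : ℕ → Fin q) {i j : ℕ} (h : SameZone q i j)
    (hij : i ≠ j) (e : it i = it j) : IsZero (sys q) (restW T it) := by
  rcases lt_or_gt_of_ne hij with h1 | h1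
  · exact rest_zero_lt T it h h1 e
  · exact rest_zero_lt T it (by unfold SameZone at h ⊢; omega) h1 e.symm

theorem restW_congr {T T' : ℕ → Sym} {it it' : ℕ → Fin q} (h : EqT (2 * q) T T')
    (h' : ∀ i < 2 * q, it i = it' i) : restW T it = restW T' it' := by
  refine word_congr rfl fun i hi => ?_
  have hi' : i < 2 * q := hi
  simp only [letter, restCfg, h i hi', h' i hi']
  rfl

omit hq in
theorem ItOK.swap {it : ℕ → Fin q} (h : ItOK q it) {k l : ℕ} (hkl : SameZone q k l) :
    ItOK q (it ∘ Equiv.swap k l) := by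
  refine itOK_iff.2 fun i j hij e => (Equiv.swap k l).injective (itOK_iff.1 h _ _ ?_ e)
  unfold SameZone at *
  simp only [Equiv.swap_apply_def]
  split_ifs <;> omega

omit hq in
theorem ItOK.surj {it : ℕ → Fin q} (h : ItOK q it) {k : ℕ} (hk : k < 2 * q) (a : Fin q) :
    ∃ j, SameZone q k j ∧ it j = a := by
  obtain ⟨c, hc⟩ : ∃ c, (c = 0 ∧ k < q) ∨ (c = q ∧ q ≤ k) := by
    by_cases h1 : k < q
    · exact ⟨0, Or.inl ⟨rfl, h1⟩⟩
    · exact ⟨q, Or.inr ⟨rfl, by omega⟩⟩
  have hinj : Function.Injective fun x : Fin q => it (c + x.val) := by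
    intro x y e
    have hx := x.isLt
    have hy := y.isLt
    have := itOK_iff.1 h _ _ (by unfold SameZone; omega) e
    exact Fin.ext (by omega)
  obtain ⟨x, hx⟩ := Finite.surjective_of_injective hinj a
  have hx' := x.isLt
  exact ⟨c + x.val, by unfold SameZone; omega, hx⟩

theorem rest_sort (T : ℕ → Sym) {it : ℕ → Fin q} (h : ItOK q it) :
    Eqv (sys q) (restW T it) (restW T (adr q)) := by
  have key : ∀ k ≤ 2 * q, ∃ it', ItOK q it' ∧ (∀ i < k, it' i = adr q i) ∧
      Eqv (sys q) (restW T it) (restW T it') := by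
    intro k
    induction k with
    | zero => exact fun _ => ⟨it, h, fun i hi => absurd hi (Nat.not_lt_zero i), Eqv.refl _⟩
    | succ k ih =>
      intro hk
      obtain ⟨it', h1, h2, h3⟩ := ih (by omega)
      obtain ⟨j, hj, e⟩ := h1.surj (k := k) (by omega) (adr q k)
      have hkj : k ≤ j := by
        by_contra hlt
        have hlt' : j < k := by omega
        have := itOK_iff.1 itOK_adr k j hj (by rw [← e, h2 j hlt'])
        omega
      refine ⟨_, h1.swap hj, fun i hi => ?_, h3.trans (rest_swap T it' hj)⟩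
      rcases Nat.lt_succ_iff_lt_or_eq.1 hi with h4 | rfl
      · rw [Function.comp_apply, Equiv.swap_apply_of_ne_of_ne (by omega) (by omega), h2 i h4]
      · rw [Function.comp_apply, Equiv.swap_apply_left, e]
  obtain ⟨it', -, h2, h3⟩ := key (2 * q) le_rfl
  rwa [restW_congr (fun _ _ => rfl) h2] at h3

/-- the first bit of a data symbol -/
def bitS : Sym → Bool
  | .d b _ => b
  | .c _ => false

/-- the second bit of a data symbol -/
def carS : Sym → Bool
  | .d _ z => z
  | .c _ => false

theorem rest_viol {T : ℕ → Sym} {it : ℕ → Fin q} (hz : ¬ IsZero (sys q) (restW T it)) {i : ℕ}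
    (hi : i < 2 * q) : ¬ Wviol (znAt q i) (flAt q i) false (T i) := fun h => by
  refine hz (IsZero.of_eqv (walk_rest T it hi).symm (HasZero.isZero ?_))
  refine zero_one (i := i) hi (Zer.rw _ ?_)
  rw [letter_wCfg T it hi]
  exact ZRW.viol _ _ _ _ h

theorem rest_car {T : ℕ → Sym} {it : ℕ → Fin q} (hz : ¬ IsZero (sys q) (restW T it)) {p : ℕ}
    (h3 : 3 ≤ p) (hp : p + 1 < q) : ¬ ZTab .car (T (p + 1)) (T p) := fun h => by
  have hg : Good q ⟨.O6b, p + 1, T p, fun _ => false, put T p blank⟩ T := by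
    refine ⟨by show 4 ≤ p + 1; omega, hp, fun _ _ => rfl, by simp [put], fun i _ => ?_⟩
    simp only [put, Nat.add_sub_cancel]
    split_ifs with h1
    · rw [h1]
    · rfl
  refine hz (IsZero.of_eqv (good_eqv_one hg rfl it).symm (HasZero.isZero ?_))
  refine zero_one (i := p + 1) (by show p + 1 < 2 * q; omega) (Zer.tab _ .car ?_ ?_)
  · have hs : side q (p + 1) = false := (side_false _).2 (by omega)
    simp only [letter, ctlAt, dynAt, if_true, kind, hs, act, act0, goL, St.cls, Cls.two]
    by_cases h1 : znAt q (p + 1) = .A ∧ flAt q (p + 1) = .p0 <;> simp [h1, tkind]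
  · simpa [letter, put] using h

/-- every block at rest is zero or an encoding -/
theorem nf2 (T : ℕ → Sym) (it : ℕ → Fin q) :
    IsZero (sys q) (restW T it) ∨ (ItOK q it ∧ ∃ y : Let (up q), EqT (2 * q) T (encM q y)) := by
  refine or_iff_not_imp_left.2 fun hz => ⟨itOK_iff.2 fun i j h e => ?_, ?_⟩
  · by_contra hij
    exact hz (rest_zero_item T it h hij e)
  have h6 := six_le (q := q)
  have hv := fun i (hi : i < 2 * q) => rest_viol hz hi
  simp only [Wviol, not_or, not_and, not_forall, not_not, not_exists, znAt_A, znAt_I, flAt_p0,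
    flAt_p3, flAt_data] at hv
  obtain ⟨c, hc⟩ := (hv 0 (by omega)).2.1 (by omega) (by omega)
  have hA : ∀ i, 3 ≤ i → i < q → T i = .d (bitS (T i)) (carS (T i)) := by
    intro i h1 h2
    obtain ⟨b, z, e⟩ := (hv i (by omega)).2.2.1 (by omega) (by omega)
    rw [e]; rfl
  have h3 : carS (T 3) = true := by
    have h1 := (hv 3 (by omega)).2.2.2.1 (by omega) (by omega) (bitS (T 3))
    have h2 := hA 3 le_rfl (by omega)
    cases h4 : carS (T 3)
    · rw [h4] at h2; exact absurd h2 h1
    · rfl
  have hB : ∀ i, q ≤ i → i < q + 3 → T i = blank := by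
    intro i h1 h2
    refine (hv i (by omega)).2.2.2.2.1 (by omega) ?_
    rw [← Bool.not_eq_true, flAt_data]
    omega
  have hI : ∀ i, q + 3 ≤ i → i < 2 * q → T i = .d (bitS (T i)) false := by
    intro i h1 h2
    obtain ⟨b, e⟩ := (hv i h2).2.2.2.2.2 (by omega) (by omega)
    rw [e]; rfl
  have hcar : ∀ p, 3 ≤ p → p + 1 < q → carS (T (p + 1)) = (bitS (T p) && carS (T p)) := by
    intro p h1 h2
    by_contra hne
    exact rest_car hz h1 h2 ⟨_, _, _, _, hA p h1 (by omega), hA (p + 1) (by omega) h2, hne⟩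
  set a : ℕ := Nat.ofBits fun l : Fin (q - 3) => bitS (T (l.val + 3)) with ha
  set b : ℕ := Nat.ofBits fun l : Fin (q - 3) => bitS (T (l.val + (q + 3))) with hb
  have ha1 : ∀ l, l < q - 3 → a.testBit l = bitS (T (l + 3)) := fun l hl =>
    Nat.testBit_ofBits_lt _ l hl
  have hb1 : ∀ l, l < q - 3 → b.testBit l = bitS (T (l + (q + 3))) := fun l hl =>
    Nat.testBit_ofBits_lt _ l hl
  have ha2 : ∀ l, l < q - 3 → carry a l = carS (T (l + 3)) := by
    intro l
    induction l with
    | zero => intro _; rw [carry_zero, Nat.zero_add, h3]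
    | succ l ih =>
      intro hl
      rw [carry_succ, ih (by omega), ha1 l (by omega), show l + 1 + 3 = l + 3 + 1 by omega,
        hcar (l + 3) (by omega) (by omega)]
  refine ⟨⟨c, T 1, T 2, ⟨a, Nat.ofBits_lt_two_pow _⟩, ⟨b, Nat.ofBits_lt_two_pow _⟩⟩,
    fun i hi => ?_⟩
  unfold encM
  split_ifs with h0 h1 h2 h4 h5
  · rw [h0, hc]
  · rw [h1]
  · rw [h2]
  · show T i = .d (a.testBit (i - 3)) (carry a (i - 3))
    rw [ha1 _ (by omega), ha2 _ (by omega), show i - 3 + 3 = i by omega]
    exact hA i (by omega) h4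
  · exact hB i (by omega) h5
  · show T i = .d (b.testBit (i - (q + 3))) false
    rw [hb1 _ (by omega), show i - (q + 3) + (q + 3) = i by omega]
    exact hI i (by omega) hi

omit hq in
theorem encT_left (y y' : Let (up q)) : EqT (2 * q) (encT q y y') (encM q y) := fun i hi => by
  simp [encT, hi]

omit hq in
theorem encT_right (y y' : Let (up q)) : sh q (encT q y y') = encM q y' := by
  funext i
  simp [sh, encT]

/-- legitimate pieces are equivalent to encodings -/
theorem parse_eqv {w r : List (Let q)} {Y : List (Let (up q))} (h : Parse w Y r) :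
    Eqv (sys q) w (Y.flatMap enc ++ r) := by
  induction h with
  | done w => exact Eqv.refl _
  | one κ it y w Y r h2 hg hit _ ih =>
    rw [List.flatMap_cons, List.append_assoc]
    exact ((good_eqv_one hg h2 it).trans (rest_sort _ hit)).append ih
  | two κ it y y' w Y r h2 hg hit hit' _ ih =>
    rw [List.flatMap_cons, List.flatMap_cons, List.append_assoc, List.append_assoc,
      ← List.append_assoc (enc y)]
    have h1 := good_eqv_two hg h2 it
    rw [restW_congr (encT_left y y') (fun _ _ => rfl), encT_right] at h1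
    exact (h1.trans ((rest_sort _ hit).append (rest_sort _ hit'))).append ih

/-- a nonzero configuration is a legitimate piece -/
theorem piece_one {κ : Cfg} (hv : Valid q κ) (h2 : κ.st.cls.two = false) {it : ℕ → Fin q}
    (hz : ¬ IsZero (sys q) (word κ it)) : ItOK q it ∧ ∃ y, Good q κ (encM q y) := by
  obtain ⟨T, hg⟩ := (nf1 hv it).resolve_left hz
  obtain ⟨hit, y, hy⟩ := (nf2 T it).resolve_left fun h =>
    hz (IsZero.of_eqv (good_eqv_one hg h2 it) h)
  refine ⟨hit, y, hg.congr fun i hi => (hy i ?_).symm⟩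
  simpa [len, h2] using hi

theorem piece_two {κ : Cfg} (hv : Valid q κ) (h2 : κ.st.cls.two = true) {it : ℕ → Fin q}
    (hz : ¬ IsZero (sys q) (word κ it)) :
    ItOK q it ∧ ItOK q (sh q it) ∧ ∃ y y', Good q κ (encT q y y') := by
  obtain ⟨T, hg⟩ := (nf1 hv it).resolve_left hz
  have he := good_eqv_two hg h2 it
  obtain ⟨hit, y, hy⟩ := (nf2 T it).resolve_left fun h => hz (IsZero.of_eqv he (h.left _))
  obtain ⟨hit', y', hy'⟩ := (nf2 (sh q T) (sh q it)).resolve_left fun h =>
    hz (IsZero.of_eqv he (h.right _))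
  refine ⟨hit, hit', y, y', hg.congr fun i hi => ?_⟩
  have hi' : i < 4 * q := by simpa [len, h2] using hi
  unfold encT
  split_ifs with h1
  · exact (hy i h1).symm
  · rw [← hy' (i - 2 * q) (by omega), sh, show i - 2 * q + 2 * q = i by omega]

/-- items of the first zone of a nonzero piece can be exchanged and are distinct -/
theorem piece_swap {κ : Cfg} (hv : Valid q κ) {it : ℕ → Fin q}
    (hz : ¬ IsZero (sys q) (word κ it)) {i j : ℕ} (hi : i < q) (hj : j < q) :
    Eqv (sys q) (word κ it) (word κ (it ∘ Equiv.swap i j)) ∧ (i ≠ j → it i ≠ it j) := by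
  obtain ⟨T, hg⟩ := (nf1 hv it).resolve_left hz
  have hs := rest_swap T it (i := i) (j := j) (Or.inl ⟨hi, hj⟩)
  cases h2 : κ.st.cls.two
  · exact ⟨(good_eqv_one hg h2 it).trans (hs.trans (good_eqv_one hg h2 _).symm),
      fun hij e => hij ((piece_one hv h2 hz).1.1 i j hi hj e)⟩
  · refine ⟨?_, fun hij e => hij ((piece_two hv h2 hz).1.1 i j hi hj e)⟩
    have h1 := good_eqv_two hg h2 (it ∘ Equiv.swap i j)
    have h3 : sh q (it ∘ Equiv.swap i j) = sh q it := by
      funext l
      simp only [sh, Function.comp_apply]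
      rw [Equiv.swap_apply_of_ne_of_ne (by omega) (by omega)]
    rw [h3] at h1
    exact (good_eqv_two hg h2 it).trans ((hs.append (Eqv.refl _)).trans h1.symm)

end Vale.Agent.P192Z.Mach
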