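import Vale.Agent.P192Z.Mach.GoodStep
import Vale.Agent.P192Z.Mach.Bits

/-!
# P192: a forbidden factor in a parsed word gives a zero word one level up
-/

namespace Vale.Agent.P192Z.Mach

variable {q : ℕ}

/-- a forbidden factor, by places -/
def ZAt (w : List (Let q)) : Prop :=
  (∃ (i : ℕ) (x : Let q), w[i]? = some x ∧ Zer [x]) ∨
    ∃ (i : ℕ) (x y : Let q), w[i]? = some x ∧ w[i + 1]? = some y ∧ Zer [x, y]

theorem zer_shape {z : List (Let q)} (h : Zer z) : (∃ x, z = [x]) ∨ ∃ x y, z = [x, y] := by
  cases h with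
  | rw x _ => exact Or.inl ⟨x, rfl⟩
  | t x _ => exact Or.inl ⟨x, rfl⟩
  | tab x k _ _ => exact Or.inl ⟨x, rfl⟩
  | last x _ => exact Or.inl ⟨x, rfl⟩
  | pair x y _ => exact Or.inr ⟨x, y, rfl⟩
  | adr x y _ => exact Or.inr ⟨x, y, rfl⟩
  | item x y _ _ => exact Or.inr ⟨x, y, rfl⟩

theorem zAt_of_hasZero {w : List (Let q)} (h : HasZero (sys q) w) : ZAt w := by
  obtain ⟨a, z, b, hz, rfl⟩ := h
  have hz' : Zer z := hz
  rcases zer_shape hz' with ⟨x, rfl⟩ | ⟨x, y, rfl⟩
  · exact Or.inl ⟨a.length, x, by simp, hz'⟩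
  · refine Or.inr ⟨a.length, x, y, by simp, ?_, hz'⟩
    rw [List.append_assoc, List.getElem?_append_right (by omega)]
    simp

theorem zer_one {x : Let q} (h : Zer [x]) : ZRW x.c x.m ∨ ZT x.c x.t ∨
    (∃ k, kind x.c = some k ∧ ZTab k x.m x.t) ∨ ¬ (x.c.fl = .last ↔ x.a.val + 1 = q) := by
  cases h with
  | rw _ h => exact Or.inl h
  | t _ h => exact Or.inr (Or.inl h)
  | tab _ k h h' => exact Or.inr (Or.inr (Or.inl ⟨k, h, h'⟩))
  | last _ h => exact Or.inr (Or.inr (Or.inr h))

theorem zer_two {x y : Let q} (h : Zer [x, y]) : ¬ okPair x.c y.c ∨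
    y.a.val ≠ (x.a.val + 1) % q ∨ (perm x.c ∧ x.it = y.it) := by
  cases h with
  | pair _ _ h => exact Or.inl h
  | adr _ _ h => exact Or.inr (Or.inl h)
  | item _ _ h h' => exact Or.inr (Or.inr ⟨h, h'⟩)

theorem dynAt_H {κ : Cfg} {i : ℕ} {s : St} {sd : Bool} (h : dynAt q κ i = .H s sd) :
    i = κ.pos ∧ s = κ.st ∧ sd = side q κ.pos := by
  unfold dynAt at h
  split_ifs at h with h1 h2
  · subst h1
    simp only [Dyn.H.injEq] at h
    exact ⟨rfl, h.1.symm, h.2.symm⟩

theorem len_cases (κ : Cfg) : (κ.st.cls.two = true ∧ len q κ = 4 * q) ∨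
    (κ.st.cls.two = false ∧ len q κ = 2 * q) := by
  unfold len
  cases h : κ.st.cls.two <;> simp

theorem cls_lk2 {s : St} (h : s.cls = .lk2) : s = .LK2 := by
  cases s <;> simp [St.cls] at h ⊢

theorem ztab_app {k : Kd} {m t : Sym} {p : Sym × Sym} (h : appF k m t = some p) : ¬ ZTab k m t := by
  cases k <;> simp [appF, ZTab] at h ⊢
  exact h.1

variable [hq : Fact (6 ≤ q)]

theorem word_get (κ : Cfg) (it : ℕ → Fin q) {i : ℕ} (hi : i < len q κ) :
    (word κ it)[i]? = some (letter κ it i) := by
  simp [word, hi]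

theorem adr_valZ {i : ℕ} (hi : i < 4 * q) : (adr q i).val = off q i := by
  have := off_spec q i
  unfold adr
  exact Nat.mod_eq_of_lt (by omega)

theorem succ_at {i : ℕ} (hi : i + 1 < 4 * q) :
    succ (znAt q i) (flAt q i) (znAt q (i + 1)) (flAt q (i + 1)) := by
  have h6 := six_le (q := q)
  have hz : (i + 1 = q ∨ i + 1 = 2 * q ∨ i + 1 = 3 * q) ∨ znAt q (i + 1) = znAt q i := by
    unfold znAt; split_ifs <;> first | (right; rfl) | (left; omega)
  have o1 := off_spec q i
  have o2 := off_spec q (i + 1)
  cases hf : flAt q i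
  · rw [flAt_p0] at hf
    exact ⟨hz.resolve_left (by omega), by rw [flAt_p1]; omega⟩
  · rw [flAt_p1] at hf
    exact ⟨hz.resolve_left (by omega), by rw [flAt_p2]; omega⟩
  · rw [flAt_p2] at hf
    exact ⟨hz.resolve_left (by omega), by rw [flAt_p3]; omega⟩
  · rw [flAt_p3] at hf
    exact ⟨hz.resolve_left (by omega), by rw [flAt_mid, flAt_last]; omega⟩
  · rw [flAt_mid] at hf
    exact ⟨hz.resolve_left (by omega), by rw [flAt_mid, flAt_last]; omega⟩
  · rw [flAt_last] at hf
    refine ⟨?_, by rw [flAt_p0]; omega⟩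
    unfold znAt; split_ifs <;> first | omega | simp

theorem dynIn_at {κ : Cfg} (hv : Valid q κ) {i : ℕ} (hi : i + 1 < len q κ) :
    DynIn (znAt q i) (flAt q i) (znAt q (i + 1)) (flAt q (i + 1)) (dynAt q κ i)
      (dynAt q κ (i + 1)) := by
  have h6 := six_le (q := q)
  have hl := len_cases (q := q) κ
  by_cases hb : i + 1 = 2 * q
  · have h2 : κ.st.cls.two = true := by
      rcases hl with h | h
      · exact h.1
      · omega
    have hz : znAt q i = .I := by rw [znAt_I]; omega
    have hf : flAt q i = .last := by rw [flAt_last]; omega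
    have s1 : side q i = false := by rw [side_false]; omega
    have s2 : side q (i + 1) = true := by rw [side_true]; omega
    have hm : κ.pos ≤ i → κ.st.cls = .main := by
      intro hp
      cases hc : κ.st.cls
      · simp [hc, Cls.two] at h2
      · simp [hc, Cls.two] at h2
      · have := hv.2 (cls_lk2 hc); omega
      · rfl
    have hF : roleL κ.st.cls false = .F := by
      cases hc : κ.st.cls <;> simp [hc, Cls.two, roleL] at h2 ⊢
    have hT : roleL κ.st.cls true = .T := by
      cases hc : κ.st.cls <;> simp [hc, Cls.two, roleL] at h2 ⊢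
    unfold dynAt
    rw [s1, s2]
    rcases lt_trichotomy i κ.pos with h | h | h
    · by_cases h' : i + 1 = κ.pos
      · rw [if_neg (by omega), if_pos h, if_pos h', hF]
        exact DynIn.LHk _ hz hf h2
      · rw [if_neg (by omega), if_pos h, if_neg h', if_pos (by omega), hF, hT]
        exact DynIn.LLk hz hf
    · rw [if_pos h, if_neg (by omega), if_neg (by omega), hm h.ge]
      exact DynIn.HRk _ hz hf (hm h.ge)
    · rw [if_neg (by omega), if_neg (by omega), if_neg (by omega), if_neg (by omega), hm h.le]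
      exact DynIn.RRk hz hf
  · have hn : ¬ (znAt q i = .I ∧ flAt q i = .last) := by
      rw [znAt_I, flAt_last]; omega
    have s1 : side q (i + 1) = side q i := by
      unfold side; simp only [decide_eq_decide]; omega
    unfold dynAt
    rw [s1]
    rcases lt_trichotomy i κ.pos with h | h | h
    · by_cases h' : i + 1 = κ.pos
      · rw [if_neg (by omega), if_pos h, if_pos h']
        exact DynIn.LH _ _ hn
      · rw [if_neg (by omega), if_pos h, if_neg h', if_pos (by omega)]
        exact DynIn.LL _ hn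
    · rw [if_pos h, if_neg (by omega), if_neg (by omega)]
      exact DynIn.HR _ _ hn
    · rw [if_neg (by omega), if_neg (by omega), if_neg (by omega), if_neg (by omega)]
      exact DynIn.RR _ hn

omit hq in
theorem lshift_at {κ : Cfg} {i : ℕ} (h : isLshift (ctlAt q κ i)) :
    i = κ.pos ∧ ∃ s, actAt q κ = .lshift s := by
  obtain ⟨s, sd, s', h1, h2⟩ := h
  obtain ⟨rfl, rfl, rfl⟩ := dynAt_H (q := q) h1
  exact ⟨rfl, s', h2⟩

theorem okPair_at {κ : Cfg} {T : ℕ → Sym} (hg : Good q κ T) {i : ℕ} (hi : i + 1 < len q κ) :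
    okPair (ctlAt q κ i) (ctlAt q κ (i + 1)) := by
  have hl := len_cases (q := q) κ
  refine ⟨succ_at (by omega), Or.inl (dynIn_at hg.valid hi), fun h => ?_⟩
  obtain ⟨hp, s, hs⟩ := lshift_at h
  rcases good_prog hg with h1 | h1 | ⟨κ', h1⟩
  · rw [hs] at h1; cases h1
  · rw [hs] at h1; cases h1
  · unfold hw at h1
    rw [hs] at h1
    have e : κ.pos - 1 = i := by omega
    simp only [e] at h1
    show κ.ptr i = false
    by_contra hc
    rw [if_pos (by simpa using hc)] at h1
    cases h1

/-- no forbidden pair inside a legitimate piece -/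
theorem not_zer_in {κ : Cfg} {T : ℕ → Sym} (hg : Good q κ T) {it : ℕ → Fin q} (hit : ItOK q it)
    {i : ℕ} (hi : i + 1 < len q κ) : ¬ Zer [letter κ it i, letter κ it (i + 1)] := by
  have hl := len_cases (q := q) κ
  have h6 := six_le (q := q)
  intro hz
  rcases zer_two hz with h | h | ⟨h, h'⟩
  · exact h (okPair_at hg hi)
  · apply h
    show (adr q (i + 1)).val = ((adr q i).val + 1) % q
    rw [adr_valZ (by omega), adr_valZ (by omega)]
    have o1 := off_spec q i
    have o2 := off_spec q (i + 1)
    by_cases hc : off q i + 1 = q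
    · rw [hc, Nat.mod_self]; omega
    · rw [Nat.mod_eq_of_lt (by omega)]; omega
  · obtain ⟨h1, h2⟩ := h
    obtain ⟨hp, hs, -⟩ := dynAt_H (q := q) h1
    have h3 : len q κ = 2 * q := by
      rcases hl with h | h
      · rw [← hs] at h; simp [St.cls, Cls.two] at h
      · exact h.2
    have h4 : ¬ (i + 1 = q ∨ i + 1 = 2 * q ∨ i + 1 = 3 * q ∨ i + 1 = 4 * q) := by
      rw [← flAt_last]; exact h2
    have h5 : it i = it (i + 1) := h'
    by_cases hc : i < q
    · have := hit.1 i (i + 1) hc (by omega) h5; omega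
    · have := hit.2 i (i + 1) (by omega) (by omega) (by omega) (by omega) h5; omega

/-- no forbidden pair across a cut -/
theorem not_zer_cut {κ κ' : Cfg} (hv : Valid q κ) (hv' : Valid q κ') (it it' : ℕ → Fin q) {i : ℕ}
    (hi : i + 1 = len q κ) : ¬ Zer [letter κ it i, letter κ' it' 0] := by
  have hl := len_cases (q := q) κ
  have h6 := six_le (q := q)
  have hz : znAt q i = .I := by rw [znAt_I]; omega
  have hf : flAt q i = .last := by rw [flAt_last]; omega
  have hz0 : znAt q 0 = .A := by rw [znAt_A]; omega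
  have hf0 : flAt q 0 = .p0 := by rw [flAt_p0]; omega
  have s0 : side q 0 = false := by rw [side_false]; omega
  intro h0
  rcases zer_two h0 with h | h | ⟨h, -⟩
  · apply h
    refine ⟨?_, Or.inr ⟨hz, hf, ?_, ?_⟩, fun h => ?_⟩
    · show succ (znAt q i) (flAt q i) (znAt q 0) (flAt q 0)
      rw [hz, hf, hz0, hf0]
      simp [succ]
    · show endD (dynAt q κ i)
      have hp := hv.1
      have hs : κ.st.cls = .main → side q i = true := by
        intro hm
        rw [side_true]
        rcases hl with h | h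
        · omega
        · rw [hm] at h; simp [Cls.two] at h
      unfold dynAt
      split_ifs with h1 h2
      · rintro ⟨a, b⟩
        rw [hs a] at b; cases b
      · omega
      · show roleR κ.st.cls (side q i) ≠ .F
        cases hc : κ.st.cls
        · simp [roleR]
        · simp [roleR]
        · simp [roleR]
        · rw [hs hc]; simp [roleR]
    · show begD (dynAt q κ' 0)
      unfold dynAt
      split_ifs with h1 h2
      · exact s0
      · show roleL κ'.st.cls (side q 0) ≠ .T
        rw [s0]
        cases κ'.st.cls <;> simp [roleL]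
      · omega
    · obtain ⟨hp, s, hs⟩ := lshift_at h
      have := (act_left hv' (Or.inr hs)).2.1
      omega
  · apply h
    show (adr q 0).val = ((adr q i).val + 1) % q
    rw [adr_valZ (by omega), adr_valZ (by omega)]
    have o1 := off_spec q i
    have o2 := off_spec q 0
    have hc : off q i + 1 = q := by omega
    rw [hc, Nat.mod_self]; omega
  · exact h.2 hf

omit hq in
theorem tkind_cases {zn : Zn} {fl : Fl} {sd : Bool} {s : St} {k : Kd}
    (h : tkind zn fl sd s = some k) :
    (∃ r, s = .OC r ∧ zn = .A ∧ fl = .p0 ∧ k = r.kd) ∨ (s = .O6b ∧ k = .car) ∨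
      (s = .O3b k ∧ zn = .A ∧ fl = .p1) ∨ (s = .O4a ∧ sd = false ∧ zn = .A ∧ fl = .p0 ∧ k = .mv) ∨
      (s = .Q3 .addr ∧ k = .addr) := by
  cases s with
  | OC r =>
    simp only [tkind] at h
    split_ifs at h with h1
    exact Or.inl ⟨r, rfl, h1.1, h1.2, (Option.some.inj h).symm⟩
  | O6b => exact Or.inr (Or.inl ⟨rfl, (Option.some.inj h).symm⟩)
  | O3b k' =>
    simp only [tkind] at h
    split_ifs at h with h1
    obtain rfl := Option.some.inj h
    exact Or.inr (Or.inr (Or.inl ⟨rfl, h1.1, h1.2⟩))
  | O4a =>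
    simp only [tkind] at h
    split_ifs at h with h1
    exact Or.inr (Or.inr (Or.inr (Or.inl ⟨rfl, h1.1, h1.2.1, h1.2.2, (Option.some.inj h).symm⟩)))
  | Q3 r =>
    cases r with
    | addr => exact Or.inr (Or.inr (Or.inr (Or.inr ⟨rfl, (Option.some.inj h).symm⟩)))
    | swap => simp [tkind] at h
    | eq => simp [tkind] at h
  | _ => simp [tkind] at h

/-- the forbidden letters that can occur in a legitimate configuration -/
theorem zer_head {κ : Cfg} {T : ℕ → Sym} (hg : Good q κ T) {it : ℕ → Fin q} {i : ℕ}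
    (hi : i < len q κ) (hz : Zer [letter κ it i]) :
    (κ.st = .W ∧ Wviol (znAt q κ.pos) (flAt q κ.pos) (κ.ptr κ.pos) (κ.mn κ.pos)) ∨
      (κ.st = .Q0 .eq ∧ κ.pos + 1 = 2 * q) ∨
      ∃ k, tkind (znAt q κ.pos) (flAt q κ.pos) (side q κ.pos) κ.st = some k ∧
        ZTab k (κ.mn κ.pos) κ.tr := by
  have hl := len_cases (q := q) κ
  have h6 := six_le (q := q)
  have hp := good_prog hg
  rcases zer_one hz with h | h | ⟨k, h, h'⟩ | h
  · have key : ∀ c m, ZRW c m → c = ctlAt q κ i → m = κ.mn i →
        (κ.st = .W ∧ Wviol (znAt q κ.pos) (flAt q κ.pos) (κ.ptr κ.pos) (κ.mn κ.pos)) ∨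
          (κ.st = .Q0 .eq ∧ κ.pos + 1 = 2 * q) := by
      intro c m hc e e'
      cases hc with
      | dead zn fl π s sd m ha =>
        simp only [ctlAt, Ctl.mk.injEq] at e
        obtain ⟨rfl, rfl, rfl, e⟩ := e
        obtain ⟨rfl, rfl, rfl⟩ := dynAt_H (q := q) e.symm
        have ha' : actAt q κ = .dead := ha
        unfold hw at hp
        rw [ha'] at hp
        simp at hp
      | stuck zn fl π s sd m ha hr =>
        simp only [ctlAt, Ctl.mk.injEq] at e
        obtain ⟨rfl, rfl, rfl, e⟩ := e
        obtain ⟨rfl, rfl, rfl⟩ := dynAt_H (q := q) e.symm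
        have ha' : actAt q κ = .rw := ha
        unfold hw at hp
        rw [ha'] at hp
        subst e'
        simp [hr] at hp
      | viol zn fl π m hv =>
        simp only [ctlAt, Ctl.mk.injEq] at e
        obtain ⟨rfl, rfl, rfl, e⟩ := e
        obtain ⟨rfl, hs, -⟩ := dynAt_H (q := q) e.symm
        subst e'
        exact Or.inl ⟨hs.symm, hv⟩
      | eq m =>
        simp only [ctlAt, Ctl.mk.injEq] at e
        obtain ⟨e1, e2, -, e⟩ := e
        obtain ⟨rfl, hs, hd⟩ := dynAt_H (q := q) e.symm
        have a1 := (znAt_I _).1 e1.symm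
        have a2 := (flAt_last _).1 e2.symm
        have a3 := (side_false _).1 hd.symm
        exact Or.inr ⟨hs.symm, by omega⟩
    rcases key _ _ h rfl rfl with h | h
    · exact Or.inl h
    · exact Or.inr (Or.inl h)
  · exfalso
    obtain ⟨h1, h2⟩ := h
    have h3 : i = κ.pos := by
      by_contra hc
      exact h1 (if_neg hc)
    subst h3
    have h4 : (ctlAt q κ κ.pos).dyn = .H κ.st (side q κ.pos) := if_pos rfl
    have h5 : κ.tr ≠ blank := by
      intro hc
      exact h1 ((if_pos rfl).trans hc)
    rcases h2 with ⟨r, h2⟩ | ⟨r, h2⟩ | h2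
    · cases h4.symm.trans h2
    · cases h4.symm.trans h2
    · have h6 : κ.st = .W := by
        have := h4.symm.trans h2
        simp only [Dyn.H.injEq] at this
        exact this.1
      unfold Good at hg
      rw [h6] at hg
      exact h5 hg.2.2.1
  · right; right
    have h3 : i = κ.pos := by
      by_contra hc
      have h1 : kind (ctlAt q κ i) = some k := h
      unfold kind ctlAt dynAt at h1
      simp only [if_neg hc] at h1
      split_ifs at h1
    subst h3
    have h1 : kind (ctlAt q κ κ.pos) = some k := h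
    have h2 : ZTab k (κ.mn κ.pos) κ.tr := by
      have e : (letter κ it κ.pos).t = κ.tr := if_pos rfl
      rw [e] at h'
      exact h'
    unfold kind ctlAt dynAt at h1
    simp only [if_true] at h1
    have e : act (znAt q κ.pos) (flAt q κ.pos) (κ.ptr κ.pos) κ.st (side q κ.pos) = actAt q κ := rfl
    rw [e] at h1
    unfold hw at hp
    cases ha : actAt q κ with
    | app k' s π =>
      exfalso
      rw [ha] at h1 hp
      obtain rfl : k' = k := Option.some.inj h1
      cases hf : appF k' (κ.mn κ.pos) κ.tr with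
      | none => simp [hf] at hp
      | some p => exact ztab_app hf h2
    | _ => rw [ha] at h1; exact ⟨k, h1, h2⟩
  · exfalso
    apply h
    show flAt q i = .last ↔ (adr q i).val + 1 = q
    rw [adr_valZ (by omega), flAt_last]
    have o1 := off_spec q i
    omega

omit hq in
theorem encM_A (y : Let (up q)) {i : ℕ} (h1 : 3 ≤ i) (h2 : i < q) :
    encM q y i = .d (y.a.val.testBit (i - 3)) (carry y.a.val (i - 3)) := by
  unfold encM
  rw [if_neg (by omega), if_neg (by omega), if_neg (by omega), if_pos h2]

omit hq in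
theorem encM_I (y : Let (up q)) {i : ℕ} (h1 : q + 3 ≤ i) :
    encM q y i = .d (y.it.val.testBit (i - (q + 3))) false := by
  unfold encM
  rw [if_neg (by omega), if_neg (by omega), if_neg (by omega), if_neg (by omega),
    if_neg (by omega)]

theorem encM_blank (y : Let (up q)) {i : ℕ} (h1 : q ≤ i) (h2 : i < q + 3) :
    encM q y i = blank := by
  have h6 := six_le (q := q)
  unfold encM
  rw [if_neg (by omega), if_neg (by omega), if_neg (by omega), if_neg (by omega), if_pos h2]

theorem not_wviol (y : Let (up q)) {i : ℕ} (hi : i < 2 * q) :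
    ¬ Wviol (znAt q i) (flAt q i) false (encM q y i) := by
  have h6 := six_le (q := q)
  rintro (h | ⟨h1, h2, h⟩ | ⟨h1, h2, h⟩ | ⟨h1, h2, b, h⟩ | ⟨h1, h2, h⟩ | ⟨h1, h2, h⟩)
  · cases h
  · rw [znAt_A] at h1; rw [flAt_p0] at h2
    have : i = 0 := by omega
    subst this
    exact h _ rfl
  · rw [znAt_A] at h1; rw [flAt_data] at h2
    exact h _ _ (encM_A y (by omega) (by omega))
  · rw [znAt_A] at h1; rw [flAt_p3] at h2
    have : i = 3 := by omega
    subst this
    rw [encM_A y le_rfl (by omega), Nat.sub_self, carry_zero] at h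
    cases h
  · rw [znAt_I] at h1
    have h3 : ¬ ((flAt q i).data = true) := by simp [h2]
    rw [flAt_data] at h3
    exact h (encM_blank y (by omega) (by omega))
  · rw [znAt_I] at h1; rw [flAt_data] at h2
    exact h _ (encM_I y (by omega))

/-- a forbidden letter in a piece of one block -/
theorem zer_piece_one {κ : Cfg} {y : Let (up q)} (h2 : κ.st.cls.two = false)
    (hg : Good q κ (encM q y)) {it : ℕ → Fin q} {i : ℕ} (hi : i < len q κ)
    (hz : Zer [letter κ it i]) : Zer [y] := by
  have h6 := six_le (q := q)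
  rcases zer_head hg hi hz with ⟨hs, h⟩ | ⟨hs, -⟩ | ⟨k, h, h'⟩
  · exfalso
    unfold Good at hg
    rw [hs] at hg
    obtain ⟨a1, a2, -, a4⟩ := hg
    rw [a2 _ a1, ← a4 _ a1] at h
    exact not_wviol y a1 h
  · rw [hs] at h2; simp [St.cls, Cls.two] at h2
  · rcases tkind_cases h with ⟨r, hs, b1, b2, rfl⟩ | ⟨hs, rfl⟩ | ⟨hs, b1, b2⟩ | ⟨hs, -⟩ | ⟨hs, -⟩
    · unfold Good at hg
      rw [hs] at hg
      obtain ⟨a1, -, -, a4⟩ := hg
      rw [flAt_p0] at b2
      have hr : 0 < srcPos q r ∧ srcPos q r < q := by
        cases r <;> simp only [srcPos] <;> omega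
      have hp : κ.pos = 0 := by omega
      have m0 : κ.mn κ.pos = .c y.c := by
        have := a4 0 (by omega)
        unfold put at this
        rw [if_neg (by omega)] at this
        rw [hp, ← this]; rfl
      have t0 : κ.tr = encM q y (srcPos q r) := by
        have := a4 (srcPos q r) (by omega)
        unfold put at this
        rw [if_pos rfl] at this
        exact this.symm
      rw [m0, t0] at h'
      cases r with
      | m =>
        obtain ⟨c, e, hc⟩ := h'
        cases e
        exact Zer.rw y hc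
      | t =>
        obtain ⟨c, e, hc⟩ := h'
        cases e
        exact Zer.t y hc
      | out =>
        obtain ⟨c, b, z, e, e', hc⟩ := h'
        cases e
        refine Zer.last y fun hh => hc ?_
        simp only [srcPos] at e'
        rw [encM_A y (by omega) (by omega)] at e'
        cases e'
        rw [← carry_succ, show q - 1 - 3 + 1 = q - 3 by omega, carry_top y.a.isLt]
        exact hh
    · exfalso
      unfold Good at hg
      rw [hs] at hg
      obtain ⟨a1, a2, -, -, a4⟩ := hg
      have m0 := a4 κ.pos (by omega)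
      have t0 := a4 (κ.pos - 1) (by omega)
      unfold put at m0 t0
      rw [if_neg (by omega), encM_A y (by omega) a2] at m0
      rw [if_pos rfl, encM_A y (by omega) (by omega)] at t0
      obtain ⟨b, z, b', z', e, e', hc⟩ := h'
      rw [← t0] at e
      rw [← m0] at e'
      cases e
      cases e'
      apply hc
      rw [← carry_succ, show κ.pos - 1 - 3 + 1 = κ.pos - 3 by omega]
    · unfold Good at hg
      rw [hs] at hg
      obtain ⟨a1, -, -, a3, a4⟩ := hg
      rw [flAt_p1] at b2
      have hp : κ.pos = 1 := by omega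
      have m0 := a4 0 (by omega)
      have m1 := a4 1 (by omega)
      have m2 := a4 2 (by omega)
      unfold put at m0 m1 m2
      rw [if_neg (by omega)] at m0 m1
      rw [if_pos rfl] at m2
      rw [← m0] at a3
      rw [hp, ← m1, ← m2] at h'
      exact Zer.tab y k a3 h'
    · rw [hs] at h2; simp [St.cls, Cls.two] at h2
    · rw [hs] at h2; simp [St.cls, Cls.two] at h2

omit hq in
theorem encT_loZ (y y' : Let (up q)) {i : ℕ} (h : i < 2 * q) : encT q y y' i = encM q y i :=
  if_pos h

omit hq in
theorem encT_hiZ (y y' : Let (up q)) (i : ℕ) : encT q y y' (i + 2 * q) = encM q y' i := by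
  unfold encT
  rw [if_neg (by omega), Nat.add_sub_cancel]

/-- a forbidden letter in a piece of two blocks -/
theorem zer_piece_two {κ : Cfg} {y y' : Let (up q)} (h2 : κ.st.cls.two = true)
    (hg : Good q κ (encT q y y')) {it : ℕ → Fin q} {i : ℕ} (hi : i < len q κ)
    (hz : Zer [letter κ it i]) : Zer [y, y'] := by
  have h6 := six_le (q := q)
  rcases zer_head hg hi hz with ⟨hs, h⟩ | ⟨hs, hp⟩ | ⟨k, h, h'⟩
  · rw [hs] at h2; simp [St.cls, Cls.two] at h2
  · unfold Good at hg
    rw [hs] at hg
    obtain ⟨j, a1, a2, -, -, a5, a6, a7⟩ := hg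
    simp only [zo] at a2
    have hT : ∀ l < 4 * q, encT q y y' l = κ.mn l := by
      intro l hl
      rw [a7 l hl]
      simp [undo]
    refine Zer.item y y' ?_ ?_
    · rcases a5 with a5 | a5
      · cases a5
      · rw [← hT 0 (by omega), encT_loZ y y' (by omega)] at a5
        exact a5
    · apply Fin.ext
      by_contra hc
      obtain ⟨l, hl, hb⟩ := exists_bit_ne y.it.isLt y'.it.isLt hc
      have e := a6 rfl (q + 3 + l) (by omega) (by omega)
      rw [← hT _ (by omega), ← hT _ (by omega), encT_loZ y y' (by omega), encT_hiZ,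
        encM_I y (by omega), encM_I y' (by omega), Nat.add_sub_cancel_left] at e
      simp only [Sym.d.injEq] at e
      exact hb e.1
  · rcases tkind_cases h with ⟨r, hs, -⟩ | ⟨hs, -⟩ | ⟨hs, -⟩ | ⟨hs, b0, b1, b2, rfl⟩ | ⟨hs, rfl⟩
    · rw [hs] at h2; simp [St.cls, Cls.two] at h2
    · rw [hs] at h2; simp [St.cls, Cls.two] at h2
    · rw [hs] at h2; simp [St.cls, Cls.two] at h2
    · unfold Good at hg
      rw [hs] at hg
      obtain ⟨a1, -, -, a4⟩ := hg
      rw [side_false] at b0; rw [znAt_A] at b1; rw [flAt_p0] at b2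
      have hp : κ.pos = 0 := by omega
      have m0 := a4 0 (by omega)
      have t0 := a4 (0 + 2 * q) (by omega)
      unfold put at m0 t0
      rw [if_neg (by omega), encT_loZ y y' (by omega)] at m0
      rw [if_pos (by omega), encT_hiZ] at t0
      rw [hp, ← m0, ← t0] at h'
      obtain ⟨c, c', e, e', hc⟩ := h'
      cases e
      cases e'
      exact Zer.pair y y' hc
    · unfold Good at hg
      rw [hs] at hg
      obtain ⟨j, a1, a2, -, -, -, -, a7⟩ := hg
      simp only [zo] at a2 a7
      have m0 := a7 (3 + j + 2 * q) (by omega)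
      have t0 := a7 (3 + j) (by omega)
      simp only [undo, reduceCtorEq, false_and, if_false, put] at m0 t0
      rw [if_neg (by omega), encT_hiZ, encM_A y' (by omega) (by omega)] at m0
      rw [encT_loZ y y' (by omega), encM_A y (by omega) (by omega)] at t0
      simp only [if_true] at t0
      have hp : κ.pos = 3 + j + 2 * q := by omega
      rw [hp, ← m0, ← t0] at h'
      obtain ⟨b, z, b', z', e, e', hc⟩ := h'
      cases e
      cases e'
      refine Zer.adr y y' fun hh => hc ?_
      rw [hh]
      exact succ_mod_testBit _ (by omega)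

theorem parse_head {w : List (Let q)} {Y : List (Let (up q))} (h : Parse w Y []) {x : Let q}
    (hx : w[0]? = some x) : ∃ κ it, Valid q κ ∧ x = letter κ it 0 := by
  have h6 := six_le (q := q)
  have key : ∀ (κ : Cfg) (it : ℕ → Fin q) (w' : List (Let q)), Valid q κ →
      (word κ it ++ w')[0]? = some x → ∃ κ it, Valid q κ ∧ x = letter κ it 0 := by
    intro κ it w' hv hx
    have hl := len_cases (q := q) κ
    rw [List.getElem?_append_left (by rw [length_word]; omega), word_get κ it (by omega)] at hx
    exact ⟨κ, it, hv, (Option.some.inj hx).symm⟩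
  generalize hr : ([] : List (Let q)) = r at h
  cases h with
  | done => subst hr; simp at hx
  | one κ it y w Y r _ hg _ _ => exact key κ it w hg.valid hx
  | two κ it y y' w Y r _ hg _ _ _ => exact key κ it w hg.valid hx

/-- where a forbidden factor lies in a piece followed by a parsed word -/
theorem zAt_split {κ : Cfg} {T : ℕ → Sym} (hg : Good q κ T) {it : ℕ → Fin q} (hit : ItOK q it)
    {w : List (Let q)} {Y : List (Let (up q))} (h : Parse w Y []) (hz : ZAt (word κ it ++ w)) :
    (∃ i < len q κ, Zer [letter κ it i]) ∨ ZAt w := by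
  rcases hz with ⟨i, x, hx, hz⟩ | ⟨i, x, y, hx, hy, hz⟩
  · by_cases hi : i < len q κ
    · rw [List.getElem?_append_left (by rw [length_word]; omega), word_get κ it hi] at hx
      obtain rfl := Option.some.inj hx
      exact Or.inl ⟨i, hi, hz⟩
    · rw [List.getElem?_append_right (by rw [length_word]; omega)] at hx
      exact Or.inr (Or.inl ⟨_, x, hx, hz⟩)
  · by_cases hi : i < len q κ
    · exfalso
      rw [List.getElem?_append_left (by rw [length_word]; omega), word_get κ it hi] at hx
      obtain rfl := Option.some.inj hx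
      by_cases hi' : i + 1 < len q κ
      · rw [List.getElem?_append_left (by rw [length_word]; omega), word_get κ it hi'] at hy
        obtain rfl := Option.some.inj hy
        exact not_zer_in hg hit hi' hz
      · rw [List.getElem?_append_right (by rw [length_word]; omega), length_word,
          show i + 1 - len q κ = 0 by omega] at hy
        obtain ⟨κ', it', hv', rfl⟩ := parse_head h hy
        exact not_zer_cut hg.valid hv' it it' (by omega) hz
    · rw [List.getElem?_append_right (by rw [length_word]; omega)] at hx hy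
      refine Or.inr (Or.inr ⟨_, x, y, hx, ?_, hz⟩)
      rw [← hy, length_word]
      congr 1
      omega

theorem parse_zAt {w r : List (Let q)} {Y : List (Let (up q))} (h : Parse w Y r) (hr : r = [])
    (hz : ZAt w) : IsZero (sys (up q)) Y := by
  induction h with
  | done w =>
    subst hr
    rcases hz with ⟨i, x, hx, -⟩ | ⟨i, x, y, hx, -⟩ <;> simp at hx
  | one κ it y w Y r h2 hg hit hp ih =>
    subst hr
    rcases zAt_split hg hit hp hz with ⟨i, hi, h1⟩ | h1
    · exact (IsZero.of_mem (P := sys (up q)) (zer_piece_one h2 hg hi h1)).left Y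
    · exact (ih rfl h1).right [y]
  | two κ it y y' w Y r h2 hg hit _ hp ih =>
    subst hr
    rcases zAt_split hg hit hp hz with ⟨i, hi, h1⟩ | h1
    · exact (IsZero.of_mem (P := sys (up q)) (zer_piece_two h2 hg hi h1)).left Y
    · exact (ih rfl h1).right [y, y']

theorem parse_zero {w : List (Let q)} {Y : List (Let (up q))} (h : Parse w Y [])
    (hz : HasZero (sys q) w) : IsZero (sys (up q)) Y :=
  parse_zAt h rfl (zAt_of_hasZero hz)

theorem itOK_adr' : ItOK q (adr q) := by
  have h6 := six_le (q := q)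
  refine ⟨fun i j hi hj h => ?_, fun i j hi hi' hj hj' h => ?_⟩
  · have e := congrArg Fin.val h
    rw [adr_valZ (by omega), adr_valZ (by omega)] at e
    have o1 := off_spec q i
    have o2 := off_spec q j
    omega
  · have e := congrArg Fin.val h
    rw [adr_valZ (by omega), adr_valZ (by omega)] at e
    have o1 := off_spec q i
    have o2 := off_spec q j
    omega

theorem parse_enc (Y : List (Let (up q))) : Parse (Y.flatMap enc) Y [] := by
  have h6 := six_le (q := q)
  induction Y with
  | nil => exact Parse.done []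
  | cons y Y ih =>
    rw [List.flatMap_cons]
    refine Parse.one (restCfg (encM q y)) (adr q) y _ Y [] rfl ?_ itOK_adr' ih
    exact ⟨by show 0 < 2 * q; omega, fun _ _ => rfl, rfl, fun _ _ => rfl⟩

/-- faithfulness, from the statement on single steps -/
theorem sound_of
    (hstep : ∀ {w w' : List (Let q)} {Y : List (Let (up q))}, Parse w Y [] →
      (Step (sys q) w w' ∨ Step (sys q) w' w) → ∃ Y', Parse w' Y' [] ∧ Eqv (sys (up q)) Y Y')
    {Y : List (Let (up q))} (h : ¬ IsZero (sys (up q)) Y) :
    ¬ IsZero (sys q) (Y.flatMap enc) := by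
  have key : ∀ u v : List (Let q), Eqv (sys q) u v →
      (∀ Y, Parse u Y [] → ∃ Y', Parse v Y' [] ∧ Eqv (sys (up q)) Y Y') ∧
        ∀ Y, Parse v Y [] → ∃ Y', Parse u Y' [] ∧ Eqv (sys (up q)) Y Y' := by
    intro u v huv
    induction huv with
    | rel x y h => exact ⟨fun Y hY => hstep hY (Or.inl h), fun Y hY => hstep hY (Or.inr h)⟩
    | refl x => exact ⟨fun Y hY => ⟨Y, hY, Eqv.refl _⟩, fun Y hY => ⟨Y, hY, Eqv.refl _⟩⟩
    | symm x y _ ih => exact ⟨ih.2, ih.1⟩
    | trans x y z _ _ ih1 ih2 =>
      refine ⟨fun Y hY => ?_, fun Y hY => ?_⟩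
      · obtain ⟨Y1, a, b⟩ := ih1.1 Y hY
        obtain ⟨Y2, c, d⟩ := ih2.1 Y1 a
        exact ⟨Y2, c, b.trans d⟩
      · obtain ⟨Y1, a, b⟩ := ih2.2 Y hY
        obtain ⟨Y2, c, d⟩ := ih1.2 Y1 a
        exact ⟨Y2, c, b.trans d⟩
  rintro ⟨w, hw, hz⟩
  obtain ⟨Y', a, b⟩ := (key _ _ hw).1 Y (parse_enc Y)
  exact h (IsZero.of_eqv b (parse_zero a hz))

end Vale.Agent.P192Z.Mach
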