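import Vale.Agent.P192Z.Mach.Rest
import Vale.Agent.P192Z.Mach.SoundZero

/-!
# P192: relations of degree one on legitimate pieces
-/

set_option linter.unusedSimpArgs false
set_option linter.unusedVariables false
set_option linter.unusedSectionVars false

namespace Vale.Agent.P192Z.Mach

/-- relations of degree one, on the data of the head -/
inductive One (zn : Zn) (fl : Fl) (sd : Bool) :
    Bool → St → Sym → Sym → Bool → St → Sym → Sym → Prop
  | rw (π s m t s' m') : act zn fl π s sd = .rw → rwF s m = some (s', m') →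
      One zn fl sd π s m t π s' m' t
  | app (π s m t k π' s' m' t') : act zn fl π s sd = .app k s' π' → appF k m t = some (m', t') →
      One zn fl sd π s m t π' s' m' t'
  | c1 (π c t c' t') : zn = .A → fl = .p0 → RW c t c' t' →
      One zn fl sd π (.OC .m) (.c c) t π (.OC .m) (.c c') t'
  | c2 (π k m t m' t') : zn = .A → fl = .p1 → Tab k m t m' t' →
      One zn fl sd π (.O3b k) m t π (.O3c k) m' t'
  | c3 (π c c' d d') : sd = false → zn = .A → fl = .p0 → Mv c c' d d' →
      One zn fl sd π .O4a (.c c) (.c c') π .O4b (.c d) (.c d')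
  | c4 (m t) : zn = .I → fl = .last → sd = false →
      One zn fl sd true (.Q0 .swap) m t false .Q5 m t

theorem rel_one {q : ℕ} {x x' : Let q} (h : Rel [x] [x']) :
    ∃ zn fl sd π s m t π' s' m' t' a i, x = ⟨⟨zn, fl, π, .H s sd⟩, m, t, a, i⟩ ∧
      x' = ⟨⟨zn, fl, π', .H s' sd⟩, m', t', a, i⟩ ∧ One zn fl sd π s m t π' s' m' t' := by
  cases h with
  | rw c m c' m' t a i h =>
    cases h with
    | home zn fl π s sd m s' m' h1 h2 =>
      exact ⟨_, _, _, _, _, _, _, _, _, _, _, _, _, rfl, rfl, One.rw _ _ _ _ _ _ h1 h2⟩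
    | commit m => exact ⟨_, _, _, _, _, _, _, _, _, _, _, _, _, rfl, rfl, One.c4 _ _ rfl rfl rfl⟩
  | ap c k m t m' t' a i hk h =>
    obtain ⟨zn, fl, π, dyn⟩ := c
    cases dyn with
    | L r => simp [kind] at hk
    | R r => simp [kind] at hk
    | H s sd =>
      by_cases ha : ∃ k' s' π', act zn fl π s sd = .app k' s' π'
      · obtain ⟨k', s', π', ha⟩ := ha
        simp only [kind, ha] at hk
        obtain rfl := Option.some.inj hk
        simp only [next, ha]
        refine ⟨_, _, _, _, _, _, _, _, _, _, _, _, _, rfl, rfl, One.app _ _ _ _ k' _ _ _ _ ha ?_⟩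
        rcases act_app_kind ha with rfl | rfl | rfl <;> exact h
      · have hk' : tkind zn fl sd s = some k := by
          simp only [kind] at hk
          split at hk
          · rename_i k' s' π' ha'
            exact absurd ⟨_, _, _, ha'⟩ ha
          · exact hk
        have hn : next ⟨zn, fl, π, .H s sd⟩ = ⟨zn, fl, π, .H (tnext s) sd⟩ := by
          simp only [next]
          split
          · rename_i k' s' π' ha'
            exact absurd ⟨_, _, _, ha'⟩ ha
          · rfl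
        rw [hn]
        rcases tkind_cases hk' with ⟨r, rfl, b1, b2, rfl⟩ | ⟨rfl, rfl⟩ | ⟨rfl, b1, b2⟩ |
          ⟨rfl, b0, b1, b2, rfl⟩ | ⟨rfl, rfl⟩
        · cases r with
          | m =>
            obtain ⟨c, c', rfl, rfl, h⟩ := h
            exact ⟨_, _, _, _, _, _, _, _, _, _, _, _, _, rfl, rfl, One.c1 _ _ _ _ _ b1 b2 h⟩
          | t => simp [Src.kd, Tab, appF] at h
          | out => simp [Src.kd, Tab, appF] at h
        · simp [Tab, appF] at h
        · exact ⟨_, _, _, _, _, _, _, _, _, _, _, _, _, rfl, rfl, One.c2 _ _ _ _ _ _ b1 b2 h⟩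
        · obtain ⟨c, c', d, d', rfl, rfl, rfl, rfl, h⟩ := h
          exact ⟨_, _, _, _, _, _, _, _, _, _, _, _, _, rfl, rfl, One.c3 _ _ _ _ _ b0 b1 b2 h⟩
        · simp [Tab, appF] at h

theorem act_live {zn : Zn} {fl : Fl} {π sd : Bool} {s : St} (h : act zn fl π s sd ≠ .dead) :
    (s.cls.two = false → sd = false) ∧ (s = .LK2 → sd = true) := by
  unfold act at h
  split_ifs at h with h1 h2
  · exact absurd rfl h
  · exact absurd rfl h
  · cases sd <;> simp_all

theorem act_app_two {zn : Zn} {fl : Fl} {π π' sd : Bool} {s s' : St} {k : Kd}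
    (h : act zn fl π s sd = .app k s' π') : s'.cls.two = s.cls.two ∧ s ≠ .LK2 := by
  unfold act at h
  split_ifs at h
  cases s <;> simp only [act0, goL, goR] at h <;> split_ifs at h <;>
    obtain ⟨-, rfl, -⟩ := Act.app.inj h <;> exact ⟨rfl, by simp⟩

theorem act_left_cls {zn : Zn} {fl : Fl} {π sd : Bool} {s s' : St}
    (h : act zn fl π s sd = .left s' ∨ act zn fl π s sd = .lshift s') : s'.cls = s.cls := by
  unfold act at h
  split_ifs at h
  · simp at h
  · simp at h
  rcases h with h | h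
  · cases s <;> simp only [act0, goL, goR] at h <;> split_ifs at h <;>
      obtain rfl := Act.left.inj h <;> rfl
  · cases s <;> simp only [act0, goL, goR] at h <;> split_ifs at h <;>
      obtain rfl := Act.lshift.inj h <;> rfl

theorem act_right_ne {zn : Zn} {fl : Fl} {π sd : Bool} {s : St}
    (h : act zn fl π s sd = .right) : s ≠ .LK2 := by
  rintro rfl
  unfold act at h
  split_ifs at h
  simp only [act0] at h
  split_ifs at h

theorem act_cross_eq {zn : Zn} {fl : Fl} {π sd : Bool} {s : St}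
    (h : act zn fl π s sd = .cross) : s = .LK2 ∧ sd = true := by
  have h1 := (act_live (zn := zn) (fl := fl) (π := π) (sd := sd) (s := s) (by rw [h]; simp)).2
  have h2 : s = .LK2 := by
    unfold act at h
    split_ifs at h
    cases s <;> simp only [act0, goL, goR] at h <;> first | rfl | split_ifs at h
  exact ⟨h2, h1 h2⟩

theorem act_lshift_true {zn : Zn} {fl : Fl} {π sd : Bool} {s s' : St}
    (h : act zn fl π s sd = .lshift s') : π = true := by
  unfold act at h
  split_ifs at h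
  cases s
  case Q1 s =>
    simp only [act0] at h
    split_ifs at h with hc
    exact hc.2.1
  case Q3 s =>
    simp only [act0] at h
    split_ifs at h with hc
    exact hc.2.1
  all_goals
    simp only [act0, goL, goR] at h
    split_ifs at h

variable {q : ℕ} [hq : Fact (6 ≤ q)]

/-- the encoded word changes by an equivalence -/
def Keep (q : ℕ) (κ κ' : Cfg) : Prop :=
  κ'.st.cls.two = κ.st.cls.two ∧
    (κ.st.cls.two = false → ∀ y, Good q κ (encM q y) →
      ∃ y', Good q κ' (encM q y') ∧ Eqv (sys (up q)) [y] [y']) ∧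
    (κ.st.cls.two = true → ∀ y z, Good q κ (encT q y z) →
      ∃ y' z', Good q κ' (encT q y' z') ∧ Eqv (sys (up q)) [y, z] [y', z'])

theorem keep_hw {κ κ' : Cfg} (hv : Valid q κ) (h : hw q κ = some κ') :
    Keep q κ κ' ∧ Keep q κ' κ :=
  ⟨⟨(hw_valid hv h).2, fun _ y hg => ⟨y, (good_hw hv h _).1 hg, Eqv.refl _⟩,
    fun _ y z hg => ⟨y, z, (good_hw hv h _).1 hg, Eqv.refl _⟩⟩,
   ⟨(hw_valid hv h).2.symm, fun _ y hg => ⟨y, (good_hw hv h _).2 hg, Eqv.refl _⟩,
    fun _ y z hg => ⟨y, z, (good_hw hv h _).2 hg, Eqv.refl _⟩⟩⟩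

omit hq in
theorem encM_rest {y y' : Let (up q)} (ha : y.a = y'.a) (hi : y.it = y'.it) {i : ℕ} (h : 3 ≤ i) :
    encM q y i = encM q y' i := by
  have e0 : i ≠ 0 := by omega
  have e1 : i ≠ 1 := by omega
  have e2 : i ≠ 2 := by omega
  simp only [encM, e0, e1, e2, if_false, ha, hi]

omit hq in
/-- a tape which encodes a letter -/
theorem eqT_encM {y : Let (up q)} {f : ℕ → Sym} (h6 : 6 ≤ q) :
    EqT (2 * q) (encM q y) f ↔ f 0 = .c y.c ∧ f 1 = y.m ∧ f 2 = y.t ∧
      ∀ i, 3 ≤ i → i < 2 * q → f i = encM q y i := by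
  constructor
  · intro h
    exact ⟨(h 0 (by omega)).symm, (h 1 (by omega)).symm, (h 2 (by omega)).symm,
      fun i _ hi => (h i hi).symm⟩
  · rintro ⟨h0, h1, h2, h3⟩ i hi
    by_cases e0 : i = 0
    · subst e0; exact h0.symm
    by_cases e1 : i = 1
    · subst e1; exact h1.symm
    by_cases e2 : i = 2
    · subst e2; exact h2.symm
    exact (h3 i (by omega) hi).symm

omit hq in
theorem eqT_encT {y z : Let (up q)} {f : ℕ → Sym} :
    EqT (4 * q) (encT q y z) f ↔ EqT (2 * q) (encM q y) f ∧ EqT (2 * q) (encM q z) (sh q f) := by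
  constructor
  · intro h
    refine ⟨fun i hi => ?_, fun i hi => ?_⟩
    · rw [← h i (by omega), encT_loZ _ _ hi]
    · unfold sh
      rw [← h _ (by omega), encT_hiZ]
  · rintro ⟨h1, h2⟩ i hi
    by_cases e : i < 2 * q
    · rw [encT_loZ _ _ e, h1 i e]
    · obtain ⟨l, rfl⟩ : ∃ l, i = l + 2 * q := ⟨i - 2 * q, by omega⟩
      rw [encT_hiZ, h2 l (by omega)]
      rfl

theorem keep_c1 {c c' : Ctl} {t t' : Sym} (h : RW c t c' t') (ptr : ℕ → Bool) (mn : ℕ → Sym) :
    Keep q ⟨.OC .m, 0, t, ptr, put mn 0 (.c c)⟩ ⟨.OC .m, 0, t', ptr, put mn 0 (.c c')⟩ ∧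
      Keep q ⟨.OC .m, 0, t', ptr, put mn 0 (.c c')⟩ ⟨.OC .m, 0, t, ptr, put mn 0 (.c c)⟩ := by
  have h6 := six_le (q := q)
  have key : ∀ (c c' : Ctl) (t t' : Sym) (y : Let (up q)),
      Good q ⟨.OC .m, 0, t, ptr, put mn 0 (.c c)⟩ (encM q y) →
      y.c = c ∧ y.m = t ∧ Good q ⟨.OC .m, 0, t', ptr, put mn 0 (.c c')⟩
        (encM q ⟨c', t', y.t, y.a, y.it⟩) := by
    intro c c' t t' y ⟨a1, a2, a3, a4⟩
    simp only [srcPos] at a1 a3 a4
    rw [eqT_encM h6] at a4
    obtain ⟨b0, b1, b2, b3⟩ := a4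
    simp only [put, if_true, OfNat.ofNat_ne_zero, OfNat.ofNat_ne_one, one_ne_zero, zero_ne_one,
      if_false, Sym.c.injEq] at a3 b0 b1 b2
    refine ⟨b0.symm, b1.symm, a1, a2, ?_, ?_⟩
    · simpa [put, srcPos] using a3
    · simp only [srcPos]
      rw [eqT_encM h6]
      refine ⟨by simp [put], by simp [put], by simpa [put] using b2, fun i h1 h2 => ?_⟩
      have := b3 i h1 h2
      have e0 : i ≠ 0 := by omega
      have e1 : i ≠ 1 := by omega
      simp only [put, e0, e1, if_false] at this ⊢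
      rw [this]
      refine encM_rest ?_ ?_ h1 <;> rfl
  refine ⟨⟨rfl, fun _ y hg => ?_, fun h2 => by simp [St.cls, Cls.two] at h2⟩,
    ⟨rfl, fun _ y hg => ?_, fun h2 => by simp [St.cls, Cls.two] at h2⟩⟩
  · obtain ⟨e1, e2, hg'⟩ := key c c' t t' y hg
    refine ⟨_, hg', Eqv.of_rel ?_⟩
    obtain ⟨yc, ym, yt, ya, yi⟩ := y
    simp only at e1 e2
    subst e1 e2
    exact Rel.rw _ _ _ _ _ _ _ h
  · obtain ⟨e1, e2, hg'⟩ := key c' c t' t y hg
    refine ⟨_, hg', Eqv.symm (Eqv.of_rel ?_)⟩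
    obtain ⟨yc, ym, yt, ya, yi⟩ := y
    simp only at e1 e2
    subst e1 e2
    exact Rel.rw _ _ _ _ _ _ _ h

theorem keep_c2 {k : Kd} {m t m' t' : Sym} (h : Tab k m t m' t') (ptr : ℕ → Bool)
    (mn : ℕ → Sym) :
    Keep q ⟨.O3b k, 1, t, ptr, put mn 1 m⟩ ⟨.O3c k, 1, t', ptr, put mn 1 m'⟩ ∧
      Keep q ⟨.O3c k, 1, t', ptr, put mn 1 m'⟩ ⟨.O3b k, 1, t, ptr, put mn 1 m⟩ := by
  have h6 := six_le (q := q)
  refine ⟨⟨rfl, fun _ y hg => ?_, fun h2 => by simp [St.cls, Cls.two] at h2⟩,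
    ⟨rfl, fun _ y hg => ?_, fun h2 => by simp [St.cls, Cls.two] at h2⟩⟩
  · obtain ⟨a1, a2, a3, a5, a4⟩ := hg
    rw [eqT_encM h6] at a4
    obtain ⟨b0, b1, b2, b3⟩ := a4
    simp only [put, if_true, OfNat.ofNat_ne_zero, OfNat.ofNat_ne_one, one_ne_zero, zero_ne_one,
      if_false, OfNat.zero_ne_ofNat, OfNat.one_ne_ofNat] at a3 a5 b0 b1 b2
    refine ⟨⟨next y.c, m', t', y.a, y.it⟩, ⟨a1, a2, by simpa [put] using a3,
      by simpa [put] using a5, ?_⟩, Eqv.of_rel ?_⟩
    · rw [eqT_encM h6]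
      refine ⟨by simp [put, b0, nextS], by simp [put], by simp [put], fun i h1 h2 => ?_⟩
      have := b3 i h1 h2
      have e0 : i ≠ 0 := by omega
      have e1 : i ≠ 1 := by omega
      have e2 : i ≠ 2 := by omega
      simp only [put, e0, e1, e2, if_false] at this ⊢
      rw [this]
      refine encM_rest ?_ ?_ h1 <;> rfl
    · obtain ⟨yc, ym, yt, ya, yi⟩ := y
      simp only at b0 b1 b2
      subst b1 b2
      rw [b0] at a5
      exact Rel.ap _ k _ _ _ _ _ _ a5 h
  · obtain ⟨a1, a2, a3, a5, a4⟩ := hg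
    rw [eqT_encM h6] at a4
    obtain ⟨b0, b1, b2, b3⟩ := a4
    simp only [put, if_true, OfNat.ofNat_ne_zero, OfNat.ofNat_ne_one, one_ne_zero, zero_ne_one,
      if_false, OfNat.zero_ne_ofNat, OfNat.one_ne_ofNat] at a3 a5 b0 b1 b2
    obtain ⟨c, hc⟩ : ∃ c, mn 0 = .c c := by
      cases hm : mn 0 with
      | c c => exact ⟨c, rfl⟩
      | d b z => rw [hm] at a5; simp [kindS] at a5
    refine ⟨⟨c, m, t, y.a, y.it⟩, ⟨a1, a2, by simpa [put] using a3,
      by simpa [put] using a5, ?_⟩, Eqv.symm (Eqv.of_rel ?_)⟩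
    · rw [eqT_encM h6]
      refine ⟨by simp [put, hc], by simp [put], by simp [put], fun i h1 h2 => ?_⟩
      have := b3 i h1 h2
      have e0 : i ≠ 0 := by omega
      have e1 : i ≠ 1 := by omega
      have e2 : i ≠ 2 := by omega
      simp only [put, e0, e1, e2, if_false] at this ⊢
      rw [this]
      refine encM_rest ?_ ?_ h1 <;> rfl
    · obtain ⟨yc, ym, yt, ya, yi⟩ := y
      rw [hc] at a5 b0
      simp only [nextS, Sym.c.injEq] at b0 b1 b2
      subst b0 b1 b2
      exact Rel.ap _ k _ _ _ _ _ _ a5 h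

theorem keep_c3 {c c' d d' : Ctl} (h : Mv c c' d d') (ptr : ℕ → Bool) (mn : ℕ → Sym) :
    Keep q ⟨.O4a, 0, .c c', ptr, put mn 0 (.c c)⟩ ⟨.O4b, 0, .c d', ptr, put mn 0 (.c d)⟩ ∧
      Keep q ⟨.O4b, 0, .c d', ptr, put mn 0 (.c d)⟩ ⟨.O4a, 0, .c c', ptr, put mn 0 (.c c)⟩ := by
  have h6 := six_le (q := q)
  have n1 : 2 * q ≠ 0 := by omega
  have n2 : 1 ≠ 2 * q := by omega
  have n3 : 2 ≠ 2 * q := by omega
  have n4 : 0 ≠ 2 * q := by omega
  have n5 : 1 + 2 * q ≠ 2 * q := by omega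
  have n6 : 2 + 2 * q ≠ 2 * q := by omega
  have n7 : 1 + 2 * q ≠ 0 := by omega
  have n8 : 2 + 2 * q ≠ 0 := by omega
  have n9 : 2 * q + 2 = 2 + 2 * q := by omega
  have m1 : 0 ≠ 2 + 2 * q := by omega
  have m2 : 1 ≠ 2 + 2 * q := by omega
  have m3 : 2 ≠ 2 + 2 * q := by omega
  have m4 : 2 * q ≠ 2 + 2 * q := by omega
  have m5 : 1 + 2 * q ≠ 2 + 2 * q := by omega
  have m6 : 2 * q ≠ 2 := by omega
  have m7 : 1 + 2 * q ≠ 2 := by omega
  have m8 : 2 + 2 * q ≠ 2 := by omega
  refine ⟨⟨rfl, fun h2 => by simp [St.cls, Cls.two] at h2, fun _ y z hg => ?_⟩,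
    ⟨rfl, fun h2 => by simp [St.cls, Cls.two] at h2, fun _ y z hg => ?_⟩⟩
  · obtain ⟨a1, a2, a3, a4⟩ := hg
    rw [eqT_encT, eqT_encM h6, eqT_encM h6] at a4
    obtain ⟨⟨b0, b1, b2, b3⟩, c0, c1, c2, c3⟩ := a4
    simp only [put, sh, if_true, OfNat.ofNat_ne_zero, OfNat.ofNat_ne_one, one_ne_zero, zero_ne_one,
      if_false, OfNat.zero_ne_ofNat, OfNat.one_ne_ofNat, Nat.zero_add, n1, n2, n3, n4, n5, n6, n7,
      n8, Sym.c.injEq] at a3 b0 b1 b2 c0 c1 c2
    refine ⟨⟨d, y.m, z.t, y.a, y.it⟩, ⟨d', z.m, y.t, z.a, z.it⟩, ⟨a1, a2,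
      by simpa [put, n1] using a3, ?_⟩, Eqv.of_rel ?_⟩
    · rw [eqT_encT, eqT_encM h6, eqT_encM h6]
      simp only [put, sh, if_true, OfNat.ofNat_ne_zero, OfNat.ofNat_ne_one, one_ne_zero,
        zero_ne_one, if_false, OfNat.zero_ne_ofNat, OfNat.one_ne_ofNat, Nat.zero_add, n1, n2, n3,
        n4, n5, n6, n7, n8, n9, m1, m2, m3, m4, m5, m6, m7, m8, true_and]
      refine ⟨⟨b1, c2, fun i h1 h2 => ?_⟩, c1, b2, fun i h1 h2 => ?_⟩
      · have := b3 i h1 h2
        simp only [put] at this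
        rw [if_neg (by omega), if_neg (by omega)] at this
        rw [if_neg (by omega), if_neg (by omega), if_neg (by omega), if_neg (by omega), this]
        refine encM_rest ?_ ?_ h1 <;> rfl
      · have := c3 i h1 h2
        simp only [put, sh] at this
        rw [if_neg (by omega), if_neg (by omega)] at this
        rw [if_neg (by omega), if_neg (by omega), if_neg (by omega), if_neg (by omega), this]
        refine encM_rest ?_ ?_ h1 <;> rfl
    · obtain ⟨yc, ym, yt, ya, yi⟩ := y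
      obtain ⟨zc, zm, zt, za, zi⟩ := z
      simp only at b0 c0
      subst b0 c0
      exact Rel.mv _ _ _ _ _ _ _ _ _ _ _ _ h
  · obtain ⟨a1, a2, a3, a4⟩ := hg
    rw [eqT_encT, eqT_encM h6, eqT_encM h6] at a4
    obtain ⟨⟨b0, b1, b2, b3⟩, c0, c1, c2, c3⟩ := a4
    simp only [put, sh, if_true, OfNat.ofNat_ne_zero, OfNat.ofNat_ne_one, one_ne_zero, zero_ne_one,
      if_false, OfNat.zero_ne_ofNat, OfNat.one_ne_ofNat, Nat.zero_add, n1, n2, n3, n4, n5, n6, n7,
      n8, n9, m1, m2, m3, m4, m5, m6, m7, m8, Sym.c.injEq] at a3 b0 b1 b2 c0 c1 c2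
    refine ⟨⟨c, y.m, z.t, y.a, y.it⟩, ⟨c', z.m, y.t, z.a, z.it⟩, ⟨a1, a2,
      by simpa [put, n1] using a3, ?_⟩, Eqv.symm (Eqv.of_rel ?_)⟩
    · rw [eqT_encT, eqT_encM h6, eqT_encM h6]
      simp only [put, sh, if_true, OfNat.ofNat_ne_zero, OfNat.ofNat_ne_one, one_ne_zero,
        zero_ne_one, if_false, OfNat.zero_ne_ofNat, OfNat.one_ne_ofNat, Nat.zero_add, n1, n2, n3,
        n4, n5, n6, n7, n8, n9, m1, m2, m3, m4, m5, m6, m7, m8, true_and]
      refine ⟨⟨b1, c2, fun i h1 h2 => ?_⟩, c1, b2, fun i h1 h2 => ?_⟩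
      · have := b3 i h1 h2
        simp only [put] at this
        rw [if_neg (by omega), if_neg (by omega), if_neg (by omega), if_neg (by omega)] at this
        rw [if_neg (by omega), if_neg (by omega), this]
        refine encM_rest ?_ ?_ h1 <;> rfl
      · have := c3 i h1 h2
        simp only [put, sh] at this
        rw [if_neg (by omega), if_neg (by omega), if_neg (by omega), if_neg (by omega)] at this
        rw [if_neg (by omega), if_neg (by omega), this]
        refine encM_rest ?_ ?_ h1 <;> rfl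
    · obtain ⟨yc, ym, yt, ya, yi⟩ := y
      obtain ⟨zc, zm, zt, za, zi⟩ := z
      simp only at b0 c0
      subst b0 c0
      exact Rel.mv _ _ _ _ _ _ _ _ _ _ _ _ h

/-- exchanging the item zones -/
theorem undo_swap (y z : Let (up q)) :
    EqT (4 * q) (encT q y z) (undo q .swap (q - 3)
      (encT q ⟨y.c, y.m, y.t, y.a, z.it⟩ ⟨z.c, z.m, z.t, z.a, y.it⟩)) := by
  have h6 := six_le (q := q)
  intro i hi
  simp only [undo, true_and]
  split_ifs with h1 h2
  · rw [encT_loZ _ _ (by omega), encT_hiZ, encM_I _ (by omega), encM_I _ (by omega)]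
  · obtain ⟨l, rfl⟩ : ∃ l, i = l + 2 * q := ⟨i - 2 * q, by omega⟩
    rw [Nat.add_sub_cancel, encT_hiZ, encT_loZ _ _ (by omega), encM_I _ (by omega),
      encM_I _ (by omega)]
  · by_cases e : i < 2 * q
    · rw [encT_loZ _ _ e, encT_loZ _ _ e]
      have : i < q + 3 := by omega
      simp only [encM, this, if_true]
    · obtain ⟨l, rfl⟩ : ∃ l, i = l + 2 * q := ⟨i - 2 * q, by omega⟩
      rw [encT_hiZ, encT_hiZ]
      have : l < q + 3 := by omega
      simp only [encM, this, if_true]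

theorem undo_congr {f g : ℕ → Sym} (h : EqT (4 * q) f g) :
    EqT (4 * q) (undo q .swap (q - 3) f) (undo q .swap (q - 3) g) := by
  have h6 := six_le (q := q)
  intro i hi
  simp only [undo, true_and]
  split_ifs with h1 h2
  · exact h _ (by omega)
  · exact h _ (by omega)
  · exact h _ hi

theorem undo_undo (f : ℕ → Sym) : undo q .swap (q - 3) (undo q .swap (q - 3) f) = f := by
  have h6 := six_le (q := q)
  funext i
  simp only [undo, true_and]
  split_ifs <;> first | rfl | omega | (congr 1; omega)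

theorem keep_c4 (t : Sym) (ptr : ℕ → Bool) (mn : ℕ → Sym) :
    Keep q ⟨.Q0 .swap, 2 * q - 1, t, put ptr (2 * q - 1) true, mn⟩
        ⟨.Q5, 2 * q - 1, t, put ptr (2 * q - 1) false, mn⟩ ∧
      Keep q ⟨.Q5, 2 * q - 1, t, put ptr (2 * q - 1) false, mn⟩
        ⟨.Q0 .swap, 2 * q - 1, t, put ptr (2 * q - 1) true, mn⟩ := by
  have h6 := six_le (q := q)
  have key := clear2_iff (ptr := put ptr (2 * q - 1) true) (p := 2 * q - 1) (b := 4 * q - 1)
    (n := 4 * q) (put_same _ _ _) (by omega)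
  rw [put_put] at key
  have e1 : q + 2 + (q - 3) = 2 * q - 1 := by omega
  have e2 : 2 * q + q + 2 + (q - 3) = 4 * q - 1 := by omega
  refine ⟨⟨rfl, fun h2 => by simp [St.cls, Cls.two] at h2, fun _ y z hg => ?_⟩,
    ⟨rfl, fun h2 => by simp [St.cls, Cls.two] at h2, fun _ y z hg => ?_⟩⟩
  · obtain ⟨j, a1, a2, a3, a4, a5, -, a7⟩ := hg
    simp only [zo] at a2 a3 a4 a5 a7
    obtain rfl : j = q - 3 := by omega
    rw [e1, e2] at a3
    refine ⟨⟨y.c, y.m, y.t, y.a, z.it⟩, ⟨z.c, z.m, z.t, z.a, y.it⟩,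
      ⟨by simp only; omega, key.1 a3, a4, a5, fun i hi => ?_⟩, Eqv.of_rel ?_⟩
    · have b1 := undo_congr (fun l hl => (undo_swap y z l hl).symm.trans (a7 l hl)) i hi
      rwa [undo_undo, undo_undo] at b1
    · have b0 := a7 0 (by omega)
      rw [encT_loZ _ _ (by omega)] at b0
      simp only [undo, true_and] at b0
      rw [if_neg (by omega), if_neg (by omega)] at b0
      rw [← b0] at a5
      exact Rel.sw _ _ _ _ _ _ _ _ _ _ (a5.resolve_left (by simp))
  · obtain ⟨a1, a3, a4, a5, a7⟩ := hg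
    simp only at a4 a5 a7
    refine ⟨⟨y.c, y.m, y.t, y.a, z.it⟩, ⟨z.c, z.m, z.t, z.a, y.it⟩,
      ⟨q - 3, by omega, e1.symm, ?_, a4, a5, by simp [cond], fun i hi => ?_⟩, Eqv.of_rel ?_⟩
    · simp only [zo]
      rw [e1, e2]
      exact key.2 a3
    · exact (undo_swap ⟨y.c, y.m, y.t, y.a, z.it⟩ ⟨z.c, z.m, z.t, z.a, y.it⟩ i hi).trans
        (undo_congr a7 i hi)
    · have b0 := a7 0 (by omega)
      rw [encT_loZ _ _ (by omega)] at b0
      rw [← b0] at a5
      exact Rel.sw _ _ _ _ _ _ _ _ _ _ (a5.resolve_left (by simp))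

/-- change the data at the head -/
def updS (κ : Cfg) (π : Bool) (s : St) (m t : Sym) : Cfg :=
  ⟨s, κ.pos, t, put κ.ptr κ.pos π, put κ.mn κ.pos m⟩

omit hq in
theorem updS_self (κ : Cfg) : updS κ (κ.ptr κ.pos) κ.st (κ.mn κ.pos) κ.tr = κ := by
  simp only [updS, put_self]

theorem letter_updS (κ : Cfg) (π : Bool) (s : St) (m t : Sym) (it : ℕ → Fin q) :
    letter (updS κ π s m t) it κ.pos =
      ⟨⟨znAt q κ.pos, flAt q κ.pos, π, .H s (side q κ.pos)⟩, m, t, adr q κ.pos, it κ.pos⟩ := by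
  rw [letter_head (updS κ π s m t) it (i := κ.pos) rfl]
  simp only [updS, put_same]

theorem one_keep (κ : Cfg) {π π' : Bool} {s s' : St} {m t m' t' : Sym}
    (h : One (znAt q κ.pos) (flAt q κ.pos) (side q κ.pos) π s m t π' s' m' t')
    (hv : Valid q (updS κ π s m t) ∨ Valid q (updS κ π' s' m' t')) (it : ℕ → Fin q) :
    (Keep q (updS κ π s m t) (updS κ π' s' m' t') ∧ Keep q (updS κ π' s' m' t') (updS κ π s m t)) ∧
      ∀ j < 4 * q, j ≠ κ.pos → letter (updS κ π s m t) it j = letter (updS κ π' s' m' t') it j := by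
  have h6 := six_le (q := q)
  have away : s'.cls = s.cls → ∀ j < 4 * q, j ≠ κ.pos →
      letter (updS κ π s m t) it j = letter (updS κ π' s' m' t') it j := fun hc j _ hj =>
    letter_away it hc (by simp only [updS]; omega) (by simp [updS, put, hj]) (by simp [updS, put, hj])
  have valid : s'.cls.two = s.cls.two → s ≠ .LK2 → Valid q (updS κ π s m t) := by
    intro h1 h2
    refine hv.elim id fun hv => ⟨?_, fun e => absurd e h2⟩
    have := hv.1
    rwa [← len_eq (κ := updS κ π s m t) (κ' := updS κ π' s' m' t') h1] at this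
  obtain ⟨st, pos, tr, ptr, mn⟩ := κ
  simp only at h
  cases h with
  | rw π s m t s' m' h1 h2 =>
    have hc := rwF_cls h2
    have hv' := valid (by rw [hc]) (by rintro rfl; simp [rwF] at h2)
    refine ⟨keep_hw hv' ?_, away hc⟩
    have ha : actAt q (updS ⟨st, pos, tr, ptr, mn⟩ π s m t) = .rw := by
      simp only [actAt, updS, put_same, h1]
    unfold hw
    rw [ha]
    simp only [updS, put_same, h2, put_put]
  | app π s m t k π' s' m' t' h1 h2 =>
    have hv' := valid (act_app_two h1).1 (act_app_two h1).2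
    have ha : actAt q (updS ⟨st, pos, tr, ptr, mn⟩ π s m t) = .app k s' π' := by
      simp only [actAt, updS, put_same, h1]
    refine ⟨keep_hw hv' ?_, ?_⟩
    · unfold hw
      rw [ha]
      simp only [updS, put_same, h2, put_put]
    · rcases act_app hv' ha with hc | ⟨h3, h4, h5⟩ | ⟨h3, h4, h5⟩
      · exact away hc
      · intro j _ hj
        simp only [updS] at h3 h5 hj
        subst h3 h4 h5
        rw [letter_right _ it (by simp only [updS]; omega),
          letter_right _ it (by simp only [updS]; omega)]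
        simp [updS, put, hj, St.cls, roleR]
      · intro j _ hj
        simp only [updS] at h3 h5 hj
        subst h3 h4
        rw [letter_left _ it (by simp only [updS]; omega),
          letter_left _ it (by simp only [updS]; omega)]
        cases hs : side q j <;> simp [updS, put, hj, St.cls, roleL]
  | c1 π c t c' t' h1 h2 h3 =>
    have hp := (valid rfl (by simp)).1
    simp only [len, updS, St.cls, Cls.two, Bool.false_eq_true, if_false] at hp
    rw [znAt_A] at h1; rw [flAt_p0] at h2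
    obtain rfl : pos = 0 := by omega
    exact ⟨keep_c1 h3 _ _, away rfl⟩
  | c2 π k m t m' t' h1 h2 h3 =>
    have hp := (valid rfl (by simp)).1
    simp only [len, updS, St.cls, Cls.two, Bool.false_eq_true, if_false] at hp
    rw [znAt_A] at h1; rw [flAt_p1] at h2
    obtain rfl : pos = 1 := by omega
    exact ⟨keep_c2 h3 _ _, away rfl⟩
  | c3 π c c' d d' h0 h1 h2 h3 =>
    rw [side_false] at h0; rw [znAt_A] at h1; rw [flAt_p0] at h2
    obtain rfl : pos = 0 := by omega
    exact ⟨keep_c3 h3 _ _, away rfl⟩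
  | c4 m t h1 h2 h0 =>
    rw [side_false] at h0; rw [znAt_I] at h1; rw [flAt_last] at h2
    obtain rfl : pos = 2 * q - 1 := by omega
    exact ⟨keep_c4 _ _ _, away rfl⟩

omit hq in
theorem eq_set1 {X : Type} {u v : List X} (hl : v.length = u.length) {i : ℕ} {x : X}
    (hx : v[i]? = some x) (h : ∀ j < u.length, j ≠ i → v[j]? = u[j]?) : v = u.set i x := by
  have hi : i < u.length := by
    rw [← hl]
    exact (List.getElem?_eq_some_iff.1 hx).1
  refine List.ext_getElem? fun j => ?_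
  by_cases e : j = i
  · subst e
    rw [hx, List.getElem?_set_self hi]
  · rw [List.getElem?_set_ne (Ne.symm e)]
    by_cases hj : j < u.length
    · exact h j hj e
    · rw [List.getElem?_eq_none (by omega), List.getElem?_eq_none (by omega)]

omit hq in
theorem eq_set2 {X : Type} {u v : List X} (hl : v.length = u.length) {i : ℕ} {x y : X}
    (hx : v[i]? = some x) (hy : v[i + 1]? = some y)
    (h : ∀ j < u.length, j ≠ i → j ≠ i + 1 → v[j]? = u[j]?) : v = (u.set i x).set (i + 1) y := by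
  have hi : i + 1 < u.length := by
    rw [← hl]
    exact (List.getElem?_eq_some_iff.1 hy).1
  refine eq_set1 (by simpa using hl) hy fun j hj e => ?_
  by_cases e' : j = i
  · subst e'
    rw [hx, List.getElem?_set_self (by omega)]
  · rw [List.getElem?_set_ne (Ne.symm e')]
    exact h j (by simpa using hj) e' e

theorem letter_H {κ : Cfg} {it : ℕ → Fin q} {i : ℕ} {zn : Zn} {fl : Fl} {π sd : Bool} {s : St}
    {m t : Sym} {a b : Fin q} (h : letter κ it i = ⟨⟨zn, fl, π, .H s sd⟩, m, t, a, b⟩) :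
    i = κ.pos ∧ zn = znAt q κ.pos ∧ fl = flAt q κ.pos ∧ π = κ.ptr κ.pos ∧ s = κ.st ∧
      sd = side q κ.pos ∧ m = κ.mn κ.pos ∧ t = κ.tr ∧ a = adr q κ.pos ∧ b = it κ.pos := by
  have h1 : dynAt q κ i = .H s sd := congrArg (fun x => x.c.dyn) h
  obtain ⟨rfl, -, -⟩ := dynAt_H h1
  rw [letter_head κ it rfl] at h
  simp only [Let.mk.injEq, Ctl.mk.injEq, Dyn.H.injEq] at h
  obtain ⟨⟨rfl, rfl, rfl, rfl, rfl⟩, rfl, rfl, rfl, rfl⟩ := h
  simp

/-- a relation of degree one inside a piece -/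
theorem one_step {κ : Cfg} (hv : Valid q κ) (it : ℕ → Fin q) {i : ℕ} {x : Let q}
    (h : Rel [letter κ it i] [x] ∨ Rel [x] [letter κ it i]) :
    ∃ κ', Keep q κ κ' ∧ word κ' it = (word κ it).set i x := by
  have hl := len_le (q := q) κ
  rcases h with h | h
  · obtain ⟨zn, fl, sd, π, s, m, t, π', s', m', t', a, b, e, rfl, ho⟩ := rel_one h
    obtain ⟨rfl, rfl, rfl, rfl, rfl, rfl, rfl, rfl, rfl, rfl⟩ := letter_H e
    obtain ⟨⟨k1, -⟩, k2⟩ := one_keep κ ho (Or.inl (by rw [updS_self]; exact hv)) it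
    rw [updS_self] at k1 k2
    have hl' := len_eq (q := q) k1.1
    refine ⟨_, k1, eq_set1 (by rw [length_word, length_word, hl']) ?_ fun j hj e => ?_⟩
    · rw [word_get _ _ (hl' ▸ hv.1), letter_updS]
    · rw [length_word] at hj
      rw [word_get _ _ (hl' ▸ hj), word_get _ _ hj, k2 j (by omega) e]
  · obtain ⟨zn, fl, sd, π, s, m, t, π', s', m', t', a, b, rfl, e, ho⟩ := rel_one h
    obtain ⟨rfl, rfl, rfl, rfl, rfl, rfl, rfl, rfl, rfl, rfl⟩ := letter_H e
    obtain ⟨⟨-, k1⟩, k2⟩ := one_keep κ ho (Or.inr (by rw [updS_self]; exact hv)) it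
    rw [updS_self] at k1 k2
    have hl' := len_eq (q := q) k1.1
    refine ⟨_, k1, eq_set1 (by rw [length_word, length_word, hl']) ?_ fun j hj e => ?_⟩
    · rw [word_get _ _ (hl' ▸ hv.1), letter_updS]
    · rw [length_word] at hj
      rw [word_get _ _ (hl' ▸ hj), word_get _ _ hj, k2 j (by omega) e]

end Vale.Agent.P192Z.Mach
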