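import Vale.Agent.P192Z.Mach.GoodStep

/-!
# P192: home-ward steps are relations between words
-/

namespace Vale.Agent.P192Z.Mach

theorem range_split_one {X : Type} (f : ℕ → X) {n i : ℕ} (hi : i < n) :
    (List.range n).map f = (List.range i).map f ++ [f i] ++
      (List.range (n - (i + 1))).map fun j => f (i + 1 + j) := by
  obtain ⟨r, rfl⟩ : ∃ r, n = i + 1 + r := ⟨n - (i + 1), by omega⟩
  rw [List.range_add, List.range_succ, Nat.add_sub_cancel_left]
  simp [Function.comp_def]

theorem range_split_two {X : Type} (f : ℕ → X) {n i : ℕ} (hi : i + 1 < n) :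
    (List.range n).map f = (List.range i).map f ++ [f i, f (i + 1)] ++
      (List.range (n - (i + 2))).map fun j => f (i + 2 + j) := by
  obtain ⟨r, rfl⟩ : ∃ r, n = i + 2 + r := ⟨n - (i + 2), by omega⟩
  rw [List.range_add, List.range_succ, List.range_succ, Nat.add_sub_cancel_left]
  simp [Function.comp_def]

theorem range_congr {X : Type} {f g : ℕ → X} {n : ℕ} (h : ∀ i < n, f i = g i) :
    (List.range n).map f = (List.range n).map g :=
  List.map_congr_left fun i hi => h i (List.mem_range.1 hi)

theorem range_step_one {X : Type} {P : Pres X} {f g : ℕ → X} {n i : ℕ} (hi : i < n)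
    (h : ∀ j < n, j ≠ i → f j = g j) (hr : ([f i], [g i]) ∈ P.eqs) :
    Step P ((List.range n).map f) ((List.range n).map g) := by
  refine ⟨_, _, _, _, hr, range_split_one f hi, ?_⟩
  rw [range_split_one g hi, range_congr (f := g) (g := f) fun j hj => (h j (by omega) (by omega)).symm,
    range_congr (f := fun j => g (i + 1 + j)) (g := fun j => f (i + 1 + j))
      fun j hj => (h _ (by omega) (by omega)).symm]

theorem range_step_two {X : Type} {P : Pres X} {f g : ℕ → X} {n i : ℕ} (hi : i + 1 < n)
    (h : ∀ j < n, j ≠ i → j ≠ i + 1 → f j = g j)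
    (hr : ([f i, f (i + 1)], [g i, g (i + 1)]) ∈ P.eqs) :
    Step P ((List.range n).map f) ((List.range n).map g) := by
  refine ⟨_, _, _, _, hr, range_split_two f hi, ?_⟩
  rw [range_split_two g hi,
    range_congr (f := g) (g := f) fun j hj => (h j (by omega) (by omega) (by omega)).symm,
    range_congr (f := fun j => g (i + 2 + j)) (g := fun j => f (i + 2 + j))
      fun j hj => (h _ (by omega) (by omega) (by omega)).symm]

theorem act_app_kind {zn : Zn} {fl : Fl} {π π' : Bool} {s s' : St} {sd : Bool} {k : Kd}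
    (h : act zn fl π s sd = .app k s' π') : k = .sw ∨ k = .id ∨ k = .eq := by
  unfold act at h
  split_ifs at h
  cases s <;> simp only [act0, goL, goR] at h <;> split_ifs at h <;>
    simp only [Act.app.injEq] at h <;> obtain ⟨rfl, -, -⟩ := h <;>
    first
      | exact Or.inl rfl
      | exact Or.inr (Or.inl rfl)
      | (rename_i s _ _ _ _; cases s <;> simp [Sc.kd])

variable {q : ℕ} [hq : Fact (6 ≤ q)]

/-- the left half after the crossing step -/
def crossL (q : ℕ) (κ : Cfg) : Cfg := ⟨.LK1, 2 * q - 1, κ.tr, κ.ptr, κ.mn⟩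

/-- the right half after the crossing step -/
def crossR (q : ℕ) (κ : Cfg) : Cfg := ⟨.W, 0, blank, sh q κ.ptr, sh q κ.mn⟩

theorem word_congr {κ κ' : Cfg} {it it' : ℕ → Fin q} (hl : len q κ = len q κ')
    (h : ∀ i < len q κ, letter κ it i = letter κ' it' i) : word κ it = word κ' it' := by
  unfold word
  rw [← hl]
  exact range_congr h

/-- a relation of degree one at place `i` -/
theorem step_one {κ κ' : Cfg} {it it' : ℕ → Fin q} (hl : len q κ = len q κ') {i : ℕ}
    (hi : i < len q κ) (h : ∀ j < len q κ, j ≠ i → letter κ it j = letter κ' it' j)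
    (hr : Rel [letter κ it i] [letter κ' it' i]) : Step (sys q) (word κ it) (word κ' it') := by
  unfold word
  rw [← hl]
  exact range_step_one hi h hr

/-- a relation of degree two at places `i`, `i + 1` -/
theorem step_two {κ κ' : Cfg} {it it' : ℕ → Fin q} (hl : len q κ = len q κ') {i : ℕ}
    (hi : i + 1 < len q κ)
    (h : ∀ j < len q κ, j ≠ i → j ≠ i + 1 → letter κ it j = letter κ' it' j)
    (hr : Rel [letter κ it i, letter κ it (i + 1)] [letter κ' it' i, letter κ' it' (i + 1)]) :
    Step (sys q) (word κ it) (word κ' it') := by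
  unfold word
  rw [← hl]
  exact range_step_two hi h hr

theorem zero_one {κ : Cfg} {it : ℕ → Fin q} {i : ℕ} (hi : i < len q κ)
    (hz : Zer [letter κ it i]) : HasZero (sys q) (word κ it) :=
  ⟨_, _, _, hz, range_split_one _ hi⟩

theorem zero_two {κ : Cfg} {it : ℕ → Fin q} {i : ℕ} (hi : i + 1 < len q κ)
    (hz : Zer [letter κ it i, letter κ it (i + 1)]) : HasZero (sys q) (word κ it) :=
  ⟨_, _, _, hz, range_split_two _ hi⟩

theorem letter_head (κ : Cfg) (it : ℕ → Fin q) {i : ℕ} (h : i = κ.pos) : letter κ it i =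
    ⟨⟨znAt q i, flAt q i, κ.ptr i, .H κ.st (side q i)⟩, κ.mn i, κ.tr, adr q i, it i⟩ := by
  simp [letter, ctlAt, dynAt, h]

theorem letter_left (κ : Cfg) (it : ℕ → Fin q) {i : ℕ} (h : i < κ.pos) : letter κ it i =
    ⟨⟨znAt q i, flAt q i, κ.ptr i, .L (roleL κ.st.cls (side q i))⟩, κ.mn i, blank, adr q i,
      it i⟩ := by
  simp [letter, ctlAt, dynAt, h, h.ne]

theorem letter_right (κ : Cfg) (it : ℕ → Fin q) {i : ℕ} (h : κ.pos < i) : letter κ it i =
    ⟨⟨znAt q i, flAt q i, κ.ptr i, .R (roleR κ.st.cls (side q i))⟩, κ.mn i, blank, adr q i,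
      it i⟩ := by
  simp [letter, ctlAt, dynAt, h.ne', h.le.not_gt]

theorem side_pred {i : ℕ} : side q i = sdL (znAt q (i + 1)) (flAt q (i + 1)) (side q (i + 1)) := by
  unfold sdL
  have := six_le (q := q)
  split_ifs with h
  · rw [znAt_A, flAt_p0] at h
    rw [side_false]
    omega
  · rw [znAt_A, flAt_p0] at h
    unfold side
    rw [decide_eq_decide]
    omega

theorem side_succ {i : ℕ} (hi : i + 1 < 4 * q) :
    side q (i + 1) = sdR (znAt q i) (flAt q i) (side q i) := by
  unfold sdR
  have := six_le (q := q)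
  split_ifs with h
  · rw [znAt_I, flAt_last] at h
    rw [side_true]
    omega
  · rw [znAt_I, flAt_last] at h
    unfold side
    rw [decide_eq_decide]
    omega

omit hq in
theorem len_le (κ : Cfg) : len q κ ≤ 4 * q := by
  unfold len
  split_ifs <;> omega

omit hq in
theorem len_eq {κ κ' : Cfg} (h : κ'.st.cls.two = κ.st.cls.two) : len q κ = len q κ' := by
  unfold len
  rw [h]

/-- letters away from both heads agree -/
theorem letter_away {κ κ' : Cfg} (it : ℕ → Fin q) {j : ℕ} (hc : κ'.st.cls = κ.st.cls)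
    (hp : (j < κ.pos ∧ j < κ'.pos) ∨ (κ.pos < j ∧ κ'.pos < j)) (h1 : κ'.ptr j = κ.ptr j)
    (h2 : κ'.mn j = κ.mn j) : letter κ it j = letter κ' it j := by
  rcases hp with ⟨a, b⟩ | ⟨a, b⟩
  · rw [letter_left κ it a, letter_left κ' it b, hc, h1, h2]
  · rw [letter_right κ it a, letter_right κ' it b, hc, h1, h2]

theorem hw_step {κ κ' : Cfg} (hv : Valid q κ) (h : hw q κ = some κ') (it : ℕ → Fin q) :
    Step (sys q) (word κ it) (word κ' it) := by
  have hl : len q κ = len q κ' := len_eq (hw_valid hv h).2
  have hpos := hv.1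
  unfold hw at h
  split at h
  · rename_i s ha
    obtain ⟨hc, h0, -, -⟩ := act_left hv (Or.inl ha)
    obtain rfl := Option.some.inj h
    obtain ⟨i, hi⟩ : ∃ i, κ.pos = i + 1 := ⟨κ.pos - 1, by omega⟩
    refine step_two hl (i := i) (by omega)
      (fun j _ h1 h2 => letter_away it hc (by simp only; omega) rfl rfl) ?_
    rw [letter_left κ it (by omega), letter_head κ it hi.symm,
      letter_head _ it (by simp only; omega), letter_right _ it (by simp only; omega)]
    refine Rel.mv _ _ _ _ _ _ _ _ _ _ _ _ ?_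
    simp only [hc]
    rw [side_pred (i := i)]
    refine Mv.left _ _ _ _ _ _ _ _ _ ?_
    rw [← hi]
    exact ha
  · rename_i s ha
    obtain ⟨hc, h0, -, -⟩ := act_left hv (Or.inr ha)
    split_ifs at h with hp
    obtain rfl := Option.some.inj h
    obtain ⟨i, hi⟩ : ∃ i, κ.pos = i + 1 := ⟨κ.pos - 1, by omega⟩
    have hi' : κ.pos - 1 = i := by omega
    refine step_two hl (i := i) (by omega)
      (fun j _ h1 h2 => letter_away it hc (by simp only; omega) ?_ rfl) ?_
    · simp [put, hi, h1, h2]
    rw [letter_left κ it (by omega), letter_head κ it hi.symm,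
      letter_head _ it (by simp only; omega), letter_right _ it (by simp only; omega)]
    refine Rel.mv _ _ _ _ _ _ _ _ _ _ _ _ ?_
    have e1 : κ.ptr i = false := by simpa [hi'] using hp
    have e2 : put (put κ.ptr (κ.pos - 1) true) κ.pos false i = true := by simp [put, hi]
    have e3 : put (put κ.ptr (κ.pos - 1) true) κ.pos false (i + 1) = false := by simp [put, hi]
    simp only [hc, e1, e2, e3]
    rw [side_pred (i := i)]
    refine Mv.lshift _ _ _ _ _ _ _ _ ?_
    rw [← hi]
    exact ha
  · rename_i ha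
    obtain ⟨h1, -, -⟩ := act_right hv ha
    obtain rfl := Option.some.inj h
    refine step_two hl (i := κ.pos) h1
      (fun j _ h1 h2 => letter_away it rfl (by simp only; omega) rfl rfl) ?_
    rw [letter_head κ it rfl, letter_right κ it (by omega),
      letter_left _ it (by simp only; omega), letter_head _ it (by simp only)]
    refine Rel.mv _ _ _ _ _ _ _ _ _ _ _ _ ?_
    simp only
    rw [side_succ (i := κ.pos) (h1.trans_le (len_le κ))]
    exact Mv.right _ _ _ _ _ _ _ _ ha
  · rename_i k s π ha
    split at h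
    swap
    · cases h
    rename_i p hp
    obtain rfl := Option.some.inj h
    refine step_one hl hpos (fun j hj h1 => ?_) ?_
    · rcases act_app hv ha with hc | ⟨h2, h3, h4⟩ | ⟨h2, h3, h4⟩
      · exact letter_away it hc (by simp only; omega) (by simp [put, h1]) (by simp [put, h1])
      · rw [letter_right κ it (by omega), letter_right _ it (by simp only; omega)]
        simp [put, h1, h2, h3, St.cls, roleR]
      · have := len_le (q := q) κ
        rw [letter_left κ it (by omega), letter_left _ it (by simp only; omega)]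
        cases hs : side q j <;> simp [put, h1, h2, h3, St.cls, roleL]
    · rw [letter_head κ it rfl, letter_head _ it (by simp only)]
      have ha' : act (znAt q κ.pos) (flAt q κ.pos) (κ.ptr κ.pos) κ.st (side q κ.pos) =
          .app k s π := ha
      have e := Rel.ap (q := q) ⟨znAt q κ.pos, flAt q κ.pos, κ.ptr κ.pos, .H κ.st (side q κ.pos)⟩ k
        (κ.mn κ.pos) κ.tr p.1 p.2 (adr q κ.pos) (it κ.pos) (by simp only [kind, ha'])
        (by rcases act_app_kind ha' with rfl | rfl | rfl <;> exact hp)
      simp only [next, ha'] at e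
      simpa only [put, if_true] using e
  · rename_i ha
    split at h
    swap
    · cases h
    rename_i p hp
    obtain rfl := Option.some.inj h
    refine step_one hl hpos (fun j hj h1 => ?_) ?_
    · exact letter_away it (rwF_cls hp) (by simp only; omega) rfl (by simp [put, h1])
    · rw [letter_head κ it rfl, letter_head _ it (by simp only)]
      simp only [put, if_true]
      exact Rel.rw _ _ _ _ _ _ _ (RW.home _ _ _ _ _ _ _ _ ha hp)
  · cases h

theorem hw_none {κ : Cfg} (hv : Valid q κ) (h : hw q κ = none) (it : ℕ → Fin q) :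
    actAt q κ = .rest ∨ actAt q κ = .cross ∨ HasZero (sys q) (word κ it) := by
  have hpos := hv.1
  cases ha : actAt q κ with
  | rest => exact Or.inl rfl
  | cross => exact Or.inr (Or.inl rfl)
  | left s => simp [hw, ha] at h
  | right => simp [hw, ha] at h
  | lshift s =>
    obtain ⟨-, h0, -, -⟩ := act_left hv (Or.inr ha)
    have hp : κ.ptr (κ.pos - 1) = true := by simpa [hw, ha] using h
    obtain ⟨i, hi⟩ : ∃ i, κ.pos = i + 1 := ⟨κ.pos - 1, by omega⟩
    refine Or.inr (Or.inr (zero_two (i := i) (by omega) (Zer.pair _ _ fun ho => ?_)))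
    rw [letter_left κ it (by omega), letter_head κ it hi.symm] at ho
    have := ho.2.2 ⟨_, _, s, rfl, by rw [← hi]; exact ha⟩
    rw [hi] at hp
    simp only [Nat.add_sub_cancel] at hp this
    rw [hp] at this
    cases this
  | rw =>
    refine Or.inr (Or.inr (zero_one hpos (Zer.rw _ ?_)))
    rw [letter_head κ it rfl]
    refine ZRW.stuck _ _ _ _ _ _ ha ?_
    simp only [hw, ha] at h
    split at h
    · cases h
    · assumption
  | app k s π =>
    have ha' : act (znAt q κ.pos) (flAt q κ.pos) (κ.ptr κ.pos) κ.st (side q κ.pos) =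
        .app k s π := ha
    have hn : appF k (κ.mn κ.pos) κ.tr = none := by
      simp only [hw, ha] at h
      split at h
      · cases h
      · assumption
    refine Or.inr (Or.inr (zero_one hpos (Zer.tab _ k ?_ ?_)))
    · rw [letter_head κ it rfl]
      simp only [kind, ha']
    · rw [letter_head κ it rfl]
      rcases act_app_kind ha' with rfl | rfl | rfl
      · simp [appF] at hn
      · simp [appF] at hn
      · simpa [appF, ZTab] using hn
  | dead =>
    refine Or.inr (Or.inr (zero_one hpos (Zer.rw _ ?_)))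
    rw [letter_head κ it rfl]
    exact ZRW.dead _ _ _ _ _ _ ha

omit hq in
theorem off_shift {i : ℕ} (hi : i < 2 * q) : off q (i + 2 * q) = off q i := by
  have := off_spec q i
  have := off_spec q (i + 2 * q)
  omega

omit hq in
theorem znAt_shift {i : ℕ} (hi : i < 2 * q) : znAt q (i + 2 * q) = znAt q i := by
  unfold znAt
  split_ifs <;> first | rfl | omega

omit hq in
theorem flAt_shift {i : ℕ} (hi : i < 2 * q) : flAt q (i + 2 * q) = flAt q i := by
  unfold flAt
  rw [off_shift hi]

theorem adr_shift {i : ℕ} (hi : i < 2 * q) : adr q (i + 2 * q) = adr q i := by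
  unfold adr
  simp only [off_shift hi]

theorem cross_step {κ : Cfg} (h1 : κ.st = .LK2) (h2 : κ.pos = 2 * q) (it : ℕ → Fin q) :
    Step (sys q) (word κ it) (word (crossL q κ) it ++ word (crossR q κ) (sh q it)) := by
  have h6 := six_le (q := q)
  have hl : len q κ = 2 * q + 2 * q := by simp [len, h1, St.cls, Cls.two]; omega
  have hv : Valid q κ := ⟨by omega, fun _ => h2.ge⟩
  have ha := (cross_iff hv).2 ⟨h1, h2⟩
  set g : ℕ → Let q := fun j =>
    if j < 2 * q then letter (crossL q κ) it j else letter (crossR q κ) (sh q it) (j - 2 * q) with hg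
  have e : word (crossL q κ) it ++ word (crossR q κ) (sh q it) =
      (List.range (2 * q + 2 * q)).map g := by
    rw [List.range_add, List.map_append, List.map_map]
    congr 1
    · exact range_congr fun j (hj : j < 2 * q) => by simp [hg, hj]
    · exact range_congr fun j _ => by simp [hg]
  rw [e]
  unfold word
  rw [hl]
  obtain ⟨i, hi⟩ : ∃ i, 2 * q = i + 1 := ⟨2 * q - 1, by omega⟩
  refine range_step_two (i := i) (by omega) (fun j hj a b => ?_) ?_
  · by_cases hj2 : j < 2 * q
    · have hs : side q j = false := (side_false j).2 hj2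
      simp only [hg, hj2, if_true]
      rw [letter_left κ it (by omega), letter_left _ it (by simp only [crossL]; omega)]
      simp [crossL, h1, hs, St.cls, roleL]
    · obtain ⟨l, rfl⟩ : ∃ l, j = l + 2 * q := ⟨j - 2 * q, by omega⟩
      have hl2 : l < 2 * q := by omega
      simp only [hg, hj2, if_false, Nat.add_sub_cancel]
      rw [letter_right κ it (by omega), letter_right _ _ (by simp only [crossR]; omega),
        znAt_shift hl2, flAt_shift hl2, adr_shift hl2]
      simp [crossR, sh, h1, St.cls, roleR]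
  · have g1 : g i = letter (crossL q κ) it i := by simp only [hg]; rw [if_pos (by omega)]
    have g2 : g (i + 1) = letter (crossR q κ) (sh q it) 0 := by
      simp only [hg]; rw [if_neg (by omega), ← hi, Nat.sub_self]
    have s1 : side q i = false := (side_false i).2 (by omega)
    have s0 : side q 0 = false := (side_false 0).2 (by omega)
    have z0 := znAt_shift (q := q) (i := 0) (by omega)
    have f0 := flAt_shift (q := q) (i := 0) (by omega)
    have a0 := adr_shift (q := q) (i := 0) (by omega)
    rw [Nat.zero_add] at z0 f0 a0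
    change Rel [letter κ it i, letter κ it (i + 1)] [g i, g (i + 1)]
    rw [g1, g2, letter_left κ it (by omega), letter_head κ it (by omega),
      letter_head (crossL q κ) it (by simp only [crossL]; omega),
      letter_head (crossR q κ) _ (i := 0) rfl, ← z0, ← f0, ← a0, s0, s1]
    simp only [crossL, crossR, sh, Nat.zero_add, ← hi]
    refine Rel.mv _ _ _ _ _ _ _ _ _ _ _ _ ?_
    have hr : roleL κ.st.cls false = .F := by simp [h1, St.cls, roleL]
    rw [hr]
    refine Mv.cross _ _ _ _ _ _ _ _ ?_
    rw [← h2]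
    exact ha

theorem walkW (tr : Sym) (ptr : ℕ → Bool) (mn : ℕ → Sym) (it : ℕ → Fin q) {i : ℕ}
    (hi : i < 2 * q) :
    Eqv (sys q) (word ⟨.W, i, tr, ptr, mn⟩ it) (word ⟨.W, 0, tr, ptr, mn⟩ it) := by
  induction i with
  | zero => exact Eqv.refl _
  | succ i ih =>
    refine Eqv.trans (Eqv.of_step (hw_step ⟨?_, fun h => by cases h⟩ ?_ it)) (ih (by omega))
    · simpa [len, St.cls, Cls.two] using hi
    · have hs : side q (i + 1) = false := (side_false _).2 hi
      have hn : ¬ (znAt q (i + 1) = .A ∧ flAt q (i + 1) = .p0) := by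
        rw [znAt_A, flAt_p0]
        omega
      simp [hw, actAt, act, act0, hs, hn]

theorem good_eqv_one {κ : Cfg} {T : ℕ → Sym} (h : Good q κ T) (h2 : κ.st.cls.two = false)
    (it : ℕ → Fin q) : Eqv (sys q) (word κ it) (restW T it) := by
  refine hw_induction (q := q) (p := fun κ => Good q κ T → κ.st.cls.two = false →
    Eqv (sys q) (word κ it) (restW T it)) (fun κ hv ih h h2 => ?_) κ h.valid h h2
  rcases good_prog h with ha | ha | ⟨κ', hκ⟩
  · obtain ⟨h3, h4⟩ := (rest_iff hv).1 ha
    refine Eqv.of_eq (word_congr (len_eq (by rw [h3]; rfl)) fun i hi => ?_)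
    have hi' : i < 2 * q := by simpa [len, h2] using hi
    simp only [Good, h3] at h
    obtain ⟨-, g1, g2, g3⟩ := h
    simp only [letter, ctlAt, dynAt, restCfg, h3, h4, g1 i hi', g2, g3 i hi']
    rfl
  · rw [((cross_iff hv).1 ha).1] at h2
    cases h2
  · exact (Eqv.of_step (hw_step hv hκ it)).trans
      (ih κ' hκ ((good_hw hv hκ T).1 h) ((hw_valid hv hκ).2.trans h2))

theorem good_eqv_two {κ : Cfg} {T : ℕ → Sym} (h : Good q κ T) (h2 : κ.st.cls.two = true)
    (it : ℕ → Fin q) :
    Eqv (sys q) (word κ it) (restW T it ++ restW (sh q T) (sh q it)) := by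
  have h6 := six_le (q := q)
  refine hw_induction (q := q) (p := fun κ => Good q κ T → κ.st.cls.two = true →
    Eqv (sys q) (word κ it) (restW T it ++ restW (sh q T) (sh q it)))
    (fun κ hv ih h h2 => ?_) κ h.valid h h2
  rcases good_prog h with ha | ha | ⟨κ', hκ⟩
  · rw [((rest_iff hv).1 ha).1] at h2
    cases h2
  · obtain ⟨h3, h4⟩ := (cross_iff hv).1 ha
    simp only [Good, h3] at h
    obtain ⟨-, -, g1, g2, g3⟩ := h
    refine (Eqv.of_step (cross_step h3 h4 it)).trans
      (Eqv.append (good_eqv_one ?_ rfl it) (good_eqv_one ?_ rfl _))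
    · exact ⟨by simp only [crossL]; omega, fun i hi => g1 i (by omega), g2,
        fun i hi => g3 i (by omega)⟩
    · exact ⟨by simp only [crossR]; omega, fun i hi => g1 _ (by omega), rfl,
        fun i hi => g3 _ (by omega)⟩
  · exact (Eqv.of_step (hw_step hv hκ it)).trans
      (ih κ' hκ ((good_hw hv hκ T).1 h) ((hw_valid hv hκ).2.trans h2))

/-- a head at rest -/
theorem nf_rest {κ : Cfg} (h3 : κ.st = .W) (h4 : κ.pos = 0) (it : ℕ → Fin q) :
    IsZero (sys q) (word κ it) ∨ ∃ T, Good q κ T := by
  have h6 := six_le (q := q)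
  obtain ⟨s, p, tr, ptr, mn⟩ := κ
  simp only at h3 h4
  subst h3 h4
  by_cases ht : tr = blank
  swap
  · refine Or.inl (HasZero.isZero (zero_one (i := 0) ?_ (Zer.t _ ?_)))
    · simp only [len, St.cls, Cls.two]
      simp
      omega
    · rw [letter_head _ it rfl, (side_false 0).2 (by omega)]
      exact ⟨ht, Or.inr (Or.inr rfl)⟩
  by_cases hp : ∀ i < 2 * q, ptr i = false
  · exact Or.inr ⟨mn, by simp only; omega, hp, ht, fun _ _ => rfl⟩
  push Not at hp
  obtain ⟨i, hi, hp⟩ := hp
  refine Or.inl (IsZero.of_eqv (walkW tr ptr mn it hi).symm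
    (HasZero.isZero (zero_one (i := i) ?_ (Zer.rw _ ?_))))
  · simpa [len, St.cls, Cls.two] using hi
  · rw [letter_head _ it rfl, (side_false i).2 hi]
    exact ZRW.viol _ _ _ _ (Or.inl (by simpa using hp))

theorem nf_step {κ : Cfg} (hv : Valid q κ) (it : ℕ → Fin q)
    (ih : ∀ κ', hw q κ = some κ' → IsZero (sys q) (word κ' it) ∨ ∃ T, Good q κ' T)
    (hc : κ.st = .LK2 → κ.pos = 2 * q → IsZero (sys q) (word κ it) ∨ ∃ T, Good q κ T) :
    IsZero (sys q) (word κ it) ∨ ∃ T, Good q κ T := by
  cases hκ : hw q κ with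
  | some κ' =>
    rcases ih κ' hκ with hz | ⟨T, hT⟩
    · exact Or.inl (IsZero.of_eqv (Eqv.of_step (hw_step hv hκ it)) hz)
    · exact Or.inr ⟨T, (good_hw hv hκ T).2 hT⟩
  | none =>
    rcases hw_none hv hκ it with ha | ha | hz
    · exact nf_rest ((rest_iff hv).1 ha).1 ((rest_iff hv).1 ha).2 it
    · exact hc ((cross_iff hv).1 ha).1 ((cross_iff hv).1 ha).2
    · exact Or.inl hz.isZero

theorem nf1_one {κ : Cfg} (hv : Valid q κ) (h2 : κ.st.cls.two = false) (it : ℕ → Fin q) :
    IsZero (sys q) (word κ it) ∨ ∃ T, Good q κ T := by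
  refine hw_induction (q := q) (p := fun κ => κ.st.cls.two = false →
    IsZero (sys q) (word κ it) ∨ ∃ T, Good q κ T) (fun κ hv ih h2 => ?_) κ hv h2
  refine nf_step hv it (fun κ' hκ => ih κ' hκ ((hw_valid hv hκ).2.trans h2)) fun h3 _ => ?_
  rw [h3] at h2
  cases h2

/-- every configuration is zero or legitimate -/
theorem nf1 {κ : Cfg} (hv : Valid q κ) (it : ℕ → Fin q) :
    IsZero (sys q) (word κ it) ∨ ∃ T, Good q κ T := by
  have h6 := six_le (q := q)
  refine hw_induction (q := q) (p := fun κ => IsZero (sys q) (word κ it) ∨ ∃ T, Good q κ T)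
    (fun κ hv ih => ?_) κ hv
  refine nf_step hv it ih fun h3 h4 => ?_
  have hs := Eqv.of_step (cross_step h3 h4 it)
  have vL : Valid q (crossL q κ) :=
    ⟨by simp only [crossL, len, St.cls, Cls.two]; simp; omega, fun h => by cases h⟩
  have vR : Valid q (crossR q κ) :=
    ⟨by simp only [crossR, len, St.cls, Cls.two]; simp; omega, fun h => by cases h⟩
  rcases nf1_one vL rfl it with hz | ⟨T, hT⟩
  · exact Or.inl (IsZero.of_eqv hs (hz.left _))
  rcases nf1_one vR rfl (sh q it) with hz | ⟨T', hT'⟩
  · exact Or.inl (IsZero.of_eqv hs (hz.right _))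
  refine Or.inr ⟨κ.mn, ?_⟩
  obtain ⟨-, g1, g2, -⟩ := hT
  obtain ⟨-, g3, -, -⟩ := hT'
  simp only [Good, h3]
  refine ⟨h4.ge, by omega, fun i hi => ?_, g2, fun _ _ => rfl⟩
  by_cases hi2 : i < 2 * q
  · exact g1 i hi2
  · have := g3 (i - 2 * q) (by omega)
    simpa [crossR, sh, Nat.sub_add_cancel (not_lt.1 hi2)] using this

end Vale.Agent.P192Z.Mach
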