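import Vale.Agent.P192Z.Alg

/-!
# P192: equivalence of words for a system of binomial and monomial relations
-/

namespace Vale.Agent.P192Z

variable {X : Type}

/-- one application of a binomial relation inside a word -/
def Step (P : Pres X) (w w' : List X) : Prop :=
  ∃ a u v b, (u, v) ∈ P.eqs ∧ w = a ++ u ++ b ∧ w' = a ++ v ++ b

/-- the congruence generated by the binomial relations -/
def Eqv (P : Pres X) : List X → List X → Prop := Relation.EqvGen (Step P)

/-- the word contains a monomial relation -/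
def HasZero (P : Pres X) (w : List X) : Prop :=
  ∃ a z b, z ∈ P.zeros ∧ w = a ++ z ++ b

/-- the word is zero in the semigroup with zero given by the system -/
def IsZero (P : Pres X) (w : List X) : Prop := ∃ w', Eqv P w w' ∧ HasZero P w'

/-- the letter at place `i` exists and satisfies `St` -/
def StAt (St : X → Prop) (w : List X) (i : ℕ) : Prop := ∃ x, w[i]? = some x ∧ St x

/-- concatenation of `M` words of length `q` -/
def flat {M q : ℕ} (z : Fin M → Fin q → X) : List X :=
  (List.ofFn fun k => List.ofFn (z k)).flatten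

/-- nilpotency of linear pencils with coefficients in an algebra spanned by `ρ` elements over
the polynomial ring (dual form) -/
def NilR (P : Pres X) [Fintype X] (ρ : ℕ) : Prop :=
  ∀ (B : Type) [Ring B] [Algebra (Polynomial F2) B] (e : Fin ρ → B),
    Submodule.span (Polynomial F2) (Set.range e) = ⊤ → ∀ a : X → B,
      ∃ N : ℕ, ∀ lam : List X → Polynomial F2, P.Inv lam →
        ∑ w : Fin N → X, lam (List.ofFn w) • (List.ofFn (a ∘ w)).prod = 0

variable {P : Pres X}

theorem Eqv.refl (w : List X) : Eqv P w w := Relation.EqvGen.refl w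

theorem Eqv.symm {u v : List X} (h : Eqv P u v) : Eqv P v u := Relation.EqvGen.symm _ _ h

theorem Eqv.trans {u v w : List X} (h : Eqv P u v) (h' : Eqv P v w) : Eqv P u w :=
  Relation.EqvGen.trans _ _ _ h h'

theorem Eqv.of_step {u v : List X} (h : Step P u v) : Eqv P u v := Relation.EqvGen.rel _ _ h

theorem Eqv.of_rel {u v : List X} (h : (u, v) ∈ P.eqs) : Eqv P u v :=
  Eqv.of_step ⟨[], u, v, [], h, by simp, by simp⟩

theorem Eqv.of_eq {u v : List X} (h : u = v) : Eqv P u v := h ▸ Eqv.refl u

theorem Step.ctx {u v : List X} (h : Step P u v) (a b : List X) :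
    Step P (a ++ u ++ b) (a ++ v ++ b) := by
  obtain ⟨a', u, v, b', hr, rfl, rfl⟩ := h
  exact ⟨a ++ a', u, v, b' ++ b, hr, by simp, by simp⟩

theorem Eqv.ctx {u v : List X} (h : Eqv P u v) (a b : List X) :
    Eqv P (a ++ u ++ b) (a ++ v ++ b) := by
  induction h with
  | rel x y h => exact Eqv.of_step (h.ctx a b)
  | refl x => exact Eqv.refl _
  | symm x y _ ih => exact ih.symm
  | trans x y z _ _ ih1 ih2 => exact ih1.trans ih2

theorem Eqv.append {u v u' v' : List X} (h : Eqv P u v) (h' : Eqv P u' v') :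
    Eqv P (u ++ u') (v ++ v') := by
  have h1 := h.ctx [] u'
  have h2 := h'.ctx v []
  simp only [List.nil_append, List.append_nil] at h1 h2
  exact h1.trans h2

theorem HasZero.ctx {u : List X} (h : HasZero P u) (a b : List X) : HasZero P (a ++ u ++ b) := by
  obtain ⟨a', z, b', hz, rfl⟩ := h
  exact ⟨a ++ a', z, b' ++ b, hz, by simp⟩

theorem HasZero.isZero {u : List X} (h : HasZero P u) : IsZero P u := ⟨u, Eqv.refl u, h⟩

theorem IsZero.of_eqv {u v : List X} (h : Eqv P u v) (hv : IsZero P v) : IsZero P u := by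
  obtain ⟨w, h1, h2⟩ := hv
  exact ⟨w, h.trans h1, h2⟩

theorem IsZero.of_mem {z : List X} (h : z ∈ P.zeros) : IsZero P z :=
  ⟨z, Eqv.refl z, [], z, [], h, by simp⟩

theorem IsZero.ctx {u : List X} (h : IsZero P u) (a b : List X) : IsZero P (a ++ u ++ b) := by
  obtain ⟨w, h1, h2⟩ := h
  exact ⟨_, h1.ctx a b, h2.ctx a b⟩

theorem IsZero.left {u : List X} (h : IsZero P u) (b : List X) : IsZero P (u ++ b) := by
  simpa using h.ctx [] b

theorem IsZero.right {u : List X} (h : IsZero P u) (a : List X) : IsZero P (a ++ u) := by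
  simpa using h.ctx a []

theorem Pres.Inv.eqv {V : Type*} [Zero V] {f : List X → V} (hf : P.Inv f) {u v : List X}
    (h : Eqv P u v) : f u = f v := by
  induction h with
  | rel x y h =>
    obtain ⟨a, u, v, b, hr, rfl, rfl⟩ := h
    exact hf.1 a b u v hr
  | refl x => rfl
  | symm x y _ ih => exact ih.symm
  | trans x y z _ _ ih1 ih2 => exact ih1.trans ih2

theorem Pres.Inv.isZero {V : Type*} [Zero V] {f : List X → V} (hf : P.Inv f) {u : List X}
    (h : IsZero P u) : f u = 0 := by
  obtain ⟨w, h1, a, z, b, hz, rfl⟩ := h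
  rw [hf.eqv h1]
  exact hf.2 a b z hz

theorem Eqv.length_eq (hq : P.Homog) {u v : List X} (h : Eqv P u v) : u.length = v.length := by
  induction h with
  | rel x y h =>
    obtain ⟨a, u, v, b, hr, rfl, rfl⟩ := h
    simp [(hq.1 u v hr).1]
  | refl x => rfl
  | symm x y _ ih => exact ih.symm
  | trans x y z _ _ ih1 ih2 => exact ih1.trans ih2

/-- a letterwise encoding that respects the relations transports `Eqv` and `IsZero` -/
theorem eqv_flatMap {X' : Type} {P' : Pres X'} (enc : X' → List X)
    (h1 : ∀ u v, (u, v) ∈ P'.eqs → Eqv P (u.flatMap enc) (v.flatMap enc)) {u v : List X'}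
    (h : Eqv P' u v) : Eqv P (u.flatMap enc) (v.flatMap enc) := by
  induction h with
  | rel x y h =>
    obtain ⟨a, u, v, b, hr, rfl, rfl⟩ := h
    simp only [List.flatMap_append]
    exact (h1 u v hr).ctx _ _
  | refl x => exact Eqv.refl _
  | symm x y _ ih => exact ih.symm
  | trans x y z _ _ ih1 ih2 => exact ih1.trans ih2

theorem isZero_flatMap {X' : Type} {P' : Pres X'} (enc : X' → List X)
    (h1 : ∀ u v, (u, v) ∈ P'.eqs → Eqv P (u.flatMap enc) (v.flatMap enc))
    (h2 : ∀ z ∈ P'.zeros, IsZero P (z.flatMap enc)) {u : List X'}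
    (h : IsZero P' u) : IsZero P (u.flatMap enc) := by
  obtain ⟨w, hw, a, z, b, hz, rfl⟩ := h
  refine IsZero.of_eqv (eqv_flatMap enc h1 hw) ?_
  simp only [List.flatMap_append]
  exact (h2 z hz).ctx _ _

theorem inv_flatMap {X' : Type} {P' : Pres X'} (enc : X' → List X)
    (h1 : ∀ u v, (u, v) ∈ P'.eqs → Eqv P (u.flatMap enc) (v.flatMap enc))
    (h2 : ∀ z ∈ P'.zeros, IsZero P (z.flatMap enc)) {V : Type*} [Zero V] {f : List X → V}
    (hf : P.Inv f) : P'.Inv fun Y => f (Y.flatMap enc) := by
  refine ⟨fun a b u v h => ?_, fun a b z h => ?_⟩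
  · simp only [List.flatMap_append]
    exact hf.eqv ((h1 u v h).ctx _ _)
  · simp only [List.flatMap_append]
    exact hf.isZero ((h2 z h).ctx _ _)

/-- long nonzero words give `INF` -/
theorem inf_of_nonzero (h : ∀ N : ℕ, ∃ w : List X, N ≤ w.length ∧ ¬ IsZero P w) : P.INF := by
  classical
  intro N
  obtain ⟨w, hw, hz⟩ := h N
  refine ⟨w, fun u => if IsZero P u then 0 else 1, ⟨fun a b u v e => ?_, fun a b z e => ?_⟩, hw,
    by simp [hz]⟩
  · have h1 : Eqv P (a ++ u ++ b) (a ++ v ++ b) := (Eqv.of_rel e).ctx a b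
    have : IsZero P (a ++ u ++ b) ↔ IsZero P (a ++ v ++ b) :=
      ⟨fun h => IsZero.of_eqv h1.symm h, fun h => IsZero.of_eqv h1 h⟩
    simp only [this]
  · simp only [(IsZero.of_mem e).ctx a b, if_true]

end Vale.Agent.P192Z
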